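import Vale.Agent.P280Z.Tr.Defs

/-!
# P280Z, block Tr: statements of the rows
-/

open scoped Manifold ContDiff Topology Matrix Matrix.Norms.Elementwise
open Set Filter Asymptotics
open Vale.Agent.P272.K Vale.Agent.P281Z Vale.Agent.P280Z.Mp
open Vale.Agent.P277Z (Hol)
open Vale.Agent.P277Z.Slc (dd)

noncomputable section

namespace Vale.Agent.P280Z.Tr

/-! ### Half A: bundles which are trivial on the curves -/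

/-- row HOM: homogeneous holomorphic functions -/
def HOM : Prop := ∀ (q : ℕ) (W : Type) [NormedAddCommGroup W] [NormedSpace ℂ W]
  [FiniteDimensional ℂ W] (m : ℤ) (f : Cm q → W), 2 ≤ q →
  (∀ y, y ≠ 0 → AnalyticAt ℂ f y ∧ ∀ c : ℂ, c ≠ 0 → f (c • y) = c ^ m • f y) →
  (m < 0 → ∀ y, y ≠ 0 → f y = 0) ∧ (m = 0 → ∃ a, ∀ y, y ≠ 0 → f y = a) ∧
  (m = 1 → ∃ L : Cm q →ₗ[ℂ] W, ∀ y, y ≠ 0 → f y = L y) ∧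
  (m = 2 → ∃ B : Cm q →ₗ[ℂ] Cm q →ₗ[ℂ] W, (∀ y y', B y y' = B y' y) ∧ ∀ y, y ≠ 0 → f y = B y y)

/-- row LSOL: solutions of injective linear systems -/
def LSOL : Prop := ∀ (T H W : Type) [NormedAddCommGroup T] [NormedSpace ℂ T] [NormedAddCommGroup H]
  [NormedSpace ℂ H] [FiniteDimensional ℂ H] [NormedAddCommGroup W] [NormedSpace ℂ W]
  [FiniteDimensional ℂ W] (L : T → H →ₗ[ℂ] W) (x : T → H) (τ : T),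
  (∀ h, AnalyticAt ℂ (fun t => L t h) τ) → Function.Injective (L τ) →
  (∀ᶠ t in 𝓝 τ, Function.Injective (L t)) ∧
    (AnalyticAt ℂ (fun t => L t (x t)) τ → AnalyticAt ℂ x τ)

/-- block TVX: bundles on the line -/
def TVX : Prop := ∀ {n : ℕ} {V : Mf n} {Ω : Type} [AddCommGroup Ω] [Module ℂ Ω] (E : HB V.X Ω)
  (f : Cm 2 → V.X), IsHB E → Ln f → Inj E f → Om E f 0 → Tv E f

/-- block TRN: the transport -/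
def TRN : Prop := ∀ {n N r δ d D k : ℕ} {V : Mf n} {P : Eqs r N} {pt : Cm N → V.X}
  (F : Fam V P pt d D k) {Ω : Type} [AddCommGroup Ω] [Module ℂ Ω] (E : HB V.X Ω),
  Hyp V P δ pt d → IsHB E → (∀ a, F.M a → Tv E fun y => pt (ev a y)) → ∃ Φ, Tp F.p F.e E Φ

/-- block GLB: global sections -/
def GLB : Prop := ∀ {n u k : ℕ} {V : Mf n} {U : Mf u} {K : Mf k} (p : U.X → K.X) (e : U.X → V.X)
  {Ω : Type} [AddCommGroup Ω] [Module ℂ Ω] (E : HB V.X Ω) (Φ : U.X → U.X → Ω →ₗ[ℂ] Ω), IsHB E →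
  Sub u k p → Sub u n e → Function.Surjective e → Tp p e E Φ → CC p e → SC V →
  ConnectedSpace V.X → ∀ x, ∀ v ∈ E.A x, ∃ s : V.X → Ω, (∀ y, HolS E (fun y => y) s y) ∧ s x = v

/-! ### Half B: the bundle of the fields -/

/-- row CAP: arcs in a model cone -/
structure CAP {ν p : ℕ} (M : Mo ν p) : Prop where
  ex : ∀ v ∈ M.C, ∀ w ∈ M.TC v, ∃ γ : ℂ → Cm ν, AnalyticAt ℂ γ 0 ∧ γ 0 = v ∧ deriv γ 0 = w ∧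
    ∀ᶠ t in 𝓝 (0 : ℂ), γ t ∈ M.C
  vel : ∀ γ : ℂ → Cm ν, AnalyticAt ℂ γ 0 → (∀ᶠ t in 𝓝 (0 : ℂ), γ t ∈ M.C) →
    deriv γ 0 ∈ M.TC (γ 0)
  rad : ∀ v ∈ M.C, v ∈ M.TC v
  smul : ∀ v ∈ M.C, ∀ c : ℂ, c ≠ 0 → M.TC (c • v) = M.TC v
  ret : ∀ v ∈ M.C, ∀ᶠ v' in 𝓝 v, v' ∈ M.C → M.κ v (M.ρ v v') ∈ M.C ∧
    (∀ w ∈ M.TC v', fderiv ℂ (M.κ v) (M.ρ v v') (fderiv ℂ (M.ρ v) v' w) = w) ∧
    (∀ s, fderiv ℂ (M.κ v) (M.ρ v v') s ∈ M.TC v') ∧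
    ∀ s, fderiv ℂ (M.ρ v) v' (fderiv ℂ (M.κ v) (M.ρ v v') s) = s
  rk : ∀ v ∈ M.C, Module.finrank ℂ (M.TC v) = p + 1
  aut : ∀ h, M.G0 h → (∀ v ∈ M.C, ∀ w, h *ᵥ w ∈ M.TC (h *ᵥ v) ↔ w ∈ M.TC v) ∧
    ∀ η ∈ M.g0, h * η * h⁻¹ ∈ M.g0
  ad : ∀ h, M.G0 h → ∀ φ : M.g0 →ₗ[ℂ] M.g0, (∀ η, (φ η).1 = h * η.1 * h⁻¹) →
    LinearMap.det φ ^ 2 = 1

def CAPX : Prop := ∀ {ν p : ℕ} (M : Mo ν p), M.Sm → CAP M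

section
variable {d N r : ℕ}

/-- the deformations which fix the point `z` -/
def Kr (P : Eqs r N) (a : BF d N) (z : Cm 2) (b : BF d N) : Prop := b ∈ Tg P a ∧ ev b z = 0

/-- the twisted deformations -/
def H1 (P : Eqs r N) (a : BF d N) : Submodule ℂ (Cm 2 →ₗ[ℂ] BF d N) where
  carrier := {μ | ∀ y, Kr P a y (μ y)}
  add_mem' := fun {μ μ'} h h' y => ⟨(Tg P a).add_mem (h y).1 (h' y).1, by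
    have e : ev ((μ + μ') y) y = ev (μ y) y + ev (μ' y) y := by
      simp only [ev, LinearMap.add_apply, Pi.add_apply, smul_add, Finset.sum_add_distrib]
    rw [e, (h y).2, (h' y).2, add_zero]⟩
  zero_mem' y := ⟨(Tg P a).zero_mem, by
    simp only [ev, LinearMap.zero_apply, Pi.zero_apply, smul_zero, Finset.sum_const_zero]⟩
  smul_mem' := fun c μ h y => ⟨(Tg P a).smul_mem c (h y).1, by
    have e : ev ((c • μ) y) y = c • ev (μ y) y := by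
      simp only [ev, LinearMap.smul_apply, Pi.smul_apply, Finset.smul_sum, smul_comm c]
    rw [e, (h y).2, smul_zero]⟩

/-- the matrix of `z ↦ lf y z • u` -/
def Eu (u y : Cm 2) : M2 := Matrix.vecMulVec u ![-y 1, y 0]

end

/-- row DIV: division by a linear form -/
def DIV : Prop := ∀ {d N r : ℕ} (P : Eqs r N) (a : BF d N) (y : Cm 2), y ≠ 0 →
  (∀ μ ∈ H1 P a, μ y = 0 → μ = 0) ∧ (∀ b, Kr P a y b → ∃ μ ∈ H1 P a, μ y = b) ∧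
  (∀ B : BF d N, (∀ z, lf y z ≠ 0 → ev B z = 0) → B = 0) ∧
  (Crv P a → ∀ u, ∃ μ ∈ H1 P a, ∀ y', μ y' = inf a (Eu u y'))

section fam
variable {n N r d D k ν p : ℕ} {V : Mf n} {P : Eqs r N} {pt : Cm N → V.X} (F : Fam V P pt d D k)

/-- local lifts to the cone -/
structure Lm (P : Eqs r N) (pt : Cm N → V.X) (χ : Chart n V.X) (B : Set (Cm n))
    (lam : Cm n → Cm N) (ℓ : Cm N →ₗ[ℂ] ℂ) : Prop where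
  atl : χ ∈ atlas (Cm n) V.X
  opn : IsOpen B
  sub : B ⊆ χ.target
  an : ∀ ξ ∈ B, AnalyticAt ℂ lam ξ
  mem : ∀ ξ ∈ B, In P (lam ξ) ∧ pt (lam ξ) = χ.symm ξ
  tan : ∀ ξ ∈ B, ∀ w, Jm P (lam ξ) *ᵥ w = 0 ↔
    ∃ (u : Cm n) (c : ℂ), w = fderiv ℂ lam ξ u + c • lam ξ
  ind : ∀ ξ ∈ B, ∀ (u : Cm n) (c : ℂ), fderiv ℂ lam ξ u + c • lam ξ = 0 → u = 0 ∧ c = 0
  ne : ∀ ξ ∈ B, ℓ (lam ξ) ≠ 0
  crd : ∀ ξ ∈ B, ∀ y, In P y → pt y = χ.symm ξ → ∃ ρ : Cm N → Cm n, AnalyticAt ℂ ρ y ∧ ρ y = ξ ∧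
    ∀ᶠ y' in 𝓝 y, In P y' → pt y' = χ.symm (ρ y')

/-- the function `θ` on the pointed parametrised curves over `O` -/
structure TH (Mc : Mo ν p) (O : Set V.X) (θ : BF d N → Cm 2 → Cm ν) : Prop where
  mem : ∀ x ∈ O, ∀ a z, Ov F x a z → θ a z ∈ Mc.C
  eq : ∀ x ∈ O, ∀ a z z' (g : M2) (c : ℂ), Ov F x a z → z' ≠ 0 → g.det ≠ 0 →
    g *ᵥ z' = c • z → θ (act a g) z' = (g.det / c ^ 2) • θ a z
  amb : ∀ x ∈ O, ∀ a z, Ov F x a z → ∃ Θ : BF d N × Cm 2 → Cm ν, AnalyticAt ℂ Θ (a, z) ∧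
    ∀ᶠ q in 𝓝 (a, z), F.M q.1 → θ q.1 q.2 = Θ q
  onto : ∀ x ∈ O, ∀ v ∈ Mc.C, ∃ a z, Ov F x a z ∧ θ a z = v
  inj : ∀ x ∈ O, ∀ a z a' z', Ov F x a z → Ov F x a' z' → θ a' z' = θ a z →
    ∃ (g : M2) (c : ℂ), g.det ≠ 0 ∧ a' = act a g ∧ g *ᵥ z' = c • z
  sec : ∀ x ∈ O, ∀ v ∈ Mc.C, ∀ χ : Chart n V.X, At χ x →
    ∃ (a : Cm n × Cm ν → BF d N) (z : Cm n × Cm ν → Cm 2), AnalyticAt ℂ a (χ x, v) ∧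
      AnalyticAt ℂ z (χ x, v) ∧ ∀ᶠ q in 𝓝 (χ x, v), q.2 ∈ Mc.C →
        Ov F (χ.symm q.1) (a q) (z q) ∧ θ (a q) (z q) = q.2

/-- normal forms, without the description of the tangent spaces -/
structure NF0 (Mc : Mo ν p) (Q : ND V d N ν) : Prop where
  atl : Q.χ ∈ atlas (Cm n) V.X
  opn : IsOpen Q.B
  sub : Q.B ⊆ Q.χ.target
  lam_an : ∀ ξ ∈ Q.B, AnalyticAt ℂ Q.lam ξ
  lam_in : ∀ ξ ∈ Q.B, In P (Q.lam ξ) ∧ pt (Q.lam ξ) = Q.χ.symm ξ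
  lam_tan : ∀ ξ ∈ Q.B, ∀ w, Jm P (Q.lam ξ) *ᵥ w = 0 ↔
    ∃ (u : Cm n) (c : ℂ), w = fderiv ℂ Q.lam ξ u + c • Q.lam ξ
  lam_ind : ∀ ξ ∈ Q.B, ∀ (u : Cm n) (c : ℂ), fderiv ℂ Q.lam ξ u + c • Q.lam ξ = 0 → u = 0 ∧ c = 0
  A_an : ∀ (l : ℕ) (ξ : Cm l → Cm n) (v : Cm l → Cm ν) (τ : Cm l), AnalyticAt ℂ ξ τ →
    AnalyticAt ℂ v τ → ξ τ ∈ Q.B → (∀ᶠ s in 𝓝 τ, v s ∈ Mc.C) →
    AnalyticAt ℂ (fun s => Q.A (ξ s) (v s)) τ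
  A_M : ∀ ξ ∈ Q.B, ∀ v ∈ Mc.C, F.M (Q.A ξ v) ∧ ev (Q.A ξ v) e0 = Q.lam ξ ∧ Q.θ (Q.A ξ v) e0 = v
  A_hom : ∀ ξ ∈ Q.B, ∀ v ∈ Mc.C, ∀ c : ℂ, c ≠ 0 → Q.A ξ (c • v) = act (Q.A ξ v) (dg c)
  θ_mem : ∀ ξ ∈ Q.B, ∀ a z, Ov F (Q.χ.symm ξ) a z → Q.θ a z ∈ Mc.C
  θ_eq : ∀ ξ ∈ Q.B, ∀ a z z' (g : M2) (c : ℂ), Ov F (Q.χ.symm ξ) a z → z' ≠ 0 → g.det ≠ 0 →
    g *ᵥ z' = c • z → Q.θ (act a g) z' = (g.det / c ^ 2) • Q.θ a z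
  θ_an : ∀ (l : ℕ) (ξ : Cm l → Cm n) (a : Cm l → BF d N) (z : Cm l → Cm 2) (τ : Cm l),
    AnalyticAt ℂ a τ → AnalyticAt ℂ z τ →
    (∀ᶠ s in 𝓝 τ, ξ s ∈ Q.B ∧ Ov F (Q.χ.symm (ξ s)) (a s) (z s)) →
    AnalyticAt ℂ ξ τ ∧ AnalyticAt ℂ (fun s => Q.θ (a s) (z s)) τ ∧ ∃ g : Cm l → M2,
      AnalyticAt ℂ g τ ∧ ∀ᶠ s in 𝓝 τ, (g s).det ≠ 0 ∧ (∃ c : ℂ, g s *ᵥ e0 = c • z s) ∧
        act (a s) (g s) = Q.A (ξ s) (Q.θ (a s) (z s))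

theorem NF.to0 {F : Fam V P pt d D k} {Mc : Mo ν p} {Q : ND V d N ν} (h : NF F Mc Q) :
    NF0 F Mc Q :=
  ⟨h.atl, h.opn, h.sub, h.lam_an, h.lam_in, h.lam_tan, h.lam_ind, h.A_an, h.A_M, h.A_hom, h.θ_mem,
    h.θ_eq, h.θ_an⟩

/-- the fields of the standard frame exist -/
def Ex (Mc : Mo ν p) (Q : ND V d N ν) : Prop :=
  ∀ ξ ∈ Q.B, ∀ w t, ∀ η ∈ Mc.g0, ∀ α, ∃ S ∈ TA F (Q.χ.symm ξ), ∀ v ∈ Mc.C,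
    S (Q.A ξ v) e0 = Q.fr Mc ξ w t η α v

/-- the point `x` is in the domain of the normal form -/
def ND.Dm (Q : ND V d N ν) (x : V.X) : Prop := x ∈ Q.χ.source ∧ Q.χ x ∈ Q.B

/-- arcs of curves through the same point of the cone -/
def Arc (a : BF d N) (z : Cm 2) (γ : ℂ → BF d N) : Prop :=
  AnalyticAt ℂ γ 0 ∧ γ 0 = a ∧ ∀ᶠ t in 𝓝 (0 : ℂ), F.M (γ t) ∧ ev (γ t) z = ev a z

/-- row NAP: the differential of a normal form -/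
structure NAP (Mc : Mo ν p) (Q : ND V d N ν) : Prop where
  arc : ∀ (ξ : ℂ → Cm n) (γ : ℂ → Cm ν), AnalyticAt ℂ ξ 0 → AnalyticAt ℂ γ 0 → ξ 0 ∈ Q.B →
    (∀ᶠ t in 𝓝 (0 : ℂ), γ t ∈ Mc.C) → AnalyticAt ℂ (fun t => Q.A (ξ t) (γ t)) 0 ∧
      deriv (fun t => Q.A (ξ t) (γ t)) 0 = Q.DA Mc (ξ 0) (γ 0) (deriv ξ 0, deriv γ 0)
  loc : ∀ ξ ∈ Q.B, ∀ v ∈ Mc.C, ∃ L : Cm n × Cm ν → Cm n × Cm ν →L[ℂ] BF d N,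
    AnalyticAt ℂ L (ξ, v) ∧ ∀ᶠ q in 𝓝 (ξ, v), q.2 ∈ Mc.C → ∀ u, ∀ w ∈ Mc.TC q.2,
      Q.DA Mc q.1 q.2 (u, w) = L q (u, w)
  tg : ∀ ξ ∈ Q.B, ∀ v ∈ Mc.C, ∀ u, ∀ w ∈ Mc.TC v, Q.DA Mc ξ v (u, w) ∈ Tg P (Q.A ξ v) ∧
    ev (Q.DA Mc ξ v (u, w)) e0 = fderiv ℂ Q.lam ξ u
  hom : ∀ ξ ∈ Q.B, ∀ v ∈ Mc.C, ∀ u, ∀ w ∈ Mc.TC v, ∀ c : ℂ, c ≠ 0 →
    Q.DA Mc ξ (c • v) (u, c • w) = act (Q.DA Mc ξ v (u, w)) (dg c) ∧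
    c • inf (Q.A ξ (c • v)) E01 = act (inf (Q.A ξ v) E01) (dg c)
  nrm : ∀ ξ ∈ Q.B, ∀ a z, Ov F (Q.χ.symm ξ) a z → ∃ (g : M2) (c : ℂ), c ≠ 0 ∧ g.det = c ^ 2 ∧
    g *ᵥ e0 = c • z ∧ act a g = Q.A ξ (Q.θ a z)
  fam : ∀ (T : Type) [NormedAddCommGroup T] [NormedSpace ℂ T] [FiniteDimensional ℂ T]
    (a : T → BF d N) (z : T → Cm 2) (τ : T), AnalyticAt ℂ a τ → AnalyticAt ℂ z τ →
    (∀ᶠ s in 𝓝 τ, F.M (a s)) → z τ ≠ 0 → Q.Dm (pt (ev (a τ) (z τ))) →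
    AnalyticAt ℂ (fun s => Q.χ (pt (ev (a s) (z s)))) τ ∧
    AnalyticAt ℂ (fun s => Q.θ (a s) (z s)) τ ∧ ∃ (g : T → M2) (c : T → ℂ), AnalyticAt ℂ g τ ∧
      AnalyticAt ℂ c τ ∧ ∀ᶠ s in 𝓝 τ, Q.Dm (pt (ev (a s) (z s))) ∧ c s ≠ 0 ∧
        (g s).det = c s ^ 2 ∧ g s *ᵥ e0 = c s • z s ∧
        act (a s) (g s) = Q.A (Q.χ (pt (ev (a s) (z s)))) (Q.θ (a s) (z s))

/-- `L` is the differential of `θ` along the arcs -/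
structure Dth (Mc : Mo ν p) (Q : ND V d N ν) (a : BF d N) (z : Cm 2) (L : BF d N →ₗ[ℂ] Cm ν) :
    Prop where
  kr : ∀ γ, Arc F a z γ → Kr P a z (deriv γ 0)
  der : ∀ γ, Arc F a z γ → AnalyticAt ℂ (fun t => Q.θ (γ t) z) 0 ∧
    deriv (fun t => Q.θ (γ t) z) 0 = L (deriv γ 0)
  mem : ∀ b, Kr P a z b → L b ∈ Mc.TC (Q.θ a z)
  onto : ∀ γ : ℂ → Cm ν, AnalyticAt ℂ γ 0 → γ 0 = Q.θ a z → (∀ᶠ t in 𝓝 (0 : ℂ), γ t ∈ Mc.C) →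
    ∃ γ', Arc F a z γ' ∧ ∀ᶠ t in 𝓝 (0 : ℂ), Q.θ (γ' t) z = γ t
  ker : ∀ b, Kr P a z b → L b = 0 → ∃ c : ℂ, b = c • inf a (Eu z z)
  gl : ∀ u, L (inf a (Eu u z)) = lf z u • Q.θ a z
  dec : ∀ (g : M2) (c : ℂ), g.det ≠ 0 → g *ᵥ e0 = c • z →
    act a g = Q.A (Q.χ (pt (ev a z))) (Q.θ a z) → ∀ b, Kr P a z b → ∃ β : ℂ, act b g =
      Q.DA Mc (Q.χ (pt (ev a z))) (Q.θ a z) (0, L b) + β • inf (act a g) E01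

/-- the change of the normal form at `x` -/
structure Chg (Mc : Mo ν p) (Q Q' : ND V d N ν) (x : V.X) (h : Matrix (Fin ν) (Fin ν) ℂ) :
    Prop where
  aut : Mc.G0 h
  θ : ∀ a z, Ov F x a z → Q'.θ a z = h *ᵥ Q.θ a z

/-- the coordinates `c` in `Q` and `c'` in `Q'` give the same field at `x` -/
def Same (Mc : Mo ν p) (Q Q' : ND V d N ν) (x : V.X) (c c' : Co n Mc) : Prop :=
  ∃ S ∈ TA F x, ∀ v ∈ Mc.C,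
    S (Q.A (Q.χ x) v) e0 = Q.fr Mc (Q.χ x) c.1.1 c.1.2 c.2.1 c.2.2 v ∧
    S (Q'.A (Q'.χ x) v) e0 = Q'.fr Mc (Q'.χ x) c'.1.1 c'.1.2 c'.2.1 c'.2.2 v

end fam

/-- the standing hypotheses -/
structure Hy {n N r d D k ν p : ℕ} {V : Mf n} {P : Eqs r N} {pt : Cm N → V.X}
    (F : Fam V P pt d D k) (Mc : Mo ν p) : Prop where
  hyp : ∃ δ, Hyp V P δ pt d
  dim : k + 1 = n + p
  dimD : k + 4 = D
  sm : Mc.Sm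
  cap : CAP Mc

/-- quantification over a family and a model -/
def All (R : ∀ {n N r d D k ν p : ℕ} {V : Mf n} {P : Eqs r N} {pt : Cm N → V.X},
    Fam V P pt d D k → Mo ν p → Prop) : Prop :=
  ∀ {n N r d D k ν p : ℕ} {V : Mf n} {P : Eqs r N} {pt : Cm N → V.X} (F : Fam V P pt d D k)
    (Mc : Mo ν p), Hy F Mc → R F Mc

/-- row LAM -/
def LAM : Prop := ∀ {n N r δ : ℕ} {V : Mf n} {P : Eqs r N} {pt : Cm N → V.X}, Cone V P δ pt →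
  ∀ x (O : Set V.X), IsOpen O → x ∈ O → ∃ χ B lam ℓ, Lm P pt χ B lam ℓ ∧ x ∈ χ.source ∧
    χ x ∈ B ∧ ∀ ξ ∈ B, χ.symm ξ ∈ O

/-- row THE -/
def THE : Prop := All fun F Mc => ∀ O θ, MF F Mc O θ → ∃ θ', TH F Mc O θ'

/-- row NRM1 -/
def NRM1 : Prop := All fun {_ N _ d _ _ _ _ _ P pt} F Mc => ∀ O θ χ B lam ℓ, TH F Mc O θ →
  Lm P pt χ B lam ℓ → (∀ ξ ∈ B, χ.symm ξ ∈ O) → ∃ (A : _) (φ : BF d N →ₗ[ℂ] ℂ),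
    NF0 F Mc ⟨χ, B, lam, A, θ⟩ ∧ ∀ ξ ∈ B, ∀ v ∈ Mc.C, φ (A ξ v) = 0 ∧ φ (inf (A ξ v) E01) ≠ 0

/-- row NRM2 -/
def NRM2 : Prop := All fun {_ N _ d _ _ _ _ _ _ _} F Mc => ∀ O Q (φ : BF d N →ₗ[ℂ] ℂ),
  TH F Mc O Q.θ → (∀ ξ ∈ Q.B, Q.χ.symm ξ ∈ O) → NF0 F Mc Q → NAP F Mc Q →
  (∀ ξ ∈ Q.B, ∀ v ∈ Mc.C, φ (Q.A ξ v) = 0 ∧ φ (inf (Q.A ξ v) E01) ≠ 0) → NF F Mc Q

/-- row NAP -/
def NAPX : Prop := All fun F Mc => ∀ Q, NF0 F Mc Q → NAP F Mc Q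

/-- row STR1 -/
def STR1 : Prop := All fun F Mc => ∀ Q, NF F Mc Q → NAP F Mc Q → Ex F Mc Q

/-- row STR2 -/
def STR2 : Prop := All fun F Mc => ∀ Q, NF F Mc Q → NAP F Mc Q → Ex F Mc Q → Str F Mc Q

/-- row LCH: two lifts to the cone -/
def LCH : Prop := All fun {n _ _ _ _ _ _ _ _ _ _} F Mc => ∀ Q Q' x, NF F Mc Q → NF F Mc Q' →
  Q.Dm x → Q'.Dm x → ∃ (m : ℂ) (l : Cm n →ₗ[ℂ] ℂ), m ≠ 0 ∧ Q'.lam (Q'.χ x) = m • Q.lam (Q.χ x) ∧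
    ∀ u, fderiv ℂ Q'.lam (Q'.χ x) (jacM Q.χ Q'.χ x *ᵥ u) =
      m • fderiv ℂ Q.lam (Q.χ x) u + l u • Q'.lam (Q'.χ x)

/-- row TBX -/
def TBX : Prop := All fun F Mc => NFs F Mc → (∀ Q, NF F Mc Q → NAP F Mc Q ∧ Str F Mc Q) →
  ∃ E Q β, TB F Mc E Q β

/-- row CHG: changes of normal forms -/
def CHG : Prop := All fun F Mc => ∀ Q Q' x, NF F Mc Q → NAP F Mc Q → Str F Mc Q → NF F Mc Q' →
  NAP F Mc Q' → Str F Mc Q' → Q.Dm x → Q'.Dm x → ∃ h, Chg F Mc Q Q' x h ∧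
    ∀ c c', Same F Mc Q Q' x c c' → c'.1.1 = jacM Q.χ Q'.χ x *ᵥ c.1.1 ∧
      (c.1.1 = 0 → c'.1.2 = c.1.2) ∧ (c.1 = 0 → c'.2.1.1 = h * c.2.1.1 * h⁻¹) ∧
      (c.1 = 0 → c.2.1 = 0 → c'.2.2 ᵥ* h = c.2.2)

/-- row FLD: vector fields from sections -/
def FLD : Prop := All fun {n _ _ _ _ _ _ _ V _ _} F Mc => ∀ E Q β, TB F Mc E Q β →
  (∀ i j x c c', x ∈ E.U i → x ∈ E.U j → E.b j x c = E.b i x c' →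
    (β c').1.1 = jacM (Q j).χ (Q i).χ x *ᵥ (β c).1.1) →
  (∀ x, ∀ v ∈ E.A x, ∃ s, (∀ y, HolS E (fun y => y) s y) ∧ s x = v) → Gp.Gen n V.X

/-- row DTH -/
def DTH : Prop := All fun F Mc => ∀ Q x a z, NF F Mc Q → NAP F Mc Q → Q.Dm x → Ov F x a z →
  ∃ L, Dth F Mc Q a z L

/-- row CRV: families of arcs -/
def CRV : Prop := All fun {_ N _ d _ _ _ _ _ P pt} F Mc => ∀ Q (a : BF d N) (y₁ : Cm 2),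
  NF F Mc Q → NAP F Mc Q → F.M a → y₁ ≠ 0 → Q.Dm (pt (ev a y₁)) → ∀ μ ∈ H1 P a,
  ∃ γ : ℂ × Cm 2 → BF d N, AnalyticAt ℂ γ (0, y₁) ∧
    (∀ᶠ q in 𝓝 ((0 : ℂ), y₁), F.M (γ q) ∧ ev (γ q) q.2 = ev a q.2) ∧
    ∀ᶠ y in 𝓝 y₁, Arc F a y (fun t => γ (t, y)) ∧ deriv (fun t => γ (t, y)) 0 = μ y

/-- the jets of a field which vanishes at a curve -/
structure Jet {n N r d D k : ℕ} {V : Mf n} {P : Eqs r N} {pt : Cm N → V.X} (F : Fam V P pt d D k)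
    (S : Am d N) (a : BF d N) (z : Cm 2) : Prop where
  one : ∀ γ, Arc F a z γ → ev (deriv (fun t => S (γ t) z) 0) z = 0 ∧ ∀ γ', Arc F a z γ' →
    deriv γ 0 = deriv γ' 0 → deriv (fun t => S (γ t) z) 0 = deriv (fun t => S (γ' t) z) 0
  two : (∀ γ, Arc F a z γ → deriv (fun t => S (γ t) z) 0 = 0) → ∀ γ, Arc F a z γ →
    (∃ q : ℂ, deriv (deriv fun t => S (γ t) z) 0 = q • inf a (Eu z z)) ∧ ∀ γ', Arc F a z γ' →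
      deriv γ 0 = deriv γ' 0 →
        deriv (deriv fun t => S (γ t) z) 0 = deriv (deriv fun t => S (γ' t) z) 0
  fin : (∀ γ, Arc F a z γ → deriv (fun t => S (γ t) z) 0 = 0 ∧
    deriv (deriv fun t => S (γ t) z) 0 = 0) → S = 0

/-- row JET -/
def JET : Prop := All fun F Mc => Mc.Osc → ∀ Q x a z L, NF F Mc Q → NAP F Mc Q → Str F Mc Q →
  Q.Dm x → Ov F x a z → Dth F Mc Q a z L → ∀ S ∈ TA F x, S a z = 0 → Jet F S a z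

/-- row INJ -/
def INJ : Prop := All fun {_ _ _ _ _ _ _ _ _ _ pt} F Mc => ∀ E Q β, TB F Mc E Q β →
  (∀ Q, NF F Mc Q → NAP F Mc Q) →
  (∀ x a z, Ov F x a z → ∀ S ∈ TA F x, S a z = 0 → Jet F S a z) →
  ∀ a, F.M a → Inj E fun y => pt (ev a y)

/-- row OMT: the degree of the tangent bundle -/
def OMT : Prop := All fun {_ N _ d _ _ ν p V _ pt} F Mc => ∀ a, F.M a →
  (∀ Q, NF F Mc Q → NAP F Mc Q) → ∃ w : ND V d N ν → Cm 2 → ℂ, ∀ Q y, NF F Mc Q → y ≠ 0 →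
    Q.Dm (pt (ev a y)) → AnalyticAt ℂ (w Q) y ∧ w Q y ≠ 0 ∧
      (∀ c : ℂ, c ≠ 0 → w Q (c • y) = c ^ (p + 2) * w Q y) ∧ ∀ Q', NF F Mc Q' →
        Q'.Dm (pt (ev a y)) → w Q y = (jacM Q.χ Q'.χ (pt (ev a y))).det * w Q' y

/-- row OMV: the degree of the bundle which contains the cones -/
def OMV : Prop := All fun {_ N _ d _ _ ν p V _ pt} F Mc => ∀ δ : ℤ, Mc.Dl δ → NFs F Mc →
  (∀ Q, NF F Mc Q → NAP F Mc Q) → ∀ a, F.M a →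
  ∃ (k : ℕ) (w : ND V d N ν → Cm 2 → ℂ), 0 < k ∧
    (∀ Q y, NF F Mc Q → y ≠ 0 → Q.Dm (pt (ev a y)) → AnalyticAt ℂ (w Q) y ∧
      (∀ c : ℂ, c ≠ 0 → w Q (c • y) = c ^ ((k : ℤ) * ((p : ℤ) + 2 - δ)) * w Q y) ∧
      ∀ Q' h, NF F Mc Q' → Q'.Dm (pt (ev a y)) → Chg F Mc Q Q' (pt (ev a y)) h →
        w Q' y * h.det ^ k = w Q y) ∧
    ∃ Q y, NF F Mc Q ∧ y ≠ 0 ∧ Q.Dm (pt (ev a y)) ∧ w Q y ≠ 0

/-- row OMB: the determinant of the transition matrices -/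
def OMB : Prop := All fun F Mc => ∀ E Q β, TB F Mc E Q β → (∀ Q, NF F Mc Q → NAP F Mc Q) →
  ∀ i j x, x ∈ E.U i → x ∈ E.U j → ∃ h, Chg F Mc (Q j) (Q i) x h ∧
    (∀ c c', E.b j x c = E.b i x c' → (β c').1.1 = jacM (Q j).χ (Q i).χ x *ᵥ (β c).1.1) ∧
    ∀ m : Matrix (Fin E.r) (Fin E.r) ℂ, (∀ c, E.b j x c = E.b i x (m *ᵥ c)) →
      (m.det * h.det) ^ 2 = (jacM (Q j).χ (Q i).χ x).det ^ 2

/-- **the output of the block** -/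
def TR : Prop := ∀ {n N r δ d D k ν p : ℕ} {V : Mf n} {P : Eqs r N} {pt : Cm N → V.X}
  (F : Fam V P pt d D k) (Mc : Mo ν p), Hyp V P δ pt d → k + 1 = n + p → k + 4 = D →
  ConnectedSpace V.X → SC V → CC F.p F.e → Mc.Sm → Mc.Osc → Mc.Dl 0 →
  (∀ x, ∃ O θ, x ∈ O ∧ MF F Mc O θ) → Gp.Gen n V.X

end Vale.Agent.P280Z.Tr
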