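import Vale.Agent.P280Z.Tr.Sk
import Vale.Agent.P280Z.Gm.Defs

/-!
# P280Z, block Tr, half A: statements of the rows
-/

open scoped Manifold ContDiff Topology Matrix Matrix.Norms.Elementwise
open Set Filter Asymptotics
open Vale.Agent.P272.K Vale.Agent.P281Z Vale.Agent.P280Z.Mp

noncomputable section

namespace Vale.Agent.P280Z.Tr

/-- row BGA: sections with a pole at infinity -/
def BGA : Prop := ∀ (r : ℕ) (ι : Type) (O : ι → Set ℂ)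
  (g : ι → ι → ℂ → Matrix (Fin r) (Fin r) ℂ) (o : ι), Cc r ι O g o →
  ∃ (c : ι → ℂ → Matrix (Fin r) (Fin r) ℂ) (m : ℕ), Sc O g c ∧
    (c o =O[Bornology.cobounded ℂ] fun z => z ^ m) ∧ ∃ i, ∃ z ∈ O i, (c i z).det ≠ 0

/-- quantification over a bundle and a rational curve -/
def AllL (R : ∀ {n : ℕ} {V : Mf n} {Ω : Type} [AddCommGroup Ω] [Module ℂ Ω], HB V.X Ω →
    (Cm 2 → V.X) → Prop) : Prop :=
  ∀ {n : ℕ} {V : Mf n} {Ω : Type} [AddCommGroup Ω] [Module ℂ Ω] (E : HB V.X Ω) (f : Cm 2 → V.X),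
    IsHB E → Ln f → R E f

/-- row BGH: twisted sections which are independent somewhere -/
def BGH : Prop := AllL fun {_ _ Ω _ _} E f => ∃ (m : ℕ) (s : Fin E.r → Cm 2 → Ω),
  (∀ j, Sec E f m (s j)) ∧ ∃ y, y ≠ 0 ∧ LinearIndependent ℂ fun j => s j y

/-- row DVS: division of a section by a linear form -/
def DVS : Prop := AllL fun {_ _ Ω _ _} E f => ∀ (m : ℤ) (s : Cm 2 → Ω) (y₁ : Cm 2),
  Sec E f m s → y₁ ≠ 0 → s y₁ = 0 →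
  ∃ s', Sec E f (m - 1) s' ∧ ∀ y, y ≠ 0 → s y = lf y₁ y • s' y

/-- row RED: twisted sections which are independent everywhere -/
def RED : Prop := AllL fun {_ _ Ω _ _} E f => Inj E f → ∀ (m : ℕ) (s : Fin E.r → Cm 2 → Ω),
  (∀ j, Sec E f m (s j)) → (∃ y, y ≠ 0 ∧ LinearIndependent ℂ fun j => s j y) →
  ∃ (a : Fin E.r → ℕ) (s' : Fin E.r → Cm 2 → Ω), (∀ j, Sec E f (a j) (s' j)) ∧
    ∀ y, y ≠ 0 → LinearIndependent ℂ fun j => s' j y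

/-- row TVF: the degrees vanish -/
def TVF : Prop := AllL fun {_ _ Ω _ _} E f => Inj E f → Om E f 0 →
  ∀ (a : Fin E.r → ℕ) (s : Fin E.r → Cm 2 → Ω), (∀ j, Sec E f (a j) (s j)) →
  (∀ y, y ≠ 0 → LinearIndependent ℂ fun j => s j y) → Tv E f

theorem tvx_of (h1 : BGH) (h2 : RED) (h3 : TVF) : TVX := fun E f hE hf hi ho => by
  obtain ⟨m, s, k1, k2⟩ := h1 E f hE hf
  obtain ⟨a, s', k3, k4⟩ := h2 E f hE hf hi m s k1 k2
  exact h3 E f hE hf hi ho a s' k3 k4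

/-- row PAR: sections depend holomorphically on parameters -/
def PAR : Prop := ∀ {n : ℕ} {V : Mf n} {Ω : Type} [AddCommGroup Ω] [Module ℂ Ω] (E : HB V.X Ω)
  (l : ℕ) (f : Cm l → Cm 2 → V.X) (s : Cm l → Cm 2 → Ω) (z : Cm l → Cm 2) (τ : Cm l), IsHB E →
  (∀ y, y ≠ 0 → AnM (fun q : Cm l × Cm 2 => f q.1 q.2) (τ, y)) →
  (∀ᶠ t in 𝓝 τ, Ln (f t) ∧ Sec E (f t) 0 (s t)) → Inj E (f τ) → AnalyticAt ℂ z τ → z τ ≠ 0 →
  AnS E (fun t => f t (z t)) (fun t => s t (z t)) τ →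
  ∀ y, y ≠ 0 → AnS E (fun q : Cm l × Cm 2 => f q.1 q.2) (fun q => s q.1 q.2) (τ, y)

/-- row CHS: the manifolds of the chains -/
def CHS : Prop := ∀ {n u k : ℕ} {V : Mf n} {U : Mf u} {K : Mf k} (p : U.X → K.X) (e : U.X → V.X)
  {Ω : Type} [AddCommGroup Ω] [Module ℂ Ω] (E : HB V.X Ω) (Φ : U.X → U.X → Ω →ₗ[ℂ] Ω), IsHB E →
  Sub u k p → Sub u n e → (∀ y, IsPreconnected (p ⁻¹' {y})) → (∀ x, IsConnected (e ⁻¹' {x})) →
  Tp p e E Φ → ∀ (x : V.X) (N : ℕ),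
  ∃ (l : ℕ) (C : Mf l) (ε : C.X → V.X) (Ψ : C.X → Ω →ₗ[ℂ] Ω), ConnectedSpace C.X ∧ HolM l n ε ∧
    (∀ v ∈ E.A x, ∀ c, HolS E ε (fun c => Ψ c v) c) ∧
    ∀ y φ, Rch p e Φ x N y φ ↔ ∃ c, ε c = y ∧ Ψ c = φ

/-- row COVR: coverings given by sheets -/
def COVR : Prop := ∀ {n : ℕ} (V : Mf n) (C : Type) [TopologicalSpace C] [CompactSpace C]
  [ConnectedSpace C] (ε : C → V.X) (Ω : Type) (s : C → Ω), SC V → Continuous ε →
  (∀ z₀, ∃ (O : Set V.X) (F : Type) (ψ : V.X → F → Ω), IsOpen O ∧ z₀ ∈ O ∧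
    (∀ z ∈ O, Function.Injective (ψ z)) ∧ (∀ z ∈ O, ∀ w, ∃ c, ε c = z ∧ s c = ψ z w) ∧
    ∀ c₀, ε c₀ ∈ O → ∃ w, ∀ᶠ c in 𝓝 c₀, s c = ψ (ε c) w) →
  ∀ c c', ε c = ε c' → s c = s c'

/-- block GLB with connected fibres -/
def GLC : Prop := ∀ {n u k : ℕ} {V : Mf n} {U : Mf u} {K : Mf k} (p : U.X → K.X) (e : U.X → V.X)
  {Ω : Type} [AddCommGroup Ω] [Module ℂ Ω] (E : HB V.X Ω) (Φ : U.X → U.X → Ω →ₗ[ℂ] Ω), IsHB E →
  Sub u k p → Sub u n e → (∀ y, IsPreconnected (p ⁻¹' {y})) → (∀ x, IsConnected (e ⁻¹' {x})) →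
  Tp p e E Φ → CC p e → SC V →
  ∀ x, ∀ v ∈ E.A x, ∃ s : V.X → Ω, (∀ y, HolS E (fun y => y) s y) ∧ s x = v

/-- row SCC: Fano manifolds have no coverings -/
def SCC : Prop := ∀ T : CT, T.OK → Gm.HRR T → ∀ {n : ℕ} (V : Mf n), ConnectedSpace V.X →
  Gm.Fa T V → SC V

/-- row FCN: the fibres of the family are connected -/
def FCN : Prop := ∀ {n N r d D k : ℕ} {V : Mf n} {P : Eqs r N} {pt : Cm N → V.X}
  (F : Fam V P pt d D k), (∀ y, IsPreconnected (F.p ⁻¹' {y})) ∧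
    (ConnectedSpace V.X → SC V → ConnectedSpace F.U.X → ∀ x, IsConnected (F.e ⁻¹' {x}))

/-- row CHN: chains, if the directions of the curves span the tangent spaces -/
def CHN : Prop := ∀ {n u k : ℕ} {V : Mf n} {U : Mf u} {K : Mf k} (p : U.X → K.X)
  (e : U.X → V.X), Sub u k p → Sub u n e → ConnectedSpace V.X →
  (∀ x (α : Cm n →ₗ[ℂ] ℂ), (∀ z, e z = x → ∀ w, Df u k p z w = 0 → α (Df u n e z w) = 0) →
    α = 0) → CC p e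

/-- **the output of half A** -/
def HA : Prop := ∀ {n N r δ d D k : ℕ} {V : Mf n} {P : Eqs r N} {pt : Cm N → V.X}
  (F : Fam V P pt d D k) {Ω : Type} [AddCommGroup Ω] [Module ℂ Ω] (E : HB V.X Ω),
  Hyp V P δ pt d → ConnectedSpace V.X → SC V → ConnectedSpace F.U.X → CC F.p F.e → IsHB E →
  (∀ a, F.M a → Inj E (fun y => pt (ev a y)) ∧ Om E (fun y => pt (ev a y)) 0) →
  ∀ x, ∀ v ∈ E.A x, ∃ s : V.X → Ω, (∀ y, HolS E (fun y => y) s y) ∧ s x = v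

/-- row LNA: the members of the family are holomorphic -/
def LNA : Prop := ∀ {n N r δ d : ℕ} {V : Mf n} {P : Eqs r N} {pt : Cm N → V.X}, Cone V P δ pt →
  (∀ (T : Type) [NormedAddCommGroup T] [NormedSpace ℂ T] (x : T → Cm N) (τ : T),
    AnalyticAt ℂ x τ → (∀ᶠ t in 𝓝 τ, In P (x t)) → AnM (fun t => pt (x t)) τ) ∧
  ∀ a : BF d N, Crv P a → Ln fun y => pt (ev a y)

theorem ha_of (h1 : TVX) (h2 : TRN) (h3 : GLC) (h4 : FCN) (h5 : LNA) : HA :=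
  fun F _ _ _ E hy hV hS hU hC hE h => by
  obtain ⟨Φ, hΦ⟩ := h2 F E hy hE fun a ha =>
    h1 E _ hE ((h5 hy.cone).2 a (F.cd a ha).1) (h a ha).1 (h a ha).2
  exact h3 F.p F.e E Φ hE ⟨F.p_hol, F.p_sbm⟩ ⟨F.e_hol, F.e_sbm⟩ (h4 F).1 ((h4 F).2 hV hS hU) hΦ
    hC hS

end Vale.Agent.P280Z.Tr
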