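import Vale.Agent.P280Z.Tr.Api
import Vale.Agent.P280Z.Tr.SkA

/-!
# P280Z, block Tr: the assembly
-/

open scoped Manifold ContDiff Topology Matrix Matrix.Norms.Elementwise
open Set Filter
open Vale.Agent.P272.K Vale.Agent.P281Z Vale.Agent.P280Z.Mp

noncomputable section

namespace Vale.Agent.P280Z.Tr

variable {n N r d D k ν p : ℕ} {V : Mf n} {P : Eqs r N} {pt : Cm N → V.X} {F : Fam V P pt d D k}
  {Mc : Mo ν p}

theorem nfs_of (h1 : LAM) (h2 : THE) (h3 : NRM1) (h4 : NRM2) (h5 : NAPX) (H : Hy F Mc)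
    (h : ∀ x, ∃ O θ, x ∈ O ∧ MF F Mc O θ) : NFs F Mc := fun x => by
  obtain ⟨O, θ, hx, hO⟩ := h x
  obtain ⟨δ, hy⟩ := H.hyp
  obtain ⟨θ', h'⟩ := h2 F Mc H O θ hO
  obtain ⟨χ, B, lam, ℓ, hL, k1, k2, k3⟩ := h1 hy.cone x O hO.opn hx
  obtain ⟨A, φ, k4, k5⟩ := h3 F Mc H O θ' χ B lam ℓ h' hL k3
  exact ⟨_, h4 F Mc H O ⟨χ, B, lam, A, θ'⟩ φ h' k3 k4 (h5 F Mc H _ k4) k5, k1, k2⟩

/-- the degree of the bundle of the fields on the curves -/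
theorem om_of (h1 : OMT) (h2 : OMV) (h3 : OMB) (h4 : CHG) (H : Hy F Mc) {δ : ℤ} (hδ : Mc.Dl δ)
    (hN : NFs F Mc) (hA : ∀ Q, NF F Mc Q → NAP F Mc Q) (hS : ∀ Q, NF F Mc Q → Str F Mc Q)
    {E : HB V.X (Am d N)}
    {Q : E.ι → ND V d N ν} {β : Cm E.r ≃ₗ[ℂ] Co n Mc} (hT : TB F Mc E Q β) {a : BF d N}
    (ha : F.M a) : Om E (fun y => pt (ev a y)) δ := by
  obtain ⟨w, hw⟩ := h1 F Mc H a ha hA
  obtain ⟨m, u, hm, hu, Q₀, y₀, k1, k2, k3, k4⟩ := h2 F Mc H δ hδ hN hA a ha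
  have chg : ∀ i j y, y ≠ 0 → pt (ev a y) ∈ E.U i → pt (ev a y) ∈ E.U j →
      ∀ M : Matrix (Fin E.r) (Fin E.r) ℂ, 
      (∀ c, E.b j (pt (ev a y)) c = E.b i (pt (ev a y)) (M *ᵥ c)) →
      (u (Q i) y / w (Q i) y ^ m) ^ 2 = M.det ^ (2 * m) * (u (Q j) y / w (Q j) y ^ m) ^ 2 := by
    intro i j y hy hi hj M hM
    obtain ⟨h, c1, -, c2⟩ := h3 F Mc H E Q β hT hA i j _ hi hj
    have di := (hT.dom i _).1 hi
    have dj := (hT.dom j _).1 hj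
    obtain ⟨-, n1, -, e1⟩ := hw _ y (hT.nf j) hy dj
    have n2 := (hw _ y (hT.nf i) hy di).2.1
    have e2 := (hu _ y (hT.nf j) hy dj).2.2 _ h (hT.nf i) di c1
    have e3 := congrArg (· ^ m) (c2 M hM)
    have e4 := e1 _ (hT.nf i) di
    have n3 : (jacM (Q j).χ (Q i).χ (pt (ev a y))).det ≠ 0 := fun q => n1 (by rw [e4, q, zero_mul])
    rw [← e2, e4]
    generalize (jacM (Q j).χ (Q i).χ (pt (ev a y))).det = J at e3 n3 ⊢
    have e5 : (M.det ^ m * h.det ^ m) ^ 2 = (J ^ m) ^ 2 := by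
      rw [← mul_pow, ← pow_mul, ← pow_mul, mul_comm m 2, pow_mul, pow_mul]; exact e3
    have n4 := pow_ne_zero m n3
    have n5 := pow_ne_zero m n2
    rw [mul_pow J, mul_comm 2 m, pow_mul]
    generalize J ^ m = J' at e5 n4 ⊢
    generalize w (Q i) y ^ m = W at n5 ⊢
    field_simp
    linear_combination (-u (Q i) y ^ 2) * e5
  refine ⟨2 * m, fun i y => (u (Q i) y / w (Q i) y ^ m) ^ 2, by omega, fun i y hy hi => ?_,
    chg, ?_⟩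
  · have di := (hT.dom i _).1 hi
    obtain ⟨a1, n1, s1, -⟩ := hw _ y (hT.nf i) hy di
    obtain ⟨a2, s2, -⟩ := hu _ y (hT.nf i) hy di
    refine ⟨(a2.div (a1.pow m) (pow_ne_zero _ n1)).pow 2, fun c hc => ?_⟩
    show (u (Q i) (c • y) / w (Q i) (c • y) ^ m) ^ 2 = _
    rw [s1 c hc, s2 c hc, mul_pow, mul_div_mul_comm, mul_pow, ← pow_mul, ← zpow_natCast c,
      ← zpow_sub₀ hc, ← zpow_natCast (c ^ _), ← zpow_mul]
    congr 2
    push_cast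
    ring
  · obtain ⟨i, hi⟩ := hT.hb.cov (pt (ev a y₀))
    have di := (hT.dom i _).1 hi
    obtain ⟨h, c1, -⟩ := h4 F Mc H _ Q₀ _ (hT.nf i) (hA _ (hT.nf i)) (hT.str i) k1 (hA _ k1)
      (hS _ k1) di k3
    refine ⟨i, y₀, k2, hi, pow_ne_zero _ (div_ne_zero ?_ (pow_ne_zero _ (hw _ _ (hT.nf i) k2 di).2.1))⟩
    rw [← (hu _ _ (hT.nf i) k2 di).2.2 _ h k1 k3 c1]
    exact mul_ne_zero k4 (pow_ne_zero _ c1.aut.1)

/-- **the output of the block**, for a connected family -/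
def TRC : Prop := ∀ {n N r δ d D k ν p : ℕ} {V : Mf n} {P : Eqs r N} {pt : Cm N → V.X}
  (F : Fam V P pt d D k) (Mc : Mo ν p), Hyp V P δ pt d → k + 1 = n + p → k + 4 = D →
  ConnectedSpace V.X → ConnectedSpace F.U.X → SC V → CC F.p F.e → Mc.Sm → Mc.Osc → Mc.Dl 0 →
  (∀ x, ∃ O θ, x ∈ O ∧ MF F Mc O θ) → Gp.Gen n V.X

/-- normal forms exist -/
def NFX : Prop := All fun F Mc => (∀ x, ∃ O θ, x ∈ O ∧ MF F Mc O θ) → NFs F Mc

theorem trc_of (ha : HA) (cap : CAPX) (nfx : NFX) (nap : NAPX) (s1 : STR1) (s2 : STR2) (tbx : TBX) (fld : FLD)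
    (dth : DTH) (jet : JET) (inj : INJ) (omt : OMT) (omv : OMV) (omb : OMB) (chg : CHG) :
    TRC := by
  intro n N r δ d D k ν p V P pt F Mc hy d1 d2 hc hu sc cc sm osc dl mf
  have H : Hy F Mc := ⟨⟨δ, hy⟩, d1, d2, sm, cap Mc sm⟩
  have hN := nfx F Mc H mf
  have hA : ∀ Q, NF F Mc Q → NAP F Mc Q := fun Q h => nap F Mc H Q h.to0
  have hS : ∀ Q, NF F Mc Q → Str F Mc Q := fun Q h =>
    s2 F Mc H Q h (hA Q h) (s1 F Mc H Q h (hA Q h))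
  obtain ⟨E, Q, β, hT⟩ := tbx F Mc H hN fun Q h => ⟨hA Q h, hS Q h⟩
  have hJ : ∀ x a z, Ov F x a z → ∀ S ∈ TA F x, S a z = 0 → Jet F S a z :=
    fun x a z k S hS' h0 => by
    obtain ⟨Q', q1, q2⟩ := hN x
    obtain ⟨L, hL⟩ := dth F Mc H Q' x a z q1 (hA _ q1) q2 k
    exact jet F Mc H osc Q' x a z L q1 (hA _ q1) (hS _ q1) q2 k hL S hS' h0
  refine fld F Mc H E Q β hT (fun i j x c c' hi hj => ?_) (ha F E hy hc sc hu cc hT.hb fun a ha =>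
    ⟨inj F Mc H E Q β hT hA hJ a ha, om_of omt omv omb chg H dl hN hA hS hT ha⟩)
  obtain ⟨h, -, k, -⟩ := omb F Mc H E Q β hT hA i j x hi hj
  exact k c c'

end Vale.Agent.P280Z.Tr
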