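import Vale.Agent.P280Z.Tr.Sk

/-!
# P280Z, block Tr: arcs in a model cone
-/

open scoped Topology Matrix
open Set Filter
open Vale.Agent.P272.K

noncomputable section

namespace Vale.Agent.P280Z.Tr

namespace Cap

variable {ν p : ℕ} {M : Mo ν p}

theorem line {q : ℕ} (x s : Cm q) :
    AnalyticAt ℂ (fun t : ℂ => x + t • s) 0 ∧ HasDerivAt (fun t : ℂ => x + t • s) s 0 ∧
      Tendsto (fun t : ℂ => x + t • s) (𝓝 0) (𝓝 x) := by
  have h1 : AnalyticAt ℂ (fun t : ℂ => x + t • s) 0 :=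
    analyticAt_const.add (analyticAt_id.smul analyticAt_const)
  refine ⟨h1, ?_, ?_⟩
  · have h := ((hasDerivAt_id (0 : ℂ)).smul_const s).const_add x
    rwa [one_smul] at h
  · have h := h1.continuousAt.tendsto
    rwa [zero_smul, add_zero] at h

theorem arc {q : ℕ} {f : Cm q → Cm ν} {x : Cm q} (hf : AnalyticAt ℂ f x) (s : Cm q) :
    AnalyticAt ℂ (fun t : ℂ => f (x + t • s)) 0 ∧
      deriv (fun t : ℂ => f (x + t • s)) 0 = fderiv ℂ f x s := by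
  obtain ⟨h1, h2, -⟩ := line x s
  have e : x + (0 : ℂ) • s = x := by rw [zero_smul, add_zero]
  refine ⟨AnalyticAt.comp_of_eq (g := f) (f := fun t : ℂ => x + t • s) hf h1 e, ?_⟩
  exact (HasFDerivAt.comp_hasDerivAt_of_eq (l := f) (f := fun t : ℂ => x + t • s) (0 : ℂ)
    hf.differentiableAt.hasFDerivAt h2 e.symm).deriv

theorem chain {q : ℕ} {κ : Cm q → Cm ν} {ρ : Cm ν → Cm q} {γ : ℂ → Cm ν} (hγ : AnalyticAt ℂ γ 0)
    (hρ : AnalyticAt ℂ ρ (γ 0)) (hκ : AnalyticAt ℂ κ (ρ (γ 0)))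
    (e : ∀ᶠ t in 𝓝 (0 : ℂ), κ (ρ (γ t)) = γ t) :
    fderiv ℂ κ (ρ (γ 0)) (fderiv ℂ ρ (γ 0) (deriv γ 0)) = deriv γ 0 := by
  have h1 : HasDerivAt (fun t => ρ (γ t)) (fderiv ℂ ρ (γ 0) (deriv γ 0)) 0 :=
    hρ.differentiableAt.hasFDerivAt.comp_hasDerivAt (0 : ℂ) hγ.differentiableAt.hasDerivAt
  have h2 : HasDerivAt (fun t => κ (ρ (γ t)))
      (fderiv ℂ κ (ρ (γ 0)) (fderiv ℂ ρ (γ 0) (deriv γ 0))) 0 :=
    HasFDerivAt.comp_hasDerivAt (l := κ) (f := fun t => ρ (γ t)) (0 : ℂ)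
      hκ.differentiableAt.hasFDerivAt h1
  rw [← h2.deriv]
  exact Filter.EventuallyEq.deriv_eq e

theorem rv (h : M.Sm) {v : Cm ν} (hv : v ∈ M.C) : M.ρ v v = 0 := by
  have e := (h.ρκ v hv).self_of_nhds.2
  rwa [(h.anκ v hv).2] at e

theorem ex (h : M.Sm) {v : Cm ν} (hv : v ∈ M.C) {w : Cm ν} (hw : w ∈ M.TC v) :
    ∃ γ : ℂ → Cm ν, AnalyticAt ℂ γ 0 ∧ γ 0 = v ∧ deriv γ 0 = w ∧
      ∀ᶠ t in 𝓝 (0 : ℂ), γ t ∈ M.C := by
  obtain ⟨s, rfl⟩ := (h.tan v hv w).1 hw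
  obtain ⟨h1, h2⟩ := arc (h.anκ v hv).1 s
  refine ⟨fun t => M.κ v (0 + t • s), h1, ?_, h2, ?_⟩
  · simp only [zero_smul, add_zero, (h.anκ v hv).2]
  · exact ((line 0 s).2.2.eventually (h.ρκ v hv)).mono fun t ht => ht.1

theorem vel (h : M.Sm) {γ : ℂ → Cm ν} (hγ : AnalyticAt ℂ γ 0)
    (hC : ∀ᶠ t in 𝓝 (0 : ℂ), γ t ∈ M.C) : deriv γ 0 ∈ M.TC (γ 0) := by
  have hv : γ 0 ∈ M.C := hC.self_of_nhds
  have e : ∀ᶠ t in 𝓝 (0 : ℂ), M.κ (γ 0) (M.ρ (γ 0) (γ t)) = γ t := by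
    filter_upwards [hC, hγ.continuousAt.tendsto.eventually (h.κρ _ hv)] with t h1 h2 using h2 h1
  have hκ : AnalyticAt ℂ (M.κ (γ 0)) (M.ρ (γ 0) (γ 0)) := by
    rw [rv h hv]; exact (h.anκ _ hv).1
  have k := chain hγ (h.anρ _ hv) hκ e
  rw [rv h hv] at k
  exact (h.tan _ hv _).2 ⟨_, k⟩

theorem lin (h : M.Sm) (A : Cm ν →ₗ[ℂ] Cm ν) (hA : ∀ v ∈ M.C, A v ∈ M.C) {v : Cm ν}
    (hv : v ∈ M.C) {w : Cm ν} (hw : w ∈ M.TC v) : A w ∈ M.TC (A v) := by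
  obtain ⟨γ, h1, rfl, rfl, h4⟩ := ex h hv hw
  have a1 : AnalyticAt ℂ (fun t => A (γ t)) 0 :=
    ((LinearMap.toContinuousLinearMap A).analyticAt (γ 0)).comp h1
  have a2 : HasDerivAt (fun t => A (γ t)) (A (deriv γ 0)) 0 :=
    (LinearMap.toContinuousLinearMap A).hasFDerivAt.comp_hasDerivAt (0 : ℂ)
      h1.differentiableAt.hasDerivAt
  have k := vel h a1 (h4.mono fun t ht => hA _ ht)
  rwa [a2.deriv] at k

theorem rad (h : M.Sm) {v : Cm ν} (hv : v ∈ M.C) : v ∈ M.TC v := by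
  obtain ⟨h1, h2, -⟩ := line v v
  have h3 : ∀ᶠ t in 𝓝 (0 : ℂ), v + t • v ∈ M.C := by
    have c : ContinuousAt (fun t : ℂ => 1 + t) 0 := continuousAt_const.add continuousAt_id
    have n : (fun t : ℂ => 1 + t) 0 ≠ 0 := by simp
    filter_upwards [c.eventually_ne n] with t ht
    have k := h.smul v hv (1 + t) ht
    rwa [add_smul, one_smul] at k
  have k := vel h h1 h3
  rwa [h2.deriv, zero_smul, add_zero] at k

theorem smul_le (h : M.Sm) {v : Cm ν} (hv : v ∈ M.C) {c : ℂ} (hc : c ≠ 0) :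
    M.TC v ≤ M.TC (c • v) := fun w hw => by
  have k : c • w ∈ M.TC (c • v) :=
    lin h (c • LinearMap.id) (fun v hv => h.smul v hv c hc) hv hw
  exact (Submodule.smul_mem_iff _ hc).1 k

theorem smul (h : M.Sm) {v : Cm ν} (hv : v ∈ M.C) {c : ℂ} (hc : c ≠ 0) :
    M.TC (c • v) = M.TC v := by
  refine le_antisymm ?_ (smul_le h hv hc)
  have k := smul_le h (h.smul v hv c hc) (inv_ne_zero hc)
  rwa [inv_smul_smul₀ hc] at k

theorem ret (h : M.Sm) {v : Cm ν} (hv : v ∈ M.C) :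
    ∀ᶠ v' in 𝓝 v, v' ∈ M.C → M.κ v (M.ρ v v') ∈ M.C ∧
      (∀ w ∈ M.TC v', fderiv ℂ (M.κ v) (M.ρ v v') (fderiv ℂ (M.ρ v) v' w) = w) ∧
      (∀ s, fderiv ℂ (M.κ v) (M.ρ v v') s ∈ M.TC v') ∧
      ∀ s, fderiv ℂ (M.ρ v) v' (fderiv ℂ (M.κ v) (M.ρ v v') s) = s := by
  have t0 : Tendsto (M.ρ v) (𝓝 v) (𝓝 0) := by
    have k := (h.anρ v hv).continuousAt.tendsto
    rwa [rv h hv] at k
  filter_upwards [(h.anρ v hv).eventually_analyticAt,
    t0.eventually (h.anκ v hv).1.eventually_analyticAt, (h.κρ v hv).eventually_nhds,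
    t0.eventually (h.ρκ v hv).eventually_nhds] with v' a b c d hv'
  have e : M.κ v (M.ρ v v') = v' := c.self_of_nhds hv'
  refine ⟨e.symm ▸ hv', fun w hw => ?_, fun s => ?_, fun s => ?_⟩
  · obtain ⟨γ, h1, rfl, rfl, h4⟩ := ex h hv' hw
    refine chain h1 a b ?_
    filter_upwards [h4, h1.continuousAt.tendsto.eventually c] with t k1 k2 using k2 k1
  · obtain ⟨h1, h2⟩ := arc b s
    have k := vel h h1 (((line _ s).2.2.eventually d).mono fun t ht => ht.1)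
    rwa [h2, zero_smul, add_zero, e] at k
  · have k1 : HasFDerivAt (fun s => M.ρ v (M.κ v s))
        ((fderiv ℂ (M.ρ v) v').comp (fderiv ℂ (M.κ v) (M.ρ v v'))) (M.ρ v v') := by
      refine HasFDerivAt.comp (g := M.ρ v) (f := M.κ v) _ ?_ b.differentiableAt.hasFDerivAt
      rw [e]; exact a.differentiableAt.hasFDerivAt
    have k2 : HasFDerivAt (fun s => M.ρ v (M.κ v s)) (ContinuousLinearMap.id ℂ _) (M.ρ v v') :=
      (hasFDerivAt_id _).congr_of_eventuallyEq (d.mono fun s hs => hs.2)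
    exact congrArg (fun L : Cm (p + 1) →L[ℂ] Cm (p + 1) => L s) (k1.unique k2)

theorem rk (h : M.Sm) {v : Cm ν} (hv : v ∈ M.C) : Module.finrank ℂ (M.TC v) = p + 1 := by
  have k := ((ret h hv).self_of_nhds hv).2.2.2
  rw [rv h hv] at k
  have i : Function.Injective (fderiv ℂ (M.κ v) 0).toLinearMap :=
    Function.LeftInverse.injective (g := fderiv ℂ (M.ρ v) v) k
  have e : M.TC v = LinearMap.range (fderiv ℂ (M.κ v) 0).toLinearMap :=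
    Submodule.ext fun w => h.tan v hv w
  rw [e, LinearMap.finrank_range_of_inj i, Module.finrank_fin_fun]

theorem inv {g : Matrix (Fin ν) (Fin ν) ℂ} (hg : M.G0 g) :
    g * g⁻¹ = 1 ∧ g⁻¹ * g = 1 ∧ ∀ v ∈ M.C, g⁻¹ *ᵥ v ∈ M.C := by
  have u : IsUnit g.det := isUnit_iff_ne_zero.2 hg.1
  refine ⟨g.mul_nonsing_inv u, g.nonsing_inv_mul u, fun v hv => (hg.2 _).1 ?_⟩
  rwa [Matrix.mulVec_mulVec, g.mul_nonsing_inv u, Matrix.one_mulVec]

theorem aut (h : M.Sm) {g : Matrix (Fin ν) (Fin ν) ℂ} (hg : M.G0 g) :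
    (∀ v ∈ M.C, ∀ w, g *ᵥ w ∈ M.TC (g *ᵥ v) ↔ w ∈ M.TC v) ∧
      ∀ η ∈ M.g0, g * η * g⁻¹ ∈ M.g0 := by
  obtain ⟨i1, i2, i3⟩ := inv hg
  have f : ∀ v ∈ M.C, ∀ w ∈ M.TC v, g *ᵥ w ∈ M.TC (g *ᵥ v) := fun v hv w hw =>
    lin h g.mulVecLin (fun v hv => (hg.2 v).2 hv) hv hw
  refine ⟨fun v hv w => ⟨fun hw => ?_, f v hv w⟩, fun η hη v hv => ?_⟩
  · have k : g⁻¹ *ᵥ g *ᵥ w ∈ M.TC (g⁻¹ *ᵥ g *ᵥ v) :=
      lin h g⁻¹.mulVecLin i3 ((hg.2 v).2 hv) hw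
    rwa [Matrix.mulVec_mulVec, Matrix.mulVec_mulVec, i2, Matrix.one_mulVec,
      Matrix.one_mulVec] at k
  · have k := f _ (i3 v hv) _ (hη _ (i3 v hv))
    rwa [Matrix.mulVec_mulVec, Matrix.mulVec_mulVec, Matrix.mulVec_mulVec, i1,
      Matrix.one_mulVec] at k

/-- the trace form -/
def tf (M : Mo ν p) : LinearMap.BilinForm ℂ M.g0 :=
  LinearMap.mk₂ ℂ (fun a b => (a.1 * b.1).trace)
    (fun a a' b => by rw [Submodule.coe_add, Matrix.add_mul, Matrix.trace_add])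
    (fun c a b => by rw [Submodule.coe_smul, Matrix.smul_mul, Matrix.trace_smul])
    (fun a b b' => by rw [Submodule.coe_add, Matrix.mul_add, Matrix.trace_add])
    (fun c a b => by rw [Submodule.coe_smul, Matrix.mul_smul, Matrix.trace_smul])

theorem tf_nd (h : M.Sm) : (tf M).Nondegenerate := by
  refine ⟨fun a ha => Subtype.ext (h.red a.1 a.2 fun η hη => ha ⟨η, hη⟩),
    fun a ha => Subtype.ext (h.red a.1 a.2 fun η hη => ?_)⟩
  rw [Matrix.trace_mul_comm]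
  exact ha ⟨η, hη⟩

theorem ad (h : M.Sm) {g : Matrix (Fin ν) (Fin ν) ℂ} (hg : M.G0 g) (φ : M.g0 →ₗ[ℂ] M.g0)
    (hφ : ∀ η, (φ η).1 = g * η.1 * g⁻¹) : LinearMap.det φ ^ 2 = 1 := by
  obtain ⟨-, i2, -⟩ := inv hg
  let b := Module.finBasis ℂ M.g0
  have e : (tf M).comp φ φ = tf M := by
    refine LinearMap.ext fun a => LinearMap.ext fun a' => ?_
    change ((φ a).1 * (φ a').1).trace = (a.1 * a'.1).trace
    have k : g * a.1 * g⁻¹ * (g * a'.1 * g⁻¹) = g * (a.1 * a'.1 * g⁻¹) := by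
      simp only [Matrix.mul_assoc]
      rw [← Matrix.mul_assoc g⁻¹ g, i2, Matrix.one_mul]
    rw [hφ, hφ, k, Matrix.trace_mul_comm, Matrix.mul_assoc, i2, Matrix.mul_one]
  have d := (LinearMap.BilinForm.nondegenerate_iff_det_ne_zero b).1 (tf_nd h)
  have k := congrArg Matrix.det (LinearMap.BilinForm.toMatrix_comp b b (tf M) φ φ)
  rw [e, Matrix.det_mul, Matrix.det_mul, Matrix.det_transpose, LinearMap.det_toMatrix] at k
  apply mul_left_cancel₀ d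
  linear_combination -k

end Cap

theorem capx : CAPX := fun _ h =>
  ⟨fun _ hv _ hw => Cap.ex h hv hw, fun _ h1 h2 => Cap.vel h h1 h2, fun _ hv => Cap.rad h hv,
    fun _ hv _ hc => Cap.smul h hv hc, fun _ hv => Cap.ret h hv, fun _ hv => Cap.rk h hv,
    fun _ hg => Cap.aut h hg, fun _ hg φ hφ => Cap.ad h hg φ hφ⟩

end Vale.Agent.P280Z.Tr
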