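import Vale.Agent.P280Z.Tr.Ver
import Vale.Agent.P280Z.Tr.Cap

/-!
# P280Z, block Tr: the semi-invariant of the Veronese cone
-/

open scoped Manifold ContDiff Topology Matrix Matrix.Norms.Elementwise
open Set Filter Asymptotics
open Vale.Agent.P272.K Vale.Agent.P281Z Vale.Agent.P280Z.Mp

noncomputable section

namespace Vale.Agent.P280Z.Tr

namespace Vr

variable {x : Cm 3} {v : Cm 6}

/-- the products of three vectors -/
def s2 (e f g : Cm 3) : Matrix (Fin 6) (Fin 6) ℂ :=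
  (Matrix.of ![vr e, vr f, vr g, vb e f, vb e g, vb f g])ᵀ

theorem s2_vr (e f g y : Cm 3) : s2 e f g *ᵥ vr y = vr (y 0 • e + y 1 • f + y 2 • g) := by
  funext i
  fin_cases i <;> simp [s2, vr, vb, Matrix.mulVec, dotProduct, Fin.sum_univ_six] <;> ring

open Classical in
/-- division by `x` -/
def dv (x : Cm 3) (w : Cm 6) : Cm 3 := if h : ∃ u, vb x u = w then h.choose else 0

theorem dv_eq (hx : x ≠ 0) (u : Cm 3) : dv x (vb x u) = u := by
  have k : ∃ u', vb x u' = vb x u := ⟨u, rfl⟩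
  rw [dv, dif_pos k]; exact vb_inj hx k.choose_spec

/-- the determinant of the osculating frame -/
def Th (v : Cm 6) (w : Fin 2 → Cm 6) : ℂ := (s2 (rt v) (dv (rt v) (w 0)) (dv (rt v) (w 1))).det

theorem s2_sc (s : ℂ) (hs : s ≠ 0) (e f g : Cm 3) :
    (s2 (s • e) (s⁻¹ • f) (s⁻¹ • g)).det * (s ^ 2) ^ 2 = (s2 e f g).det := by
  have : s2 (s • e) (s⁻¹ • f) (s⁻¹ • g) =
      s2 e f g * Matrix.diagonal ![s ^ 2, s⁻¹ ^ 2, s⁻¹ ^ 2, 1, 1, s⁻¹ ^ 2] := by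
    ext i j
    rw [Matrix.mul_diagonal]
    fin_cases j <;> simp [s2, vr_smul, vb_smul] <;> field_simp
  rw [this, Matrix.det_mul, Matrix.det_diagonal, Fin.prod_univ_six]
  simp
  field_simp

theorem th_eq (hx : x ≠ 0) (f g : Cm 3) {w : Fin 2 → Cm 6} (h0 : vb x f = w 0) (h1 : vb x g = w 1) :
    Th (vr x) w = (s2 x f g).det := by
  obtain ⟨c, k1, k2⟩ := vr_eq hx (rt_spec (mem hx)).2
  have hc : c ≠ 0 := fun q => by simp [q] at k1
  have e : ∀ u, vb x u = vb (c • x) (c⁻¹ • u) := fun u => by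
    rw [vb_smul, map_smul, smul_inv_smul₀ hc]
  rw [Th, ← h0, ← h1, k2, e f, e g, dv_eq (smul_ne_zero hc hx), dv_eq (smul_ne_zero hc hx),
    ← s2_sc c hc x f g, k1, one_pow, mul_one]

theorem fr_ex {w : Fin 2 → Cm 6} (h : Ver.Fr v w) :
    ∃ x f g, x ≠ 0 ∧ vr x = v ∧ vb x f = w 0 ∧ vb x g = w 1 := by
  obtain ⟨⟨x, hx, rfl⟩, h2, -⟩ := h
  obtain ⟨f, hf⟩ := (tc hx).1 (h2 0)
  obtain ⟨g, hg⟩ := (tc hx).1 (h2 1)
  exact ⟨x, f, g, hx, rfl, hf, hg⟩

/-- the matrix with three given columns -/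
def c3 (x f g : Cm 3) : Matrix (Fin 3) (Fin 3) ℂ := (Matrix.of ![x, f, g])ᵀ

theorem c3_mv (x f g y : Cm 3) : c3 x f g *ᵥ y = y 0 • x + y 1 • f + y 2 • g := by
  funext i; simp [c3, Matrix.mulVec, dotProduct, Fin.sum_univ_three, mul_comm]

theorem c3_ne {w : Fin 2 → Cm 6} {f g : Cm 3} (h : Ver.Fr (vr x) w) (hf : vb x f = w 0)
    (hg : vb x g = w 1) : (c3 x f g).det ≠ 0 := fun q => by
  obtain ⟨y, hy, k⟩ := Matrix.exists_mulVec_eq_zero_iff.2 q
  have k1 := Fintype.linearIndependent_iff.1 h.2.2 ![2 * y 0, y 1, y 2] (by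
    have := congrArg (vb x) ((c3_mv x f g y).symm.trans k)
    rw [map_add, map_add, map_smul, map_smul, map_smul, vb_self, hf, hg, map_zero, smul_smul,
      mul_comm] at this
    rw [Fin.sum_univ_three]
    exact this)
  refine hy (funext fun i => ?_)
  fin_cases i
  exacts [by simpa using k1 0, k1 1, k1 2]

theorem th_ne {w : Fin 2 → Cm 6} (h : Ver.Fr v w) : Th v w ≠ 0 := by
  obtain ⟨x, f, g, hx, rfl, hf, hg⟩ := fr_ex h
  rw [th_eq hx f g hf hg]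
  have n := c3_ne h hf hg
  have e := c3_mv x f g
  generalize c3 x f g = G at n e
  have k : s2 x f g * s2 (G⁻¹ *ᵥ Pi.single 0 1) (G⁻¹ *ᵥ Pi.single 1 1) (G⁻¹ *ᵥ Pi.single 2 1) = 1 :=
    ext fun y _ => by
      have e2 : y 0 • (Pi.single 0 1 : Cm 3) + y 1 • Pi.single 1 1 + y 2 • Pi.single 2 1 = y := by
        funext i; fin_cases i <;> simp
      rw [← Matrix.mulVec_mulVec, s2_vr, ← Matrix.mulVec_smul, ← Matrix.mulVec_smul,
        ← Matrix.mulVec_smul, ← Matrix.mulVec_add, ← Matrix.mulVec_add, e2, s2_vr, ← e,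
        Matrix.mulVec_mulVec, Matrix.mul_nonsing_inv _ n.isUnit, Matrix.one_mulVec,
        Matrix.one_mulVec]
  exact (Matrix.isUnit_det_of_right_inverse k).ne_zero

/-- analytic roots -/
theorem root {T : Type} [NormedAddCommGroup T] [NormedSpace ℂ T] {τ : T} {γ : T → Cm 6}
    (h : AnalyticAt ℂ γ τ) (k : ∀ᶠ t in 𝓝 τ, γ t ∈ Ver.C) :
    ∃ y : T → Cm 3, AnalyticAt ℂ y τ ∧ ∀ᶠ t in 𝓝 τ, y t ≠ 0 ∧ vr (y t) = γ t := by
  refine ⟨fun t => rt (γ τ) + Ver.ρ (γ τ) (γ t),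
    analyticAt_const.add ((anρ k.self_of_nhds).comp h), ?_⟩
  filter_upwards [k, h.continuousAt.eventually (κρ k.self_of_nhds)] with t k1 k2
  refine ⟨fun q => ver_sm.nz _ k1 ?_, k2 k1⟩
  rw [← k2 k1]
  show vr (rt (γ τ) + Ver.ρ (γ τ) (γ t)) = 0
  rw [q, ← zero_smul ℂ (0 : Cm 3), vr_smul]; simp

/-- automorphisms preserve the second fundamental form -/
theorem sec {h : Matrix (Fin 6) (Fin 6) ℂ} (hh : Ver.G0 h) (hx : x ≠ 0) {x' : Cm 3} (hx' : x' ≠ 0)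
    (e : vr x' = h *ᵥ vr x) {f f' : Cm 3} (ef : vb x' f' = h *ᵥ vb x f) :
    ∃ u, h *ᵥ vr f = vr f' + vb x' u := by
  have c : Tendsto (fun t : ℂ => x + t • f) (𝓝 0) (𝓝 x) :=
    Continuous.tendsto' (by fun_prop) _ _ (by simp)
  obtain ⟨y, a, k⟩ := root (γ := fun t : ℂ => h *ᵥ vr (x + t • f)) (τ := 0)
    (an_mulVec analyticAt_const (an_vr (analyticAt_const.add (analyticAt_id.smul analyticAt_const))))
    ((c.eventually_ne hx).mono fun _ q => (hh.2 _).2 (mem q))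
  obtain ⟨s, s1, s2⟩ := vr_eq hx' (y := y 0) (by rw [k.self_of_nhds.2, e]; simp)
  have p : ∀ t : ℂ, h *ᵥ vr (x + t • f) =
      h *ᵥ vr x + t • h *ᵥ vb x f + t ^ 2 • h *ᵥ vr f := fun t => by
    rw [vr_add, map_smul, vr_smul, Matrix.mulVec_add, Matrix.mulVec_add, Matrix.mulVec_smul,
      Matrix.mulVec_smul]
  have d1 : ∀ᶠ t in 𝓝 (0 : ℂ), vb (y t) (deriv y t) = h *ᵥ vb x f + (2 * t) • h *ᵥ vr f := by
    filter_upwards [a.eventually_analyticAt, k.eventually_nhds] with t k1 k2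
    refine ((hd_vr k1.differentiableAt.hasDerivAt).congr_of_eventuallyEq
      (k2.mono fun s q => (p s).symm.trans q.2.symm)).unique ?_
    exact ((((hasDerivAt_id t).smul_const (h *ᵥ vb x f)).const_add (h *ᵥ vr x)).add
      ((hasDerivAt_pow 2 t).smul_const (h *ᵥ vr f))).congr_deriv (by simp)
  have e1 : deriv y 0 = s • f' := vb_inj k.self_of_nhds.1 (by
    rw [d1.self_of_nhds, s2, vb_smul, map_smul, smul_smul, ← _root_.sq, s1, ef]; simp)
  let B : Cm 3 →L[ℂ] Cm 3 →L[ℂ] Cm 6 := LinearMap.toContinuousLinearMap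
    ⟨⟨fun x => LinearMap.toContinuousLinearMap (vb x), fun a b => ContinuousLinearMap.ext
      (vb_add a b)⟩, fun c a => ContinuousLinearMap.ext (vb_smul c a)⟩
  have d2 : HasDerivAt (fun t => vb (y t) (deriv y t))
      (vb (deriv y 0) (deriv y 0) + vb (y 0) (deriv (deriv y) 0)) 0 :=
    (B.hasFDerivAt.comp_hasDerivAt 0 a.differentiableAt.hasDerivAt).clm_apply
      a.deriv.differentiableAt.hasDerivAt
  have d3 : HasDerivAt (fun t : ℂ => h *ᵥ vb x f + (2 * t) • h *ᵥ vr f) ((2 : ℂ) • h *ᵥ vr f) 0 := by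
    simpa using (((hasDerivAt_id (0 : ℂ)).const_mul 2).smul_const (h *ᵥ vr f)).const_add
      (h *ᵥ vb x f)
  have d4 := (d3.congr_of_eventuallyEq d1).unique d2
  rw [e1, vb_self, vr_smul, s1, one_smul, s2, vb_smul] at d4
  refine ⟨((2 : ℂ)⁻¹ * s) • deriv (deriv y) 0, smul_right_injective _ (two_ne_zero (α := ℂ)) ?_⟩
  show (2 : ℂ) • _ = (2 : ℂ) • _
  rw [d4, map_smul, smul_add, smul_smul, mul_inv_cancel_left₀ two_ne_zero]

theorem det_col (h : Matrix (Fin 6) (Fin 6) ℂ) (p q : Fin 6 → Cm 6) {a1 b1 c1 a2 b2 c2 a3 b3 c3 : ℂ}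
    (h0 : h *ᵥ p 0 = q 0) (h1 : h *ᵥ p 1 = q 1 + (a1 • q 0 + b1 • q 3 + c1 • q 4))
    (h2 : h *ᵥ p 2 = q 2 + (a2 • q 0 + b2 • q 3 + c2 • q 4)) (h3 : h *ᵥ p 3 = q 3)
    (h4 : h *ᵥ p 4 = q 4) (h5 : h *ᵥ p 5 = q 5 + (a3 • q 0 + b3 • q 3 + c3 • q 4)) :
    (Matrix.of q)ᵀ.det = (h * (Matrix.of p)ᵀ).det := by
  let N : Matrix (Fin 6) (Fin 6) ℂ := !![0, a1, a2, 0, 0, a3; 0, 0, 0, 0, 0, 0; 0, 0, 0, 0, 0, 0;
    0, b1, b2, 0, 0, b3; 0, c1, c2, 0, 0, c3; 0, 0, 0, 0, 0, 0]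
  have m : h * (Matrix.of p)ᵀ = (Matrix.of q)ᵀ * (1 + N) := by
    ext i j
    have l : (h * (Matrix.of p)ᵀ) i j = (h *ᵥ p j) i := rfl
    rw [l, Matrix.mul_add, Matrix.mul_one, Matrix.add_apply, Matrix.mul_apply, Fin.sum_univ_six]
    fin_cases j
    · simp [N, h0]
    · simp [N, h1, mul_comm]
    · simp [N, h2, mul_comm]
    · simp [N, h3]
    · simp [N, h4]
    · simp [N, h5, mul_comm]
  have n : N * N = 0 := by
    ext i j
    rw [Matrix.mul_apply, Fin.sum_univ_six]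
    fin_cases i <;> fin_cases j <;> simp [N]
  have d : (1 + N).det = 1 := by
    have := Matrix.isUnit_charpolyRev_of_isNilpotent (M := -N) ⟨2, by rw [neg_sq, pow_two, n]⟩
    rw [Polynomial.isUnit_iff] at this
    obtain ⟨r, -, hr⟩ := this
    have e0 := congrArg (Polynomial.eval 0) hr
    have e1 := congrArg (Polynomial.eval 1) hr
    rw [Matrix.eval_charpolyRev] at e0
    rw [Polynomial.eval_C] at e0 e1
    rw [← e0, e1, Matrix.charpolyRev, ← Polynomial.coe_evalRingHom, RingHom.map_det]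
    congr 1
    ext i j
    simp [Matrix.one_apply, apply_ite]
  rw [m, Matrix.det_mul, d, mul_one]

theorem th_aut {h : Matrix (Fin 6) (Fin 6) ℂ} (hh : Ver.G0 h) {w : Fin 2 → Cm 6}
    (k : Ver.Fr v w) : Th (h *ᵥ v) (fun j => h *ᵥ w j) = h.det * Th v w := by
  have k' : Ver.Fr (h *ᵥ v) fun j => h *ᵥ w j := by
    refine ⟨(hh.2 _).2 k.1, fun j => (((capx _ ver_sm).aut h hh).1 v k.1 _).2 (k.2.1 j), ?_⟩
    have := k.2.2.map' h.mulVecLin (LinearMap.ker_eq_bot.2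
      (Matrix.mulVec_injective_iff_isUnit.2 ((Matrix.isUnit_iff_isUnit_det _).2 hh.1.isUnit)))
    rwa [Fin.comp_cons] at this
  obtain ⟨x, f, g, hx, rfl, hf, hg⟩ := fr_ex k
  obtain ⟨x', f', g', hx', e, hf', hg'⟩ := fr_ex k'
  have n := c3_ne (e ▸ k') hf' hg'
  rw [← e, th_eq hx' f' g' hf' hg', th_eq hx f g hf hg, ← Matrix.det_mul]
  rw [← hf] at hf'
  rw [← hg] at hg'
  obtain ⟨u1, k1⟩ := sec hh hx hx' e hf'
  obtain ⟨u2, k2⟩ := sec hh hx hx' e hg'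
  obtain ⟨u3, k3⟩ := sec hh hx hx' e (f := f + g) (f' := f' + g') (by
    rw [map_add, map_add, Matrix.mulVec_add, hf', hg'])
  have k4 : h *ᵥ vb f g = vb f' g' + vb x' (u3 - u1 - u2) := by
    rw [vr_add, vr_add, Matrix.mulVec_add, Matrix.mulVec_add, k1, k2] at k3
    rw [map_sub, map_sub]
    linear_combination (exp := 1) k3
  have sp : ∀ u, ∃ a b c : ℂ, vb x' u = a • vr x' + b • vb x' f' + c • vb x' g' := fun u => by
    have := c3_mv x' f' g' ((c3 x' f' g')⁻¹ *ᵥ u)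
    rw [Matrix.mulVec_mulVec, Matrix.mul_nonsing_inv _ n.isUnit, Matrix.one_mulVec] at this
    generalize (c3 x' f' g')⁻¹ *ᵥ u = y at this
    exact ⟨y 0 * 2, y 1, y 2, by
      rw [this, map_add, map_add, map_smul, map_smul, map_smul, vb_self, smul_smul]⟩
  obtain ⟨a1, b1, c1, q1⟩ := sp u1
  obtain ⟨a2, b2, c2, q2⟩ := sp u2
  obtain ⟨a3, b3, c4, q3⟩ := sp (u3 - u1 - u2)
  rw [q1] at k1
  rw [q2] at k2
  rw [q3] at k4
  exact det_col h _ _ e.symm k1 k2 hf'.symm hg'.symm k4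

end Vr

open Vr

theorem ver_dl : Ver.Dl 0 := by
  refine ⟨1, Unit, fun _ v w => (Th v w)⁻¹, one_pos, fun _ l v w τ hv hw k => ?_,
    fun _ h v w hh k => ?_, fun _ v w c k hc => ?_, fun v w k => ⟨(), inv_ne_zero (th_ne k)⟩⟩
  · obtain ⟨y, a, hy⟩ := root hv (k.mono fun _ q => q.1)
    have key : ∀ j, ∃ f : Cm l → Cm 3, AnalyticAt ℂ f τ ∧ ∀ᶠ t in 𝓝 τ, vb (y t) (f t) = w t j :=
      fun j => by
      have e : ∀ᶠ t in 𝓝 τ, vb (y t) (dv (y t) (w t j)) = w t j := by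
        filter_upwards [k, hy] with t k1 k2
        obtain ⟨u, hu⟩ := (tc k2.1).1 (k2.2 ▸ k1.2.1 j)
        rw [← hu, dv_eq k2.1]
      exact ⟨_, (lsol _ _ _ (fun t => vb (y t)) _ τ (fun _ => an_vb a analyticAt_const)
        (vb_inj hy.self_of_nhds.1)).2 ((an_app hw j).congr (e.mono fun _ q => q.symm)), e⟩
    obtain ⟨f, af, ef⟩ := key 0
    obtain ⟨g, ag, eg⟩ := key 1
    have a2 : AnalyticAt ℂ (fun t => s2 (y t) (f t) (g t)) τ := an_mat fun i j => by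
      fin_cases j
      exacts [an_app (an_vr a) i, an_app (an_vr af) i, an_app (an_vr ag) i, an_app (an_vb a af) i,
        an_app (an_vb a ag) i, an_app (an_vb af ag) i]
    refine AnalyticAt.inv ((an_det a2).congr ?_) (th_ne k.self_of_nhds)
    filter_upwards [hy, ef, eg] with t k1 k2 k3
    rw [← k1.2, th_eq k1.1 _ _ k2 k3]
  · beta_reduce
    rw [th_aut hh k, pow_one, mul_inv, mul_right_comm, inv_mul_cancel₀ hh.1, one_mul]
  · obtain ⟨x, f, g, hx, rfl, hf, hg⟩ := fr_ex k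
    obtain ⟨s, rfl⟩ := IsAlgClosed.exists_pow_nat_eq c two_pos
    have hs : s ≠ 0 := fun q => hc (by rw [q]; simp)
    have e : ∀ u, vb (s • x) (s⁻¹ • u) = vb x u := fun u => by
      rw [vb_smul, map_smul, smul_inv_smul₀ hs]
    beta_reduce
    rw [← vr_smul, th_eq (smul_ne_zero hs hx) _ _ ((e f).trans hf) ((e g).trans hg),
      th_eq hx f g hf hg, ← s2_sc s hs x f g, mul_inv]
    norm_num
    field_simp

end Vale.Agent.P280Z.Tr
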