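import Vale.Agent.P280Z.Tr.Hb
import Mathlib.Analysis.Complex.RemovableSingularity

/-!
# P280Z, block Tr: twisted sections which are independent somewhere
-/

open scoped Manifold ContDiff Topology Matrix Matrix.Norms.Elementwise
open Set Filter Asymptotics
open Vale.Agent.P272.K Vale.Agent.P281Z

noncomputable section

namespace Vale.Agent.P280Z.Tr

namespace Bgh

theorem rem {W : Type} [NormedAddCommGroup W] [NormedSpace ℂ W] [CompleteSpace W] {h : ℂ → W}
    (h1 : ∀ᶠ u in 𝓝[≠] 0, AnalyticAt ℂ h u) (h2 : h =O[𝓝[≠] 0] fun _ => (1 : ℝ)) :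
    ∃ H : ℂ → W, AnalyticAt ℂ H 0 ∧ ∀ u, u ≠ 0 → H u = h u := by
  classical
  have h3 := Complex.tendsto_limUnder_of_differentiable_on_punctured_nhds_of_bounded_under
    (h1.mono fun _ k => k.differentiableAt)
    ((isBigO_one_iff ℝ).1 (h2.sub (isBigO_const_const (h 0) one_ne_zero _)))
  refine ⟨Function.update h 0 (limUnder (𝓝[≠] 0) h),
    Complex.analyticAt_of_differentiable_on_punctured_nhds_of_continuousAt ?_
      (continuousAt_update_same.2 h3), fun u hu => Function.update_of_ne hu _ _⟩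
  filter_upwards [h1, self_mem_nhdsWithin] with u k1 k2
  refine k1.differentiableAt.congr_of_eventuallyEq ?_
  filter_upwards [isOpen_ne.mem_nhds k2] with v hv using Function.update_of_ne hv _ _

theorem an_p (t : ℂ) : AnalyticAt ℂ (fun t : ℂ => (![1, t] : Cm 2)) t :=
  an_pi (Fin.forall_fin_two.2 ⟨analyticAt_const, analyticAt_id⟩)

theorem an_q (t : ℂ) : AnalyticAt ℂ (fun t : ℂ => (![t, 1] : Cm 2)) t :=
  an_pi (Fin.forall_fin_two.2 ⟨analyticAt_id, analyticAt_const⟩)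

theorem p_ne (t : ℂ) : (![1, t] : Cm 2) ≠ 0 := fun h => one_ne_zero (congrFun h 0)

theorem q_ne (t : ℂ) : (![t, 1] : Cm 2) ≠ 0 := fun h => one_ne_zero (congrFun h 1)

variable {n : ℕ} {V : Mf n} {f : Cm 2 → V.X} {y : Cm 2}

theorem f_p (hf : Ln f) (h : y 0 ≠ 0) : f ![1, y 1 / y 0] = f y := by
  rw [← (hf _ (p_ne _)).2 _ h]
  exact congrArg f (funext (Fin.forall_fin_two.2 ⟨mul_one _, mul_div_cancel₀ _ h⟩))

theorem f_q (hf : Ln f) (h : y 1 ≠ 0) : f ![y 0 / y 1, 1] = f y := by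
  rw [← (hf _ (q_ne _)).2 _ h]
  exact congrArg f (funext (Fin.forall_fin_two.2 ⟨mul_div_cancel₀ _ h, mul_one _⟩))

theorem an_co (i : Fin 2) (y : Cm 2) : AnalyticAt ℂ (fun y : Cm 2 => y i) y :=
  an_app analyticAt_id i

theorem ne_one (hy : y ≠ 0) (h : y 0 = 0) : y 1 ≠ 0 := fun k =>
  hy (funext (Fin.forall_fin_two.2 ⟨h, k⟩))

end Bgh

open Bgh in
theorem bgh_of (hA : BGA) : BGH := by
  intro n V Ω _ _ E f hE hf
  classical
  have hF : ∀ t : ℂ, AnM (fun t : ℂ => f ![1, t]) t := fun t =>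
    AnM.comp (g := fun t : ℂ => ![1, t]) (hf _ (p_ne t)).1 (an_p t)
  obtain ⟨o, ho⟩ := hE.cov (f ![0, 1])
  have hinf : ∀ᶠ z in Bornology.cobounded ℂ, f ![1, z] ∈ E.U o := by
    filter_upwards [tendsto_inv₀_cobounded.eventually
      ((AnM.comp (g := fun t : ℂ => ![t, 1]) (hf _ (q_ne 0)).1 (an_q 0)).1.eventually
        ((hE.opn o).mem_nhds ho)),
      Bornology.eventually_ne_cobounded 0] with z k1 k2
    have := f_q hf (y := ![1, z]) k2
    have k3 : f ![z⁻¹, 1] ∈ E.U o := k1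
    rw [← this]
    simpa using k3
  obtain ⟨c, m, ⟨c1, c2⟩, c3, i₀, z, hz, c4⟩ := hA E.r E.ι (fun i => {t | f ![1, t] ∈ E.U i})
    (fun i j t => E.tm i j (f ![1, t])) o
    ⟨fun i => (hE.opn i).preimage (continuous_iff_continuousAt.2 fun t => (hF t).1),
      fun t => hE.cov _, hinf, fun i j t hi hj => hE.tm_an (hF t) hi hj,
      fun i t hi => hE.tm_self hi, fun i j k t hi hj hk => hE.tm_mul hi hj hk⟩
  choose ι hι using fun t : ℂ => hE.cov (f ![1, t])
  obtain ⟨σ, hσ⟩ : ∃ σ : Fin E.r → ℂ → Ω, ∀ j t i, f ![1, t] ∈ E.U i →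
      σ j t = E.b i (f ![1, t]) fun a => c i t a j :=
    ⟨fun j t => E.b (ι t) (f ![1, t]) fun a => c (ι t) t a j, fun j t i hi => by
      rw [hE.b_tm (hι t) hi]
      exact congrArg _ (funext fun a => congrFun (congrFun (c2 (ι t) i t (hι t) hi) a) j)⟩
  obtain ⟨H, H1, H2⟩ := rem (h := fun u => u ^ m • c o u⁻¹) (by
    filter_upwards [tendsto_inv₀_nhdsNE_zero.eventually hinf, self_mem_nhdsWithin] with u k1 k2
    exact (analyticAt_id.pow m).smul (AnalyticAt.comp (g := c o) (c1 o _ k1)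
      (analyticAt_id.inv k2))) (by
    refine (((isBigO_refl (fun u : ℂ => u ^ m) _).smul
      (c3.comp_tendsto tendsto_inv₀_nhdsNE_zero)).congr' EventuallyEq.rfl
      (g₂ := fun _ => (1 : ℂ)) ?_).trans (isBigO_const_const _ one_ne_zero _)
    filter_upwards [self_mem_nhdsWithin] with u hu
    show u ^ m * u⁻¹ ^ m = 1
    rw [← mul_pow, mul_inv_cancel₀ hu, one_pow])
  refine ⟨m, fun j y => if y 0 = 0 then y 1 ^ m • E.b o (f ![0, 1]) (fun a => H 0 a j)
    else y 0 ^ m • σ j (y 1 / y 0), fun j y hy => ⟨?_, fun a ha => ?_⟩, ![1, z], p_ne z, ?_⟩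
  · by_cases h0 : y 0 = 0
    · have h1 := ne_one hy h0
      have h2 : f y ∈ E.U o := by rw [← f_q hf h1, h0, zero_div]; exact ho
      refine ⟨o, h2, fun y => y 1 ^ m • fun a => H (y 0 / y 1) a j,
        ((an_co 1 y).pow m).smul (an_pi fun a => an_ent (AnalyticAt.comp_of_eq (g := H) H1
          ((an_co 0 y).div (an_co 1 y) h1) (by simp [h0])) a j), ?_⟩
      filter_upwards [(hf y hy).1.1.eventually ((hE.opn o).mem_nhds h2),
        (an_co 1 y).continuousAt.eventually_ne h1] with w k1 k2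
      by_cases k3 : w 0 = 0
      · rw [if_pos k3, map_smul, ← f_q hf k2, k3, zero_div]
      · rw [if_neg k3, hσ j _ o (by rwa [f_p hf k3]), f_p hf k3, ← map_smul,
          H2 _ (div_ne_zero k3 k2), inv_div]
        refine congrArg _ (funext fun a => ?_)
        show w 0 ^ m * _ = w 1 ^ m * ((w 0 / w 1) ^ m * _)
        rw [← mul_assoc, ← mul_pow, mul_div_cancel₀ _ k2]
    · have h2 : f y ∈ E.U (ι (y 1 / y 0)) := by rw [← f_p hf h0]; exact hι _
      refine ⟨_, h2, fun w => w 0 ^ m • fun a => c (ι (y 1 / y 0)) (w 1 / w 0) a j,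
        ((an_co 0 y).pow m).smul (an_pi fun a => an_ent (AnalyticAt.comp_of_eq
          (g := c (ι (y 1 / y 0))) (c1 _ _ (hι _)) ((an_co 1 y).div (an_co 0 y) h0) rfl) a j), ?_⟩
      filter_upwards [(hf y hy).1.1.eventually ((hE.opn _).mem_nhds h2),
        (an_co 0 y).continuousAt.eventually_ne h0] with w k1 k2
      rw [if_neg k2, hσ j _ _ (by rwa [f_p hf k2]), f_p hf k2, map_smul]
  · simp only [Pi.smul_apply, smul_eq_mul, mul_eq_zero, ha, false_or, zpow_natCast]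
    split_ifs with h0
    · rw [mul_pow, mul_smul]
    · rw [mul_pow, mul_smul, mul_div_mul_left _ _ ha]
  · have e : ∀ j, (if (![1, z] : Cm 2) 0 = 0 then
        (![1, z] : Cm 2) 1 ^ m • E.b o (f ![0, 1]) (fun a => H 0 a j) else (![1, z] : Cm 2) 0 ^ m •
          σ j ((![1, z] : Cm 2) 1 / (![1, z] : Cm 2) 0)) =
        E.b i₀ (f ![1, z]) fun a => c i₀ z a j := fun j => by
      simp [hσ j z i₀ hz]
    simp only [e]
    rw [hE.li_iff hz fun j => hE.b_mem hz _]
    simp only [hE.κ_b hz]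
    exact c4

end Vale.Agent.P280Z.Tr
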