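import Vale.Agent.P280Z.Tr.SkA
import Vale.Agent.P281Z.Mf.Loc

/-!
# P280Z, block Tr: chains, if the directions of the curves span the tangent spaces (row CHN)
-/

open scoped Manifold ContDiff Topology Matrix
open Set Filter
open Vale.Agent.P272.K Vale.Agent.P281Z
open Vale.Agent.P277Z (at_chart)

noncomputable section

namespace Vale.Agent.P280Z.Tr

namespace ChnH

theorem nhd {E : Type} [NormedAddCommGroup E] [NormedSpace ℂ E] [FiniteDimensional ℂ E] {A D : Set E}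
    {a : E} (ha : a ∈ A) (hD : ∀ α : E →ₗ[ℂ] ℂ, (∀ v ∈ D, α v = 0) → α = 0)
    (hg : ∀ v ∈ D, ∃ (g : E × ℂ → E) (g' : E × ℂ →L[ℂ] E), HasStrictFDerivAt g g' (a, 0) ∧
      g (a, 0) = a ∧ (∀ w s, g' (w, s) = w + s • v) ∧ ∀ᶠ q in 𝓝 (a, 0), q.1 ∈ A → g q ∈ A) :
    A ∈ 𝓝 a := by
  have := FiniteDimensional.complete ℂ E
  obtain ⟨b, h1, h2, h3⟩ := exists_linearIndependent ℂ D
  have h4 : Submodule.span ℂ D = ⊤ := by
    by_contra k
    obtain ⟨α, k1, k2⟩ := Submodule.exists_le_ker_of_lt_top _ (lt_top_iff_ne_top.2 k)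
    exact k1 (hD α fun v hv => k2 (Submodule.subset_span hv))
  have key : ∃ (T : Type) (_ : NormedAddCommGroup T) (_ : NormedSpace ℂ T) (_ : CompleteSpace T)
      (h : T → E) (h' : T →L[ℂ] E), HasStrictFDerivAt h h' 0 ∧ h 0 = a ∧
      (∀ᶠ t in 𝓝 0, h t ∈ A) ∧ b ⊆ h'.range := by
    refine Set.Finite.induction_on_subset _ h3.setFinite ⟨ℂ, _, _, inferInstance, fun _ => a, 0,
      hasStrictFDerivAt_const _ _, rfl, .of_forall fun _ => ha, empty_subset _⟩ ?_
    rintro v t hv - - ⟨T, _, _, _, h, h', k1, rfl, k3, k4⟩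
    obtain ⟨g, g', l1, l2, l3, l4⟩ := hg v (h1 hv)
    have k5 : HasStrictFDerivAt (fun q : T × ℂ => (h q.1, q.2))
        (h'.prodMap (ContinuousLinearMap.id ℂ ℂ)) 0 := k1.prodMap 0 (hasStrictFDerivAt_id _)
    refine ⟨T × ℂ, _, _, inferInstance, _, _, HasStrictFDerivAt.comp (g := g) 0 l1 k5, l2, ?_,
      insert_subset ⟨(0, 1), ?_⟩ fun w hw => ?_⟩
    · filter_upwards [k5.continuousAt.eventually l4, continuousAt_fst.eventually k3] with q a1 a2
        using a1 a2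
    · exact (l3 _ _).trans (by simp)
    · obtain ⟨s, rfl⟩ := k4 hw
      exact ⟨(s, 0), (l3 _ _).trans (by simp)⟩
  obtain ⟨T, _, _, _, h, h', k1, rfl, k3, k4⟩ := key
  rw [← k1.map_nhds_eq_of_surj (top_unique (h4 ▸ h2 ▸ Submodule.span_le.2 k4))]
  exact k3

theorem step {n u k : ℕ} {V : Mf n} {U : Mf u} {K : Mf k} {p : U.X → K.X} {e : U.X → V.X}
    (hp : Sub u k p) (he : Sub u n e) (z : U.X) {w : Cm u} (hw : Df u k p z w = 0) :
    ∃ (g : Cm n × ℂ → Cm n) (g' : Cm n × ℂ →L[ℂ] Cm n),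
      HasStrictFDerivAt g g' (chartAt (Cm n) (e z) (e z), 0) ∧
      g (chartAt (Cm n) (e z) (e z), 0) = chartAt (Cm n) (e z) (e z) ∧
      (∀ v s, g' (v, s) = v + s • Df u n e z w) ∧ ∀ᶠ q in 𝓝 (chartAt (Cm n) (e z) (e z), 0),
        ∃ y y', p y = p y' ∧ e y = (chartAt (Cm n) (e z)).symm q.1 ∧
          e y' = (chartAt (Cm n) (e z)).symm (g q) := by
  have hc := at_chart (n := u) z
  have hχ := at_chart (n := n) (e z)
  have hκ := at_chart (n := k) (p z)
  set c := chartAt (Cm u) z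
  set χ := chartAt (Cm n) (e z)
  obtain ⟨s, s1, s2, s3⟩ := (he.sbm z).sec (he.hol.at z)
  obtain ⟨Θ, t1, t2, t3, t4⟩ := exists_co ((sbm_iff_ind (hp.hol.at z) hκ).1 (hp.sbm z)) (d := u - k)
    (by simpa using Nat.add_sub_cancel' (hp.sbm z).le)
    (((hp.hol.at z).cont.eventually (at_near hκ)).and ((he.hol.at z).cont.eventually (at_near hχ)))
  have hs : Tendsto s (𝓝 (e z)) (𝓝 z) := by simpa only [ContinuousAt, s1] using s2.cont
  have hz := Θ.open_source.mem_nhds t2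
  have a1 := t1.an z t2 c hc
  have a2 : AnalyticAt ℂ (fun v => χ (e (Θ.symm v))) (Θ z) := AnalyticAt.pi fun j =>
    t1.an_hol (Θ.map_source t2) (a := fun y => χ (e y) j)
      (by rw [Θ.left_inv t2]; exact ((he.hol.at z).anV hχ).hol j)
  have a3 : AnalyticAt ℂ (fun ξ => Θ (s (χ.symm ξ))) (χ (e z)) := by
    refine (a1.comp_of_eq (s2.an hχ (s1.symm ▸ hc)) (by rw [hχ.left_inv, s1])).congr ?_
    filter_upwards [at_ev hχ (hs.eventually (at_near hc))] with ξ hξ
    exact congrArg Θ hξ.left_inv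
  have e0 : Θ (s (χ.symm (χ (e z)))) = Θ z := by rw [hχ.left_inv, s1]
  set η := fderiv ℂ (fun t => Θ (c.symm t)) (c z) w
  have b0 : η.1 = 0 := by
    refine Eq.trans ?_ hw
    refine (DFunLike.congr_fun a1.differentiableAt.hasFDerivAt.fst.fderiv w).symm.trans ?_
    exact DFunLike.congr_fun (EventuallyEq.fderiv_eq ((at_ev hc hz).mono fun _ h => t4 _ h)) w
  have b1 : ∀ v, fderiv ℂ (fun v => χ (e (Θ.symm v))) (Θ z)
      (fderiv ℂ (fun ξ => Θ (s (χ.symm ξ))) (χ (e z)) v) = v := fun v => by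
    have k := (HasFDerivAt.comp _ (e0 ▸ a2.differentiableAt.hasFDerivAt)
      a3.differentiableAt.hasFDerivAt).unique ((hasFDerivAt_id _).congr_of_eventuallyEq (by
        filter_upwards [at_ev hχ (hs.eventually hz), at_ev hχ s3, P277Z.At.right hχ] with ξ k1 k2 k3
        exact (congrArg (fun y => χ (e y)) (Θ.left_inv k1)).trans ((congrArg χ k2).trans k3)))
    rw [e0] at k
    exact DFunLike.congr_fun k v
  have b2 : fderiv ℂ (fun v => χ (e (Θ.symm v))) (Θ z) η = Df u n e z w := by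
    have e1 : Θ (c.symm (c z)) = Θ z := by rw [hc.left_inv]
    have k := (HasFDerivAt.comp (g := fun v => χ (e (Θ.symm v))) _
      (e1 ▸ a2.differentiableAt.hasFDerivAt) a1.differentiableAt.hasFDerivAt).unique
      (((he.hol.at z).an hc hχ).differentiableAt.hasFDerivAt.congr_of_eventuallyEq
        ((at_ev hc hz).mono fun t h => congrArg (fun y => χ (e y)) (Θ.left_inv h)))
    rw [e1] at k
    exact DFunLike.congr_fun k w
  have c1 : HasStrictFDerivAt (fun q : Cm n × ℂ => Θ (s (χ.symm q.1)) + q.2 • η) _ (χ (e z), 0) :=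
    (HasStrictFDerivAt.comp (g := fun ξ => Θ (s (χ.symm ξ))) (f := Prod.fst) (χ (e z), (0 : ℂ))
      a3.hasStrictFDerivAt hasStrictFDerivAt_fst).add
      ((hasStrictFDerivAt_snd (𝕜 := ℂ) (p := (χ (e z), (0 : ℂ)))).smul_const η)
  have e2 : Θ (s (χ.symm (χ (e z)))) + (0 : ℂ) • η = Θ z := by rw [zero_smul, add_zero, e0]
  refine ⟨_, _, HasStrictFDerivAt.comp (g := fun v => χ (e (Θ.symm v))) _
    (e2.symm ▸ a2.hasStrictFDerivAt) c1, ?_, fun v t => ?_, ?_⟩
  · simp only [e2, Θ.left_inv t2]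
  · rw [e2]
    exact (map_add _ _ _).trans (congrArg₂ (· + ·) (b1 v) ((map_smul _ t η).trans (by rw [b2])))
  · filter_upwards [c1.continuousAt.eventually (e2.symm ▸ Θ.open_target.mem_nhds (Θ.map_source t2)),
      continuousAt_fst.eventually (at_ev hχ ((hs.eventually hz).and s3))] with q k1 k2
    have k3 := Θ.map_target k1
    refine ⟨s (χ.symm q.1), _, (chartAt (Cm k) (p z)).injOn (t3 k2.1).1.2 (t3 k3).1.2 ?_, k2.2,
      (t3 k3).2.left_inv.symm⟩
    refine (t4 _ k2.1).symm.trans (Eq.trans ?_ (t4 _ k3))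
    rw [Θ.right_inv k1, Prod.fst_add, Prod.smul_fst, b0, smul_zero, add_zero]

end ChnH

open ChnH

theorem chn : CHN := fun {n u k V U K} p e hp he _ h => by
  refine fun _ _ => isPreconnected_univ.induction₂ _ (fun x _ => ?_)
    (fun _ _ _ _ _ _ a b => a.trans b) ?_ trivial trivial
  · have hχ := at_chart (n := n) x
    have k := nhd (A := {ξ | Relation.ReflTransGen (fun x y => ∃ u u', p u = p u' ∧ e u = x ∧
      e u' = y) x ((chartAt (Cm n) x).symm ξ)}) (a := chartAt (Cm n) x x)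
      (D := {v | ∃ z w, e z = x ∧ Df u k p z w = 0 ∧ Df u n e z w = v})
      (by rw [mem_ofPred, hχ.left_inv]) (fun α hα => h x α fun z hz w hw => hα _ ⟨z, w, hz, hw, rfl⟩)
      (by
        rintro _ ⟨z, w, rfl, hw, rfl⟩
        obtain ⟨g, g', k1, k2, k3, k4⟩ := step hp he z hw
        exact ⟨g, g', k1, k2, k3, k4.mono fun q a b => b.tail a⟩)
    exact ((P277Z.At.ev hχ).1 k).filter_mono nhdsWithin_le_nhds
  · intro x y _ _ k
    induction k with
    | refl => exact .refl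
    | tail _ a ih =>
      obtain ⟨v, v', a1, a2, a3⟩ := a
      exact .head ⟨v', v, a1.symm, a3, a2⟩ (ih trivial)

end Vale.Agent.P280Z.Tr
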