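import Vale.Agent.P280Z.Tr.Hb
import Vale.Agent.P280Z.Co.Fp
import Vale.Agent.P281Z.Mf.Fib
import Vale.Agent.P281Z.Mf.Mod

/-!
# P280Z, block Tr: the manifolds of the chains (row CHS)
-/

open scoped Manifold ContDiff Topology
open Set Filter
open Vale.Agent.P272.K Vale.Agent.P281Z

noncomputable section

namespace Vale.Agent.P280Z.Tr

namespace Chs

theorem conn {n m n' m' : ℕ} {V : Mf n} {W : Mf m} {V' : Mf n'} {W' : Mf m'} {f : V.X → W.X}
    {g : W'.X → W.X} {f' : V'.X → W'.X} {g' : V'.X → V.X} (h : Cart f g f' g')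
    (hW : ConnectedSpace W'.X) (k : ∀ y, IsConnected (f ⁻¹' {g y})) : ConnectedSpace V'.X := by
  have hc : Topology.IsClosedEmbedding fun z => (f' z, g' z) :=
    (h.sf'.hol.cont.prodMk h.hg'.cont).isClosedEmbedding fun z z' e =>
      (h.uniq (f' z) (g' z) (h.comm z).symm).unique ⟨rfl, rfl⟩
        ⟨(congrArg Prod.fst e).symm, (congrArg Prod.snd e).symm⟩
  refine connectedSpace_iff_univ.2
    (conn_pre h.sf'.hol.cont (fun y => ?_) isClosed_univ isConnected_univ)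
  have h1 : (fun z => (f' z, g' z)) '' (f' ⁻¹' {y}) = Prod.mk y '' (f ⁻¹' {g y}) := by
    ext w
    constructor
    · rintro ⟨z, rfl, rfl⟩
      exact ⟨g' z, h.comm z, rfl⟩
    · rintro ⟨x, hx, rfl⟩
      obtain ⟨z, ⟨k1, k2⟩, -⟩ := h.uniq y x (Eq.symm hx)
      exact ⟨z, k1, Prod.ext k1 k2⟩
  have h2 := (k y).image _ (Continuous.prodMk_right y).continuousOn
  rw [← h1] at h2
  exact ⟨h2.1.of_image, hc.isInducing.isPreconnected_image.1 h2.2⟩

end Chs

/-- row CHS -/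
theorem chs : CHS := by
  intro n u k V U K p e Ω _ _ E Φ hE hp he cp ce hT x N
  induction N with
  | zero =>
    obtain ⟨C, i, hi⟩ := fib_emb (n := n) (p := n) (d := 0) (y := x) (f := fun y : V.X => y) rfl
      holM_id fun y _ => sbm_id y
    have h0 : i = fun _ => x := funext hi.fib
    obtain ⟨c, -⟩ := hi.ex (y := x) rfl
    refine ⟨0, C, i, fun _ => LinearMap.id, hi.conn.2 isConnected_singleton, hi.hol,
      fun v hv c => h0 ▸ holS_const hE hv c, fun y φ => ⟨fun h => ?_, ?_⟩⟩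
    · cases h
      exact ⟨c, hi.fib c, rfl⟩
    · rintro ⟨c, rfl, rfl⟩
      exact (hi.fib c).symm ▸ .zero
  | succ N ih =>
    obtain ⟨l, C, ε, Ψ, c1, c2, c3, c4⟩ := ih
    obtain ⟨u0, -⟩ := (ce x).1
    have d1 := (he.sbm u0).le
    have d2 := (hp.sbm u0).le
    obtain ⟨C1, f1, g1, k1, -⟩ := fp (l + (u - n)) e ε (by omega) he c2
    obtain ⟨C2, f2, g2, k2, -⟩ := fp (l + (u - n) + (u - k)) p (fun c => p (g1 c)) (by omega) hp
      (hp.hol.comp k1.hg')
    have a1 := k1.hg'.comp k2.sf'.hol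
    have a2 := k1.sf'.hol.comp k2.sf'.hol
    refine ⟨_, C2, fun c => e (g2 c), fun c => (Φ (g1 (f2 c)) (g2 c)).comp (Ψ (f1 (f2 c))),
      Chs.conn k2 (Chs.conn k1 c1 fun y => ce _) fun y => ⟨⟨g1 y, rfl⟩, cp _⟩,
      he.hol.comp k2.hg', fun v hv c χ hχ => ?_, fun y φ => ⟨fun h => ?_, ?_⟩⟩
    · exact hT.hol _ (fun t => g1 (f2 (χ.symm t))) (fun t => g2 (χ.symm t))
        (fun t => Ψ (f1 (f2 (χ.symm t))) v) (χ c) (anM_chart (a1.at c) hχ)
        (anM_chart (k2.hg'.at c) hχ) (.of_forall fun t => (k2.comm _).symm)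
        (((c3 v hv _).comp (a2.at c) χ hχ).cng (.of_forall fun t => (k1.comm _).symm)
          (.of_forall fun _ => rfl))
    · cases h with
      | step w w' h1 h2 =>
        obtain ⟨c, e1, rfl⟩ := (c4 _ _).1 h1
        obtain ⟨z, ⟨rfl, rfl⟩, -⟩ := k1.uniq c w e1
        obtain ⟨z', ⟨rfl, rfl⟩, -⟩ := k2.uniq z w' h2
        exact ⟨z', rfl, rfl⟩
    · rintro ⟨c, rfl, rfl⟩
      exact .step _ _ ((c4 _ _).2 ⟨_, (k1.comm _).symm, rfl⟩) (k2.comm c).symm

end Vale.Agent.P280Z.Tr
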