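import Vale.Agent.P280Z.Tr.SkA
import Vale.Agent.P281Z.Mf.Sub

/-!
# P280Z, block Tr, row COVR: coverings given by sheets
-/

open scoped Manifold ContDiff Topology
open Set Filter
open Vale.Agent.P272.K Vale.Agent.P281Z

noncomputable section

namespace Vale.Agent.P280Z.Tr

namespace Covr

/-- the topological covering -/
theorem top {C X Ω : Type} [TopologicalSpace C] [TopologicalSpace X] [T2Space X] [CompactSpace C]
    {ε : C → X} {s : C → Ω} (hc : Continuous ε)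
    (H : ∀ z₀, ∃ (O : Set X) (F : Type) (ψ : X → F → Ω), IsOpen O ∧ z₀ ∈ O ∧
      (∀ z ∈ O, Function.Injective (ψ z)) ∧ (∀ z ∈ O, ∀ w, ∃ c, ε c = z ∧ s c = ψ z w) ∧
      ∀ c₀, ε c₀ ∈ O → ∃ w, ∀ᶠ c in 𝓝 c₀, s c = ψ (ε c) w) :
    ∃ (Z : Type) (_ : TopologicalSpace Z) (_ : T2Space Z) (π : C → Z) (η : Z → X),
      Continuous π ∧ Function.Surjective π ∧ Continuous η ∧ (∀ u, η (π u) = ε u) ∧
      (∀ c c', π c = π c' → s c = s c') ∧
      ∀ y, ∃ c : OpenPartialHomeomorph Z X, y ∈ c.source ∧ ∀ z, c z = η z := by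
  let st : Setoid C := Setoid.ker fun c => (ε c, s c)
  let π : C → Quotient st := Quotient.mk st
  have πc : Continuous π := continuous_quotient_mk'
  have πs : Function.Surjective π := Quotient.mk_surjective
  have πe : ∀ x y, π x = π y ↔ ε x = ε y ∧ s x = s y := fun _ _ => Quotient.eq.trans Prod.ext_iff
  let η : Quotient st → X := Quotient.lift ε fun a b h => congrArg Prod.fst h
  have ηc : Continuous η := hc.quotient_lift _
  have sh : ∀ (O : Set X) (F : Type) (ψ : X → F → Ω), IsOpen O →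
      (∀ z ∈ O, Function.Injective (ψ z)) → (∀ c₀, ε c₀ ∈ O → ∃ w, ∀ᶠ c in 𝓝 c₀, s c = ψ (ε c) w) →
      ∀ w, IsOpen (π '' {c | ε c ∈ O ∧ s c = ψ (ε c) w}) := by
    intro O F ψ h1 h3 h5 w
    rw [← isQuotientMap_quotient_mk'.isOpen_preimage]
    have k : Quotient.mk' ⁻¹' (π '' {c | ε c ∈ O ∧ s c = ψ (ε c) w}) =
        {c | ε c ∈ O ∧ s c = ψ (ε c) w} := by
      refine Subset.antisymm ?_ (subset_preimage_image π _)
      rintro x ⟨y, hy, k⟩
      obtain ⟨k1, k2⟩ := (πe y x).1 k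
      exact ⟨k1 ▸ hy.1, k1 ▸ k2 ▸ hy.2⟩
    rw [k]
    refine isOpen_iff_mem_nhds.2 fun c hc' => ?_
    obtain ⟨w', hw⟩ := h5 c hc'.1
    obtain rfl : w' = w := h3 _ hc'.1 (hw.self_of_nhds.symm.trans hc'.2)
    filter_upwards [hw, hc.continuousAt.preimage_mem_nhds (h1.mem_nhds hc'.1)] with x k1 k2
    exact ⟨k2, k1⟩
  have ηo : IsOpenMap η := by
    refine IsOpenMap.of_nhds_le fun a => le_map fun A hA => ?_
    obtain ⟨c₀, rfl⟩ := πs a
    obtain ⟨O, F, ψ, h1, h2, h3, h4, h5⟩ := H (ε c₀)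
    obtain ⟨w, hw⟩ := h5 c₀ h2
    have h6 := hc.isClosedMap.eventually_nhds_fiber (p := fun c => s c = ψ (ε c) w → π c ∈ A)
      (ε c₀) fun c (k : ε c = ε c₀) => by
        obtain ⟨w', hw'⟩ := h5 c (k ▸ h2)
        by_cases e : w' = w
        · have e' : π c = π c₀ := (πe _ _).2 ⟨k, by
            rw [hw'.self_of_nhds, hw.self_of_nhds, k, e]⟩
          filter_upwards [πc.continuousAt.preimage_mem_nhds (e' ▸ hA : A ∈ 𝓝 (π c))] with x k1 _
          exact k1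
        · filter_upwards [hw', hc.continuousAt.preimage_mem_nhds (h1.mem_nhds (k ▸ h2))]
            with x k1 k2 k3
          exact absurd (h3 _ k2 (k1.symm.trans k3)) e
    filter_upwards [h6, h1.mem_nhds h2] with z k1 k2
    obtain ⟨c, k3, k4⟩ := h4 z k2 w
    exact ⟨π c, k1 c k3 (k3 ▸ k4), k3⟩
  refine ⟨Quotient st, inferInstance, ⟨fun a b hab => ?_⟩, π, η, πc, πs, ηc, fun _ => rfl,
    fun c c' h => ((πe _ _).1 h).2, fun y => ?_⟩
  · obtain ⟨c, rfl⟩ := πs a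
    obtain ⟨c', rfl⟩ := πs b
    by_cases h : ε c = ε c'
    · obtain ⟨O, F, ψ, h1, h2, h3, -, h5⟩ := H (ε c)
      obtain ⟨w, hw⟩ := h5 c h2
      obtain ⟨w', hw'⟩ := h5 c' (h ▸ h2)
      refine ⟨_, _, sh O F ψ h1 h3 h5 w, sh O F ψ h1 h3 h5 w', ⟨c, ⟨h2, hw.self_of_nhds⟩, rfl⟩,
        ⟨c', ⟨h ▸ h2, hw'.self_of_nhds⟩, rfl⟩, disjoint_left.2 ?_⟩
      rintro _ ⟨x, hx, rfl⟩ ⟨y, hy, k⟩
      obtain ⟨k1, k2⟩ := (πe y x).1 k
      have e : w = w' := h3 _ hx.1 (by rw [← hx.2, ← k2, hy.2, k1])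
      exact hab ((πe _ _).2 ⟨h, by rw [hw.self_of_nhds, hw'.self_of_nhds, h, e]⟩)
    · exact separated_by_continuous ηc h
  · obtain ⟨u, rfl⟩ := πs y
    obtain ⟨O, F, ψ, h1, h2, h3, -, h5⟩ := H (ε u)
    obtain ⟨w, hw⟩ := h5 u h2
    have : Nonempty (Quotient st) := ⟨π u⟩
    have hi : InjOn η (π '' {c | ε c ∈ O ∧ s c = ψ (ε c) w}) := by
      rintro _ ⟨z, hz, rfl⟩ _ ⟨z', hz', rfl⟩ (k : ε z = ε z')
      exact (πe _ _).2 ⟨k, by rw [hz.2, hz'.2, k]⟩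
    exact ⟨OpenPartialHomeomorph.ofContinuousOpen (hi.toPartialEquiv η _) ηc.continuousOn ηo
      (sh O F ψ h1 h3 h5 w), ⟨u, ⟨h2, hw.self_of_nhds⟩, rfl⟩, fun _ => rfl⟩

end Covr

theorem covr : COVR := by
  intro n X C _ _ _ e Ω s hS hc H c c' hcc
  obtain ⟨Z, _, _, π, ε, h1, h2, h3, h4, h5, h6⟩ := Covr.top hc H
  have := h2.compactSpace h1
  have := h2.connectedSpace h1
  obtain ⟨Y, φ, k1, k2⟩ := exists_mf (d := n) (n := n) h3 fun y => by
    obtain ⟨c, hc, hc'⟩ := h6 y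
    have hχ := P277Z.at_chart (n := n) (ε y)
    refine ⟨c.trans (chartAt (Cm n) (ε y)), ⟨hc, by simp [hc']⟩, fun z hz a ha => ?_⟩
    have k : ∀ᶠ z' in 𝓝 z, ε ((c.trans (chartAt (Cm n) (ε y))).symm z') =
        (chartAt (Cm n) (ε y)).symm z' := by
      filter_upwards [(c.trans (chartAt (Cm n) (ε y))).open_target.mem_nhds hz] with z' hz'
      rw [← hc']
      exact c.right_inv hz'.2
    rw [k.self_of_nhds] at ha
    have k' : (fun z' => a (ε ((c.trans (chartAt (Cm n) (ε y))).symm z'))) =ᶠ[𝓝 z]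
        fun z' => a ((chartAt (Cm n) (ε y)).symm z') := k.mono fun _ t => congrArg a t
    rw [k'.fderiv_eq]
    exact ⟨((co_chart hχ.1).inv z hz.1 a ha).congr k'.symm, (co_chart hχ.1).inj hz.1 ha⟩
  have hi := hS Y (fun y => ε (φ y)) ⟨k1, fun y => imm_iff_sbm.1 (k2 y)⟩
    (φ.symm.surjective.connectedSpace φ.symm.continuous)
  refine h5 c c' (φ.symm.injective (hi ?_))
  simp only [φ.apply_symm_apply, h4, hcc]

end Vale.Agent.P280Z.Tr
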