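import Vale.Agent.P280Z.Tr.MonA
import Vale.Agent.P281Z.Mf.Fib
import Vale.Agent.P281Z.Ri.Tools

/-!
# P280Z, block Tr: the transport does not depend on the chain
-/

open scoped Manifold ContDiff Topology Matrix Matrix.Norms.Elementwise
open Set Filter
open Vale.Agent.P272.K Vale.Agent.P281Z
open Vale.Agent.P277Z (Hol at_chart)

noncomputable section

namespace Vale.Agent.P280Z.Tr

variable {n u k : ℕ} {V : Mf n} {U : Mf u} {K : Mf k} {p : U.X → K.X} {e : U.X → V.X}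
  {Ω : Type} [AddCommGroup Ω] [Module ℂ Ω] {E : HB V.X Ω} {Φ : U.X → U.X → Ω →ₗ[ℂ] Ω}
  {x y z : V.X} {v w : Ω} {l : ℕ} {C : Mf l} {ε : C.X → V.X} {σ : C.X → Ω}
  {ψ : V.X → Ω →ₗ[ℂ] Ω}

namespace Mon

theorem gen (hG : GEN) (hf : HolM l n ε) : ∃ Q, Thin n Q ∧ ∀ c, ε c ∉ Q → Sbm l n ε c := by
  have hS : P277Z.Slc.Snc l (fun a : Empty => (a.elim : Set C.X)) := fun _ =>
    ⟨fun a => a.elim, fun a => a.elim, fun a => a.1.elim, fun _ _ =>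
      @linearIndependent_empty_type _ _ _ _ _ _ _ ⟨fun a => a.1.elim⟩⟩
  exact (hG l n C V ε Empty _ hf hS).imp fun _ h => ⟨h.1, fun c k => (h.2 _ k).sbm hf hS rfl⟩

/-- finitely many values over a regular value -/
theorem fin (hE : IsHB E) (hf : HolM l n ε) (hσ : ∀ c, HolS E ε σ c)
    (h : ∀ c, ε c = z → Sbm l n ε c) : (σ '' (ε ⁻¹' {z})).Finite := by
  rcases (ε ⁻¹' {z}).eq_empty_or_nonempty with k | ⟨c, hc⟩
  · rw [k, image_empty]
    exact finite_empty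
  obtain ⟨F, i, hi⟩ := fib_emb (d := l - n) (by have := (h c hc).le; omega) hf h
  obtain ⟨j, hj⟩ := hE.cov z
  have h1 : ∀ a, IsLocallyConstant fun t => E.κ j z (σ (i t)) a := fun a =>
    Ri.lcst _ F _ fun t => (((hσ _).comp (hi.hol.at t)).cng (g' := fun _ => z)
      (Eventually.of_forall hi.fib) (Eventually.of_forall fun _ => rfl)).κ hE
      ((holM_const z).at t) hj a
  refine ((Finite.pi' fun a => (h1 a).range_finite).image (E.b j z)).subset ?_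
  rintro _ ⟨c, hc, rfl⟩
  obtain ⟨t, rfl⟩ := hi.ex hc
  exact ⟨_, fun a => ⟨t, rfl⟩, hE.b_κ hj
    (hi.fib t ▸ ((hσ _).mem hE (hf.at _)).self_of_nhds)⟩

section
variable (hE : IsHB E) (hT : Tp p e E Φ) (hv : v ∈ E.A x)
  (hG : {w | Orb p e Φ x v x w}.Countable) (hf : HolM l n ε) (hσ : ∀ c, HolS E ε σ c)
  (ho : ∀ c, Orb p e Φ x v (ε c) (σ c))
include hE hT hv hG hf hσ ho

theorem closed (h : Gd p e E Φ x ψ z) (hw : Orb p e Φ x v x w)
    (k : ¬ ∃ c, ε c = z ∧ σ c = ψ z w) : ∀ᶠ y in 𝓝 z, ¬ ∃ c, ε c = y ∧ σ c = ψ y w := by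
  refine (hf.cont.isClosedMap.eventually_nhds_fiber (p := fun c => σ c ≠ ψ (ε c) w) z
    fun c hc => ?_).mono fun y hy ⟨c, k1, k2⟩ => hy c k1 (k1 ▸ k2)
  obtain rfl : ε c = z := hc
  obtain ⟨w', k1, k2⟩ := h.lc hE hT hv hG (hf.at c) (hσ c) ho
  filter_upwards [k2, hf.cont.continuousAt.eventually h.1] with c' k3 k4 k5
  obtain rfl := k4.inj hT (k1.mem hT hv) (hw.mem hT hv) (k3.symm.trans k5)
  exact k ⟨c, rfl, k2.self_of_nhds⟩

theorem near {c : C.X} (h : Gd p e E Φ x ψ (ε c)) (hw : Orb p e Φ x v x w)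
    (k : σ c = ψ (ε c) w) : ∀ᶠ c' in 𝓝 c, σ c' = ψ (ε c') w := by
  obtain ⟨w', k1, k2⟩ := h.lc hE hT hv hG (hf.at c) (hσ c) ho
  obtain rfl := h.1.self_of_nhds.inj hT (k1.mem hT hv) (hw.mem hT hv)
    (k2.self_of_nhds.symm.trans k)
  exact k2

/-- the image of `C` is locally a union of sheets -/
theorem sheet {Q : Set V.X} (hQ : Thin n Q) (hQ' : Thin l (ε ⁻¹' Q))
    (hs : ∀ c, ε c ∉ Q → Sbm l n ε c) (h : Gd p e E Φ x ψ z) (hw : Orb p e Φ x v x w) :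
    ∀ᶠ y in 𝓝 z, (∃ c, ε c = y ∧ σ c = ψ y w) ↔ ∃ c, ε c = z ∧ σ c = ψ z w := by
  by_cases k : ∃ c, ε c = z ∧ σ c = ψ z w
  swap
  · exact (closed hE hT hv hG hf hσ ho h hw k).mono fun y hy => iff_of_false hy k
  obtain ⟨O, o1, o2, o3, o4⟩ := hQ.loc_conn z (h.near hE)
  let S := {y | ∃ c, ε c = y ∧ σ c = ψ y w}
  have op : ∀ c, ε c ∈ O → ε c ∉ Q → σ c = ψ (ε c) w → ε c ∈ interior S := fun c k1 k2 k3 =>
    mem_interior_iff_mem_nhds.2 (((hs c k2).ev (hf.at c)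
      (near hE hT hv hG hf hσ ho (o3 k1) hw k3)).mono fun y ⟨c', k4, k5⟩ => ⟨c', k5, k5 ▸ k4⟩)
  have sub : O \ Q ⊆ interior S := by
    refine o4.subset_left_of_subset_union isOpen_interior (isOpen_interior (s := Sᶜ))
      (disjoint_compl_right.mono interior_subset interior_subset) (fun y hy => ?_) ?_
    · by_cases k' : y ∈ S
      · obtain ⟨c, rfl, k2⟩ := k'
        exact Or.inl (op c hy.1 hy.2 k2)
      · exact Or.inr (mem_interior_iff_mem_nhds.2 (closed hE hT hv hG hf hσ ho (o3 hy.1) hw k'))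
    · obtain ⟨c, rfl, k2⟩ := k
      obtain ⟨c', k3, k4, k5⟩ := ((hQ'.freq c).and_eventually ((near hE hT hv hG hf hσ ho h hw k2).and
        (hf.cont.continuousAt.eventually (o1.mem_nhds o2)))).exists
      exact ⟨ε c', ⟨k5, k3⟩, op c' k5 k3 k4⟩
  filter_upwards [o1.mem_nhds o2] with y hy
  refine iff_of_true (by_contra fun k' => ?_) k
  obtain ⟨y', k1, k2, k3⟩ := ((hQ.freq y).and_eventually
    ((closed hE hT hv hG hf hσ ho (o3 hy) hw k').and (o1.mem_nhds hy))).exists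
  exact k2 (interior_subset (s := S) (sub ⟨k3, k1⟩))

end

end Mon

open Mon in
theorem glc_of (hG : GEN) (h1 : CHS) (h2 : COVR) : GLC := by
  intro n u k V U K p e Ω _ _ E Φ hE hp he cp ce hT hC hS x v hv
  choose l C ε Ψ c1 c2 c3 c4 using h1 p e E Φ hE hp he cp ce hT x
  choose Q q1 q2 using fun N => gen hG (c2 N)
  have ho : ∀ N c, Orb p e Φ x v (ε N c) (Ψ N c v) := fun N c =>
    ⟨_, ⟨N, (c4 N _ _).2 ⟨c, rfl, rfl⟩⟩, rfl⟩
  obtain ⟨z, -, hz⟩ := Neg.ex (S := ⋃ N, Q N) (x := x) ⟨Q, q1, Subset.rfl⟩ univ_mem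
  replace hz : ∀ N, z ∉ Q N := fun N k => hz (mem_iUnion.2 ⟨N, k⟩)
  obtain ⟨φ, N, hφ⟩ := hC.ch Φ x z
  obtain ⟨c₀, e0, -⟩ := (c4 N _ _).1 hφ
  have hc : {w | Orb p e Φ x v x w}.Countable := by
    refine MapsTo.countable_of_injOn (f := φ) (fun w hw => ?_)
      (fun w hw w' hw' => Ch.inj hT ⟨N, hφ⟩ (Orb.mem hT hv hw) (Orb.mem hT hv hw'))
      (countable_iUnion fun M => (fin (z := z) hE (c2 M) (c3 M v hv)
        fun c k => q2 M c (k ▸ hz M)).countable)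
    obtain ⟨φ', ⟨M, k1⟩, k2⟩ := Orb.ch hw ⟨N, hφ⟩
    obtain ⟨c, k3, rfl⟩ := (c4 M _ _).1 k1
    exact mem_iUnion.2 ⟨M, c, k3, k2⟩
  have gd : ∀ y, ∃ ψ, Gd p e E Φ x ψ y := by
    obtain ⟨g, g0, g1, g2⟩ := (q2 N c₀ (e0 ▸ hz N)).sec ((c2 N).at c₀)
    exact Gd.all hT hp he hC (ψ := fun y => Ψ N (g y)) ⟨g2.mono fun y hy =>
      ⟨N, (c4 N _ _).2 ⟨_, hy, rfl⟩⟩, fun w hw => ((c3 N w hw _).comp g1).cng g2
        (Eventually.of_forall fun _ => rfl)⟩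
  have := c1 N
  have th := Thin.pre_of_ex (q1 N).an (c2 N) ⟨c₀, e0 ▸ hz N⟩
  have all : ∀ y w, Orb p e Φ x v y w → ∃ c, ε N c = y ∧ Ψ N c v = w := by
    rintro y w ⟨φ', ⟨M, k1⟩, rfl⟩
    obtain ⟨c, rfl, rfl⟩ := (c4 M _ _).1 k1
    have := c1 M
    have lc : IsLocallyConstant fun c : (C M).X => ∃ c', ε N c' = ε M c ∧ Ψ N c' v = Ψ M c v := by
      refine (IsLocallyConstant.iff_eventually_eq _).2 fun c => ?_
      obtain ⟨ψ, hψ⟩ := gd (ε M c)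
      obtain ⟨w, k2, k3⟩ := hψ.lc hE hT hv hc ((c2 M).at c) (c3 M v hv c) (ho M)
      filter_upwards [k3, (c2 M).cont.continuousAt.eventually
        (sheet hE hT hv hc (c2 N) (c3 N v hv) (ho N) (q1 N) th (q2 N) hψ k2)] with c' k4 k5
      rw [k4, k3.self_of_nhds]
      exact propext k5
    obtain ⟨a, rfl⟩ := (ce x).nonempty
    obtain ⟨φ₁, a1, a2⟩ := rch_const hT a hv M
    obtain ⟨φ₂, b1, b2⟩ := rch_const hT a hv N
    obtain ⟨d₁, d1, rfl⟩ := (c4 M _ _).1 a1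
    obtain ⟨d₂, d2, rfl⟩ := (c4 N _ _).1 b1
    exact (lc.apply_eq_of_preconnectedSpace d₁ c).mp ⟨d₂, d2.trans d1.symm, b2.trans a2.symm⟩
  have un := h2 V (C N).X (ε N) Ω (fun c => Ψ N c v) hS (c2 N).cont fun y => by
    obtain ⟨ψ, hψ⟩ := gd y
    refine ⟨interior {y | Gd p e E Φ x ψ y}, {w | Orb p e Φ x v x w}, fun y w => ψ y w.1,
      isOpen_interior, mem_interior_iff_mem_nhds.2 (hψ.near hE), fun y hy w w' k => Subtype.ext
        ((interior_subset hy).1.self_of_nhds.inj hT (Orb.mem hT hv w.2) (Orb.mem hT hv w'.2) k),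
      fun y hy w => all _ _ (Orb.ch w.2 (interior_subset hy).1.self_of_nhds), fun c k => ?_⟩
    obtain ⟨w, k1, k2⟩ := Gd.lc hE hT hv hc ((c2 N).at c) (c3 N v hv c) (ho N)
      (interior_subset (s := {y | Gd p e E Φ x ψ y}) k)
    exact ⟨⟨w, k1⟩, k2⟩
  have un' : ∀ y φ φ', Ch p e Φ x y φ → Ch p e Φ x y φ' → φ v = φ' v := fun y φ φ' k k' => by
    obtain ⟨c, k1, k2⟩ := all y _ ⟨φ, k, rfl⟩
    obtain ⟨c', k3, k4⟩ := all y _ ⟨φ', k', rfl⟩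
    exact k2.symm.trans ((un c c' (k1.trans k3.symm)).trans k4)
  choose φ₀ h₀ using hC.ch Φ x
  refine ⟨fun y => φ₀ y v, fun y => ?_, un' x _ _ (h₀ x) (.refl x)⟩
  obtain ⟨ψ, hψ⟩ := gd y
  exact (hψ.2 v hv).cng (Eventually.of_forall fun _ => rfl)
    (hψ.1.mono fun y' k => un' y' _ _ k (h₀ y'))

end Vale.Agent.P280Z.Tr
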