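import Vale.Agent.P280Z.Tr.Hb
import Vale.Agent.P301Z.Ex.Vb
import Vale.Agent.P301Z.Ex.Abs
import Vale.Agent.P268.Hol

/-!
# P280Z, block Tr: sections on the line depend holomorphically on parameters
-/

open scoped Manifold ContDiff Topology Matrix
open Set Filter Metric
open Vale.Agent.P272.K Vale.Agent.P281Z
open Vale.Agent.P301Z.Ex (Glue Coch)

noncomputable section

namespace Vale.Agent.P280Z.Tr

namespace ParH

variable {n l : ℕ} {V : Mf n} {Ω : Type} [AddCommGroup Ω] [Module ℂ Ω] {E : HB V.X Ω}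
  {f : Cm l → Cm 2 → V.X} {τ : Cm l} {r : ℝ}

variable (E f τ r) in
/-- a covering by balls and the normalisation -/
structure Dat : Type 1 where
  C : Type
  [fin : Fintype C]
  a : C → Cm 2
  ρ : C → ℝ
  i : C → E.ι
  o : C
  ζ : Cm l → Cm 2
  v : Cm l → Cm E.r
  G : ℝ
  hr : 0 < r
  pos : ∀ c, 0 < ρ c
  box : ∀ c, ∀ t ∈ ball τ r, ∀ w ∈ closedBall (a c) (4 * ρ c), w ≠ 0 ∧ f t w ∈ E.U (i c) ∧
    AnM (fun q : Cm l × Cm 2 => f q.1 q.2) (t, w)
  ln : ∀ t ∈ ball τ r, Ln (f t)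
  cov : ∀ w : Cm 2, w ≠ 0 → ∃ c, ∃ μ : ℂ, μ ≠ 0 ∧ μ • w ∈ ball (a c) (2 * ρ c)
  hζ : ∀ t ∈ ball τ r, AnalyticAt ℂ ζ t ∧ ζ t ∈ ball (a o) (2 * ρ o)
  hv : ∀ t ∈ ball τ r, AnalyticAt ℂ v t ∧ ∀ b, ‖1 - v t b‖ ≤ G
  one : 1 ≤ G
  bd : ∀ c c', ∀ t ∈ ball τ r, ∀ w ∈ ball (a c) (4 * ρ c), ∀ w' ∈ ball (a c') (4 * ρ c'),
    f t w' = f t w → ∀ b b', ‖E.tm (i c) (i c') (f t w) b b'‖ ≤ G

attribute [instance] Dat.fin

variable (D : Dat E f τ r)

/-- the unknown functions -/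
abbrev I : Type := Option (D.C × Fin E.r)

/-- the centres -/
def zz : I D → Cm 2
  | none => 0
  | some x => D.a x.1

/-- the radii -/
def rr : I D → ℝ
  | none => 1
  | some x => D.ρ x.1

/-- the equations -/
inductive QQ : Type
  | one (c : D.C) (b : Fin E.r) (w : Cm 2) (c' : D.C) (μ : ℂ) (hw : w ∈ ball (D.a c) (4 * D.ρ c))
      (hμ : μ ≠ 0) (hw' : μ • w ∈ ball (D.a c') (4 * D.ρ c')) : QQ
  | two (w : Cm 2) (hw : w ∈ ball (0 : Cm 2) (4 * 1)) : QQ
  | three (b : Fin E.r) : QQ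

theorem b24 (c : D.C) : ball (D.a c) (2 * D.ρ c) ⊆ ball (D.a c) (4 * D.ρ c) :=
  ball_subset_ball (by linarith [D.pos c])

theorem rr_pos : ∀ c, 0 < rr D c
  | none => one_pos
  | some x => D.pos x.1

include D in
theorem hom {t : Cm l} (ht : t ∈ ball τ r) {w : Cm 2} (hw : w ≠ 0) {μ : ℂ} (hμ : μ ≠ 0) :
    f t (μ • w) = f t w := (D.ln t ht w hw).2 μ hμ

open Classical in
/-- the coefficients -/
def gg : QQ D → I D → Cm l → ℂ
  | .one .., none => fun _ => 0
  | .one c b w c' .., some x => fun t => if x.1 = c' then E.tm (D.i c) (D.i c') (f t w) b x.2 else 0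
  | .two .., none => fun _ => 1
  | .two .., some _ => fun _ => 0
  | .three b, none => fun t => 1 - D.v t b
  | .three b, some x => fun _ => if x = (D.o, b) then 1 else 0

open Classical in
/-- the points -/
def pp : QQ D → I D → Cm l → Cm 2
  | _, none => fun _ => 0
  | .one _ _ w c' μ .., some x => fun _ => if x.1 = c' then μ • w else D.a x.1
  | .two .., some x => fun _ => D.a x.1
  | .three _, some x => fun t => if x.1 = D.o then D.ζ t else D.a x.1

/-- the gluing data -/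
def glue (hE : IsHB E) : Glue l 2 (I D) (zz D) (rr D) τ r where
  Q := QQ D
  c q := match q with
    | .one c b .. => some (c, b)
    | _ => none
  w q := match q with
    | .one _ _ w .. => w
    | .two w _ => w
    | .three _ => 0
  g := gg D
  φ := pp D
  G := D.G
  pos := rr_pos D
  mem := by
    rintro (⟨c, b, w, c', μ, hw, hμ, hw'⟩ | ⟨w, hw⟩ | b)
    exacts [hw, hw, mem_ball_self (by norm_num [rr])]
  holg := by
    rintro (⟨c, b, w, c', μ, hw, hμ, hw'⟩ | ⟨w, hw⟩ | b) (_ | x) <;> simp only [gg] <;>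
      try exact differentiableOn_const _
    · split_ifs
      · intro t ht
        obtain ⟨k1, k2, k3⟩ := D.box c t ht w (ball_subset_closedBall hw)
        have k4 := (D.box c' t ht _ (ball_subset_closedBall hw')).2.1
        rw [hom D ht k1 hμ] at k4
        exact ((AnM.comp (g := fun t => (t, w)) k3 (analyticAt_id.prod analyticAt_const)).hol
          (hE.tm_hol k2 k4 b x.2)).differentiableAt.differentiableWithinAt
      · exact differentiableOn_const _
    · exact fun t ht => (analyticAt_const.sub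
        (analyticAt_pi_iff.1 (D.hv t ht).1 b)).differentiableAt.differentiableWithinAt
  bdd := by
    have h0 : ‖(0 : ℂ)‖ ≤ D.G := by rw [norm_zero]; linarith [D.one]
    have h1 : ‖(1 : ℂ)‖ ≤ D.G := by rw [norm_one]; exact D.one
    rintro (⟨c, b, w, c', μ, hw, hμ, hw'⟩ | ⟨w, hw⟩ | b) (_ | x) t ht <;> simp only [gg]
    · exact h0
    · split_ifs
      · exact D.bd c c' t ht w hw _ hw'
          (hom D ht (D.box c t ht w (ball_subset_closedBall hw)).1 hμ) _ _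
      · exact h0
    · exact h1
    · exact h0
    · exact (D.hv t ht).2 b
    · split_ifs
      exacts [h1, h0]
  holφ := by
    rintro (⟨c, b, w, c', μ, hw, hμ, hw'⟩ | ⟨w, hw⟩ | b) (_ | x) <;> simp only [pp] <;>
      try exact differentiableOn_const _
    split_ifs
    · exact fun t ht => (D.hζ t ht).1.differentiableAt.differentiableWithinAt
    · exact differentiableOn_const _
  maps := by
    have h0 : ∀ c, zz D c ∈ ball (zz D c) (4 * rr D c) := fun c =>
      mem_ball_self (by linarith [rr_pos D c])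
    rintro (⟨c, b, w, c', μ, hw, hμ, hw'⟩ | ⟨w, hw⟩ | b) (_ | ⟨x, y⟩) t ht <;> simp only [pp]
    · exact h0 none
    · split_ifs with h
      · subst h; exact hw'
      · exact h0 (some (x, y))
    · exact h0 none
    · exact h0 (some (x, y))
    · exact h0 none
    · split_ifs with h
      · subst h; exact b24 D _ (D.hζ t ht).2
      · exact h0 (some (x, y))
  big := by
    have h0 : ∀ c, zz D c ∈ closedBall (zz D c) (2 * rr D c) := fun c =>
      mem_closedBall_self (by linarith [rr_pos D c])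
    rintro (_ | ⟨c, b⟩) w hw
    · refine ⟨.two w hw, rfl, rfl, ?_⟩
      rintro (_ | x) <;> exact h0 _
    · obtain ⟨c', μ, h1, h2⟩ :=
        D.cov w (D.box c τ (mem_ball_self D.hr) w (ball_subset_closedBall hw)).1
      refine ⟨.one c b w c' μ hw h1 (b24 D _ h2), rfl, rfl, ?_⟩
      rintro (_ | ⟨x, y⟩)
      · exact h0 none
      · simp only [pp]
        split_ifs with k
        · subst k; exact ball_subset_closedBall h2
        · exact h0 (some (x, y))

variable {D} {hE : IsHB E} {t : Cm l}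

/-- the equations, written out -/
theorem sol_iff {u : I D → Cm 2 → ℂ} : (glue D hE).Sol t u ↔ Coch (zz D) (rr D) u ∧
    (∀ c, ∀ w ∈ ball (D.a c) (4 * D.ρ c), ∀ (c') (μ : ℂ), μ ≠ 0 →
      μ • w ∈ ball (D.a c') (4 * D.ρ c') → (fun b => u (some (c, b)) w) =
        E.tm (D.i c) (D.i c') (f t w) *ᵥ fun b => u (some (c', b)) (μ • w)) ∧
    (∀ w ∈ ball (0 : Cm 2) (4 * 1), u none w = u none 0) ∧
    ∀ b, u none 0 = (1 - D.v t b) * u none 0 + u (some (D.o, b)) (D.ζ t) := by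
  classical
  have e1 : ∀ c b w c' μ hw hμ hw', ∑ x, gg D (.one c b w c' μ hw hμ hw') x t *
      u x (pp D (.one c b w c' μ hw hμ hw') x t) =
      (E.tm (D.i c) (D.i c') (f t w) *ᵥ fun b => u (some (c', b)) (μ • w)) b := by
    intro c b w c' μ hw hμ hw'
    rw [Fintype.sum_option, Fintype.sum_prod_type, Finset.sum_eq_single c']
    · simp [gg, pp, Matrix.mulVec, dotProduct]
    · intro x _ hx
      simp [gg, hx]
    · simp
  have e2 : ∀ w hw, ∑ x, gg D (.two w hw) x t * u x (pp D (.two w hw) x t) = u none 0 := by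
    intro w hw
    simp [Fintype.sum_option, gg, pp]
  have e3 : ∀ b, ∑ x, gg D (.three b) x t * u x (pp D (.three b) x t) =
      (1 - D.v t b) * u none 0 + u (some (D.o, b)) (D.ζ t) := by
    intro b
    rw [Fintype.sum_option, Finset.sum_eq_single (D.o, b)]
    · simp [gg, pp]
    · intro x _ hx
      simp [gg, hx]
    · simp
  refine and_congr_right fun _ => ⟨fun h => ⟨fun c w hw c' μ hμ hw' => funext fun b => ?_,
    fun w hw => ?_, fun b => ?_⟩, fun ⟨h1, h2, h3⟩ => ?_⟩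
  · exact (h (.one c b w c' μ hw hμ hw')).trans (e1 ..)
  · exact (h (.two w hw)).trans (e2 ..)
  · exact (h (.three b)).trans (e3 ..)
  · rintro (⟨c, b, w, c', μ, hw, hμ, hw'⟩ | ⟨w, hw⟩ | b)
    · exact (congrFun (h1 c w hw c' μ hμ hw') b).trans (e1 ..).symm
    · exact (h2 w hw).trans (e2 ..).symm
    · exact (h3 b).trans (e3 ..).symm

/-- uniqueness at `τ` -/
theorem uniq (hI : Inj E (f τ)) {u : I D → Cm 2 → ℂ} (hu : (glue D hE).Sol τ u)
    (h0 : u none 0 = 0) : ∀ c, ∀ w ∈ ball (zz D c) (4 * rr D c), u c w = 0 := by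
  obtain ⟨h1, h2, h3, h4⟩ := sol_iff.1 hu
  have hτ : τ ∈ ball τ r := mem_ball_self D.hr
  have mem : ∀ {c} {y : Cm 2} {μ : ℂ}, μ ≠ 0 → μ • y ∈ ball (D.a c) (4 * D.ρ c) →
      y ≠ 0 ∧ f τ y ∈ E.U (D.i c) := fun {c y μ} hμ h => by
    obtain ⟨k1, k2, -⟩ := D.box c τ hτ _ (ball_subset_closedBall h)
    have k3 : y ≠ 0 := fun k => k1 (by rw [k, smul_zero])
    exact ⟨k3, hom D hτ k3 hμ ▸ k2⟩
  obtain ⟨s, hs⟩ : ∃ s : Cm 2 → Ω, ∀ (c) (y : Cm 2) (μ : ℂ), μ ≠ 0 →
      μ • y ∈ ball (D.a c) (4 * D.ρ c) →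
      s y = E.b (D.i c) (f τ y) fun b => u (some (c, b)) (μ • y) := by
    refine ((Classical.skolem (p := fun y (v : Ω) => ∀ (c) (μ : ℂ), μ ≠ 0 →
      μ • y ∈ ball (D.a c) (4 * D.ρ c) →
      v = E.b (D.i c) (f τ y) fun b => u (some (c, b)) (μ • y))).1 (fun y => ?_)).imp
      fun s h c y => h y c
    by_cases hy : y = 0
    · exact ⟨0, fun c μ hμ h => absurd hy (mem hμ h).1⟩
    obtain ⟨c', μ', k1, k2⟩ := D.cov y hy
    refine ⟨E.b (D.i c') (f τ y) fun b => u (some (c', b)) (μ' • y), fun c μ hμ h => ?_⟩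
    have e : (μ' / μ) • μ • y = μ' • y := by rw [smul_smul, div_mul_cancel₀ _ hμ]
    rw [h2 c _ h c' (μ' / μ) (div_ne_zero k1 hμ) (e ▸ b24 D _ k2), e, hom D hτ hy hμ]
    exact hE.b_tm (mem hμ h).2 (mem k1 (b24 D _ k2)).2 _
  have sec : Sec E (f τ) 0 s := fun y hy => by
    obtain ⟨c, μ, k1, k2⟩ := D.cov y hy
    have k3 := b24 D _ k2
    have an : AnalyticAt ℂ (fun y : Cm 2 => μ • y) y := analyticAt_id.const_smul (c := μ)
    refine ⟨⟨D.i c, (mem k1 k3).2, fun y b => u (some (c, b)) (μ • y),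
      analyticAt_pi_iff.2 fun b => ?_, ?_⟩, fun ν hν => ?_⟩
    · exact AnalyticAt.comp (g := u (some (c, b)))
        (P268.analyticAt_of_differentiableOn isOpen_ball (h1 (some (c, b))).1 k3) an
    · filter_upwards [an.continuousAt.eventually (isOpen_ball.mem_nhds k3)] with y' k
      exact hs c y' μ k1 k
    · have e : (μ / ν) • ν • y = μ • y := by rw [smul_smul, div_mul_cancel₀ _ hν]
      rw [zpow_zero, one_smul, hs c y μ k1 k3, hs c _ (μ / ν) (div_ne_zero k1 hν) (e ▸ k3), e,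
        hom D hτ hy hν]
  have k1 : (1 : ℂ) • D.ζ τ ∈ ball (D.a D.o) (4 * D.ρ D.o) := by
    rw [one_smul]; exact b24 D _ (D.hζ τ hτ).2
  have k2 : s (D.ζ τ) = 0 := by
    rw [hs _ _ 1 one_ne_zero k1, one_smul, ← map_zero (E.b (D.i D.o) (f τ (D.ζ τ)))]
    refine congrArg _ (funext fun b => ?_)
    have := h4 b
    rw [h0, mul_zero, zero_add] at this
    exact this.symm
  rintro (_ | ⟨c, b⟩) w hw
  · exact (h3 w hw).trans h0
  · have k3 : (1 : ℂ) • w ∈ ball (D.a c) (4 * D.ρ c) := by rw [one_smul]; exact hw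
    obtain ⟨k4, k5⟩ := mem one_ne_zero k3
    have k6 := hs c w 1 one_ne_zero k3
    rw [hI s _ sec (mem one_ne_zero k1).1 k2 w k4, one_smul] at k6
    exact congrFun (hE.inj _ _ k5 (k6.symm.trans (map_zero _).symm)) b

/-- the coordinates of the sections solve the equations -/
theorem sol {s : Cm 2 → Ω} (ht : t ∈ ball τ r) (hs : Sec E (f t) 0 s)
    (hv : D.v t = E.κ (D.i D.o) (f t (D.ζ t)) (s (D.ζ t))) :
    (glue D hE).Sol t fun c w => c.elim 1 fun x => E.κ (D.i x.1) (f t w) (s w) x.2 := by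
  refine sol_iff.2 ⟨?_, fun c w hw c' μ hμ hw' => ?_, fun _ _ => rfl, fun b => ?_⟩
  · rintro (_ | ⟨c, b⟩)
    · exact ⟨differentiableOn_const _, 1, fun _ _ => norm_one.le⟩
    have an : ∀ w ∈ closedBall (D.a c) (4 * D.ρ c),
        AnalyticAt ℂ (fun w => E.κ (D.i c) (f t w) (s w) b) w := fun w hw => by
      obtain ⟨k1, k2, -⟩ := D.box c t ht w hw
      exact analyticAt_pi_iff.1 ((hs w k1).1.κ hE (D.ln t ht w k1).1 k2) b
    obtain ⟨M, hM⟩ := (isCompact_closedBall (D.a c) (4 * D.ρ c)).exists_bound_of_continuousOn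
      fun w hw => (an w hw).continuousAt.continuousWithinAt
    exact ⟨fun w hw => (an w (ball_subset_closedBall hw)).differentiableAt.differentiableWithinAt,
      M, fun w hw => hM w (ball_subset_closedBall hw)⟩
  · have k1 := (D.box c t ht w (ball_subset_closedBall hw)).1
    have k2 := (D.box c' t ht _ (ball_subset_closedBall hw')).2.1
    change E.κ (D.i c) (f t w) (s w) =
      E.tm (D.i c) (D.i c') (f t w) *ᵥ E.κ (D.i c') (f t (μ • w)) (s (μ • w))
    rw [hom D ht k1 hμ] at k2 ⊢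
    rw [(hs w k1).2 μ hμ, zpow_zero, one_smul]
    exact hE.κ_tm k2 (hs.mem hE (D.ln t ht) k1)
  · simp [hv]

/-- the covering -/
theorem cover (hE : IsHB E) (hf : ∀ y, y ≠ 0 → AnM (fun q : Cm l × Cm 2 => f q.1 q.2) (τ, y)) :
    ∃ (C : Type) (_ : Fintype C) (a : C → Cm 2) (ρ : C → ℝ) (i : C → E.ι), (∀ c, 0 < ρ c) ∧
      (∀ᶠ t in 𝓝 τ, ∀ c, ∀ w ∈ closedBall (a c) (4 * ρ c), w ≠ 0 ∧ f t w ∈ E.U (i c) ∧
        AnM (fun q : Cm l × Cm 2 => f q.1 q.2) (t, w)) ∧
      ∀ w : Cm 2, w ≠ 0 → ∃ c, ∃ μ : ℂ, μ ≠ 0 ∧ μ • w ∈ ball (a c) (2 * ρ c) := by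
  have h1 : ∀ p : Cm 2, ∃ (i : E.ι) (ρ : ℝ), 0 < ρ ∧ (p ≠ 0 → ∀ᶠ t in 𝓝 τ,
      ∀ w ∈ closedBall p (4 * ρ), w ≠ 0 ∧ f t w ∈ E.U i ∧
        AnM (fun q : Cm l × Cm 2 => f q.1 q.2) (t, w)) := fun p => by
    obtain ⟨i, hi⟩ := hE.cov (f τ p)
    by_cases hp : p = 0
    · exact ⟨i, 1, one_pos, fun h => absurd hp h⟩
    have k : ∀ᶠ q : Cm l × Cm 2 in 𝓝 (τ, p), q.2 ≠ 0 ∧ f q.1 q.2 ∈ E.U i ∧
        AnM (fun q : Cm l × Cm 2 => f q.1 q.2) q :=
      (continuousAt_snd.eventually_ne hp).and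
        (((hf p hp).1.eventually ((hE.opn i).mem_nhds hi)).and (hf p hp).near)
    obtain ⟨ε, hε, k1⟩ := Metric.eventually_nhds_iff_ball.1 k
    refine ⟨i, ε / 5, by linarith, fun _ => ?_⟩
    filter_upwards [ball_mem_nhds τ hε] with t ht w hw
    refine k1 (t, w) ?_
    rw [← ball_prod_same]
    exact ⟨ht, closedBall_subset_ball (by linarith) hw⟩
  choose i ρ h2 h3 using h1
  obtain ⟨T, k1, k2⟩ := (isCompact_sphere (0 : Cm 2) 1).elim_nhds_subcover
    (fun p => ball p (2 * ρ p)) fun p _ => ball_mem_nhds p (by linarith [h2 p])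
  refine ⟨T, inferInstance, fun c => c, fun c => ρ c, fun c => i c, fun c => h2 c,
    eventually_all.2 fun c => h3 c fun h => by simpa [h] using k1 c c.2, fun w hw => ?_⟩
  have k3 : (‖w‖ : ℂ) ≠ 0 := by simpa using hw
  have k4 : (‖w‖ : ℂ)⁻¹ • w ∈ sphere (0 : Cm 2) 1 := by
    rw [mem_sphere_zero_iff_norm, norm_smul, norm_inv, Complex.norm_real, norm_norm,
      inv_mul_cancel₀ (norm_ne_zero_iff.2 hw)]
  obtain ⟨p, hp, k5⟩ := mem_iUnion₂.1 (k2 k4)
  exact ⟨⟨p, hp⟩, _, inv_ne_zero k3, k5⟩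

end ParH

open ParH in
theorem par : PAR := by
  intro n V Ω _ _ E l f s z τ hE hf hs hI hz hz0 hsz y hy
  obtain ⟨C, _, a, ρ, i, h1, h2, h3⟩ := cover hE hf
  obtain ⟨o, μ, hμ, ho⟩ := h3 _ hz0
  have aζ : AnalyticAt ℂ (fun t => μ • z t) τ := hz.const_smul (c := μ)
  have az : AnM (fun t => f t (z t)) τ :=
    AnM.comp (g := fun t => (t, z t)) (hf _ hz0) (analyticAt_id.prod hz)
  have h24 : ∀ c, ball (a c) (2 * ρ c) ⊆ closedBall (a c) (4 * ρ c) := fun c =>
    ball_subset_closedBall.trans (closedBall_subset_closedBall (by linarith [h1 c]))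
  have ko := (h2.self_of_nhds o _ (h24 _ ho)).2.1
  rw [(hs.self_of_nhds.1 _ hz0).2 μ hμ] at ko
  have av := hsz.κ hE az ko
  obtain ⟨r, hr, h4⟩ := nhds_basis_closedBall.eventually_iff.1 (h2.and (hs.and
    ((aζ.eventually_analyticAt.and (aζ.continuousAt.eventually (isOpen_ball.mem_nhds ho))).and
      (av.eventually_analyticAt.and (hz.continuousAt.eventually_ne hz0)))))
  obtain ⟨G₁, hG₁⟩ := (isCompact_closedBall τ r).exists_bound_of_continuousOn
    fun t ht => (h4 ht).2.2.2.1.continuousAt.continuousWithinAt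
  have hK : ∀ c, IsCompact ((fun q : Cm l × Cm 2 => f q.1 q.2) ''
      (closedBall τ r ×ˢ closedBall (a c) (4 * ρ c))) := fun c =>
    ((isCompact_closedBall _ _).prod (isCompact_closedBall _ _)).image_of_continuousOn
      fun q hq => ((h4 hq.1).1 c _ hq.2).2.2.1.continuousWithinAt
  have hU : ∀ c x, x ∈ (fun q : Cm l × Cm 2 => f q.1 q.2) ''
      (closedBall τ r ×ˢ closedBall (a c) (4 * ρ c)) → x ∈ E.U (i c) := by
    rintro c _ ⟨q, hq, rfl⟩
    exact ((h4 hq.1).1 c _ hq.2).2.1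
  choose M hM using fun (x : C × C × Fin E.r × Fin E.r) =>
    ((hK x.1).inter (hK x.2.1)).exists_bound_of_continuousOn
      (f := fun y => E.tm (i x.1) (i x.2.1) y x.2.2.1 x.2.2.2) fun y hy =>
        (hE.tm_hol (hU _ _ hy.1) (hU _ _ hy.2) _ _).cont.continuousWithinAt
  obtain ⟨G₂, hG₂⟩ := (finite_range M).bddAbove
  have sub := ball_subset_closedBall (x := τ) (ε := r)
  let D : Dat E f τ r :=
    { C := C, a := a, ρ := ρ, i := i, o := o, ζ := fun t => μ • z t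
      v := fun t => E.κ (i o) (f t (z t)) (s t (z t)), G := max (1 + |G₁|) G₂, hr := hr, pos := h1
      box := fun c t ht => (h4 (sub ht)).1 c, ln := fun t ht => (h4 (sub ht)).2.1.1, cov := h3
      hζ := fun t ht => (h4 (sub ht)).2.2.1
      hv := fun t ht => ⟨(h4 (sub ht)).2.2.2.1, fun b => le_max_of_le_left ((norm_sub_le _ _).trans
        (add_le_add norm_one.le ((norm_le_pi_norm _ b).trans
          ((hG₁ t (sub ht)).trans (le_abs_self _)))))⟩
      one := le_max_of_le_left (le_add_of_nonneg_right (abs_nonneg _))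
      bd := fun c c' t ht w hw w' hw' e b b' => le_max_of_le_right
        ((hM (c, c', b, b') _ ⟨⟨(t, w), ⟨sub ht, ball_subset_closedBall hw⟩, rfl⟩,
          ⟨(t, w'), ⟨sub ht, ball_subset_closedBall hw'⟩, e⟩⟩).trans (hG₂ ⟨_, rfl⟩)) }
  obtain ⟨r', k1, k2, -, k3⟩ := P301Z.Ex.vb_of P301Z.Ex.abs l 2 (I D) _ _ τ r hr (glue D hE) none 0
    (mem_ball_self (by norm_num [rr])) fun u hu h0 => uniq hI hu h0
  have k4 := k3 (fun t c w => c.elim 1 fun x => E.κ (D.i x.1) (f t w) (s t w) x.2) fun t ht => by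
    have ht' := ball_subset_ball k2 ht
    obtain ⟨-, ⟨b1, b2⟩, -, -, b3⟩ := h4 (sub ht')
    refine ⟨sol ht' b2 ?_, rfl⟩
    change E.κ (i o) (f t (z t)) (s t (z t)) = E.κ (i o) (f t (μ • z t)) (s t (μ • z t))
    rw [(b1 _ b3).2 μ hμ, (b2 _ b3).2 μ hμ, zpow_zero, one_smul]
  obtain ⟨c, ν, hν, hc⟩ := h3 y hy
  have kc := (h2.self_of_nhds c _ (h24 _ hc)).2.1
  rw [(hs.self_of_nhds.1 _ hy).2 ν hν] at kc
  have ev : ∀ᶠ q : Cm l × Cm 2 in 𝓝 (τ, y), (Ln (f q.1) ∧ Sec E (f q.1) 0 (s q.1)) ∧ q.2 ≠ 0 :=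
    ((continuousAt_fst (p := (τ, y))).eventually hs).and (continuousAt_snd.eventually_ne hy)
  refine anS_of_κ hE (hf y hy).1 kc (ev.mono fun q k => k.1.2.mem hE k.1.1 k.2)
    (analyticAt_pi_iff.2 fun b => ?_)
  have k5 := P268.analyticAt_of_differentiableOn (isOpen_ball.prod isOpen_ball) (k4 (some (c, b)))
    (x := (τ, ν • y)) ⟨mem_ball_self k1, b24 D c hc⟩
  have k6 : AnalyticAt ℂ (fun q : Cm l × Cm 2 => (q.1, ν • q.2)) (τ, y) :=
    analyticAt_fst.prod (analyticAt_snd.const_smul (c := ν))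
  refine (k5.comp_of_eq k6 rfl).congr (ev.mono fun q k => ?_)
  change E.κ (i c) (f q.1 (ν • q.2)) (s q.1 (ν • q.2)) b = _
  rw [(k.1.1 _ k.2).2 ν hν, (k.1.2 _ k.2).2 ν hν, zpow_zero, one_smul]

end Vale.Agent.P280Z.Tr
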