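import Vale.Agent.P280Z.Tr.Hb

/-!
# P280Z, block Tr, rows DVS and RED: division of sections, reduction of the degrees
-/

open scoped Manifold ContDiff Topology Matrix Matrix.Norms.Elementwise
open Set Filter
open Vale.Agent.P272.K Vale.Agent.P281Z Vale.Agent.P280Z.Mp

noncomputable section

namespace Vale.Agent.P280Z.Tr

namespace RedH

theorem ex_lf {y : Cm 2} (h : y ≠ 0) : ∃ z, lf y z = 1 := by
  by_cases h0 : y 0 = 0
  · have h1 : y 1 ≠ 0 := fun h1 => h (funext (Fin.forall_fin_two.2 ⟨h0, h1⟩))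
    exact ⟨![-(y 1)⁻¹, 0], by simp [lf, h1]⟩
  · exact ⟨![0, (y 0)⁻¹], by simp [lf, h0]⟩

theorem lf_dec {y₁ y₂ : Cm 2} (h : lf y₁ y₂ = 1) (y : Cm 2) :
    y = lf y y₂ • y₁ + lf y₁ y • y₂ := by
  refine funext (Fin.forall_fin_two.2 ⟨?_, ?_⟩) <;>
    simp only [lf, Pi.add_apply, Pi.smul_apply, smul_eq_mul] at h ⊢
  · linear_combination (-y 0) * h
  · linear_combination (-y 1) * h

theorem lf_l (c : ℂ) (y z : Cm 2) : lf (c • y) z = c * lf y z := by
  simp only [lf, Pi.smul_apply, smul_eq_mul]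
  ring

theorem lf_r (c : ℂ) (y z : Cm 2) : lf y (c • z) = c * lf y z := by
  simp only [lf, Pi.smul_apply, smul_eq_mul]
  ring

theorem an_co (i : Fin 2) (y : Cm 2) : AnalyticAt ℂ (fun z : Cm 2 => z i) y :=
  an_app (f := fun z : Cm 2 => z) analyticAt_id i

theorem an_l (z y : Cm 2) : AnalyticAt ℂ (fun y => lf y z) y :=
  ((an_co 0 y).mul analyticAt_const).sub ((an_co 1 y).mul analyticAt_const)

theorem an_r (z y : Cm 2) : AnalyticAt ℂ (lf z) y :=
  (analyticAt_const.mul (an_co 1 y)).sub (analyticAt_const.mul (an_co 0 y))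

theorem li_upd {J Ω : Type} [Fintype J] [DecidableEq J] [AddCommGroup Ω] [Module ℂ Ω] {v : J → Ω}
    (h : LinearIndependent ℂ v) {w : J → ℂ} {j₀ : J} (hw : w j₀ ≠ 0) :
    LinearIndependent ℂ (Function.update v j₀ (∑ j, w j • v j)) := by
  refine Fintype.linearIndependent_iff.2 fun c hc => ?_
  have k := Fintype.linearIndependent_iff.1 h (fun j => c j₀ * w j + Function.update c j₀ 0 j) (by
    rw [← hc, ← Finset.add_sum_erase _ (fun j => c j • Function.update v j₀ _ j)
      (Finset.mem_univ j₀), Function.update_self, Finset.smul_sum]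
    simp only [add_smul, Finset.sum_add_distrib, mul_smul]
    rw [← Finset.add_sum_erase _ (fun j => Function.update c j₀ 0 j • v j) (Finset.mem_univ j₀),
      Function.update_self, zero_smul, zero_add]
    refine congrArg _ (Finset.sum_congr rfl fun j hj => ?_)
    rw [Function.update_of_ne (Finset.ne_of_mem_erase hj),
      Function.update_of_ne (Finset.ne_of_mem_erase hj)])
  have k0 : c j₀ = 0 := by simpa [hw] using k j₀
  intro j
  by_cases e : j = j₀
  · rw [e, k0]
  · simpa [k0, e] using k j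

variable {n : ℕ} {V : Mf n} {Ω : Type} [AddCommGroup Ω] [Module ℂ Ω] {E : HB V.X Ω}
  {f : Cm 2 → V.X}

theorem neg_zero (hi : Inj E f) {m : ℤ} {s : Cm 2 → Ω} (h : Sec E f m s) (hm : m < 0) {y : Cm 2}
    (hy : y ≠ 0) : s y = 0 := by
  obtain ⟨z, hz⟩ := ex_lf hy
  obtain ⟨p, hp⟩ : ∃ p : ℕ, (p + 1 : ℕ) + m = 0 := ⟨(-m - 1).toNat, by omega⟩
  have h1 := Sec.smul (a := fun y => lf y z ^ (p + 1)) (m' := (p + 1 : ℕ))
    (fun y _ => ⟨(an_l z y).pow _, fun c _ => by rw [lf_l, mul_pow, zpow_natCast]⟩) h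
  rw [hp] at h1
  have h2 := hi _ z h1 (Free.ne_right (hz ▸ one_ne_zero)) (by simp [lf, mul_comm]) y hy
  rwa [hz, one_pow, one_smul] at h2

end RedH

open RedH in
/-- row DVS -/
theorem dvs : DVS := by
  intro n V Ω _ _ E f hE hf m s y₁ hs h1 h0
  classical
  obtain ⟨y₂, h2⟩ := ex_lf h1
  obtain ⟨i, hi⟩ := hE.cov (f y₁)
  have e0 : y₁ + (0 : ℂ) • y₂ = y₁ := by rw [zero_smul, add_zero]
  have hγ : AnalyticAt ℂ (fun t : ℂ => y₁ + t • y₂) 0 :=
    analyticAt_const.add (analyticAt_id.smul analyticAt_const)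
  have hM : AnM (fun t : ℂ => f (y₁ + t • y₂)) 0 :=
    AnM.comp (g := fun t : ℂ => y₁ + t • y₂) (by rw [e0]; exact (hf y₁ h1).1) hγ
  obtain ⟨q, hq⟩ := AnS.κ hE hM (AnS.cmp (s := s) (g := fun t : ℂ => y₁ + t • y₂)
    (by rw [e0]; exact (hs y₁ h1).1) hγ) (j := i) (by rw [e0]; exact hi)
  set h : ℂ → Cm E.r := fun t => E.κ i (f (y₁ + t • y₂)) (s (y₁ + t • y₂))
  have hk : AnalyticAt ℂ (dslope h 0) 0 := hq.has_fpower_series_dslope_fslope.analyticAt
  have hd : ∀ t, h t = t • dslope h 0 t := fun t => by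
    have := sub_smul_dslope h 0 t
    rw [sub_zero, show h 0 = 0 by simp only [h, e0, h0, map_zero], sub_zero] at this
    exact this.symm
  have hα : ∀ y, y ≠ 0 → lf y₁ y = 0 → lf y y₂ ≠ 0 := fun y hy b a =>
    hy (by rw [lf_dec h2 y, a, b, zero_smul, zero_smul, add_zero])
  have hy' : ∀ y, lf y y₂ ≠ 0 → y = lf y y₂ • (y₁ + (lf y₁ y / lf y y₂) • y₂) := fun y a => by
    rw [smul_add, smul_smul, mul_div_cancel₀ _ a]
    exact lf_dec h2 y
  refine ⟨fun y => if lf y₁ y = 0 then lf y y₂ ^ (m - 1) • E.b i (f y₁) (dslope h 0 0)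
    else (lf y₁ y)⁻¹ • s y, fun y hy => ⟨?_, fun c hc => ?_⟩, fun y hy => ?_⟩
  · by_cases b : lf y₁ y = 0
    · have a := hα y hy b
      have hτ : AnalyticAt ℂ (fun y => lf y₁ y / lf y y₂) y := (an_r _ _).div (an_l _ _) a
      have τ0 : lf y₁ y / lf y y₂ = 0 := by rw [b, zero_div]
      have t1 : Tendsto (fun y => lf y₁ y / lf y y₂) (𝓝 y) (𝓝 0) := τ0 ▸ hτ.continuousAt.tendsto
      have e1 : f y = f y₁ := by rw [hy' y a, τ0, e0, (hf y₁ h1).2 _ a]
      refine ⟨i, e1 ▸ hi, fun y => lf y y₂ ^ (m - 1) • dslope h 0 (lf y₁ y / lf y y₂),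
        ((an_l _ _).zpow a).smul (hk.comp_of_eq hτ τ0), ?_⟩
      filter_upwards [(an_l y₂ y).continuousAt.eventually_ne a,
        t1.eventually (hγ.continuousAt.eventually_ne (e0.trans_ne h1)),
        t1.eventually (hM.1.eventually ((hE.opn i).mem_nhds (by simpa only [e0] using hi)))]
        with z a' k1 k2
      have e2 : f z = f (y₁ + (lf y₁ z / lf z y₂) • y₂) :=
        (congrArg f (hy' z a')).trans ((hf _ k1).2 _ a')
      split_ifs with b'
      · rw [e2, b', zero_div, e0, map_smul]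
      · have e3 : s z = lf z y₂ ^ m • s (y₁ + (lf y₁ z / lf z y₂) • y₂) :=
          (congrArg s (hy' z a')).trans ((hs _ k1).2 _ a')
        rw [e3, e2, ← hE.b_κ k2 (hs.mem hE hf k1), show E.κ i _ _ = _ from hd _, map_smul,
          map_smul, smul_smul, smul_smul, zpow_sub_one₀ a']
        congr 1
        field_simp
    · refine ((hs y hy).1.smul ((an_r y₁ y).inv b)).cng (.of_forall fun _ => rfl) ?_
      filter_upwards [(an_r y₁ y).continuousAt.eventually_ne b] with z hz
      rw [if_neg hz]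
      rfl
  · simp only [lf_l, lf_r, mul_eq_zero, hc, false_or]
    split_ifs with b
    · rw [mul_zpow, smul_smul]
    · rw [(hs y hy).2 c hc, smul_smul, smul_smul, zpow_sub_one₀ hc]
      congr 1
      field_simp
  · beta_reduce
    split_ifs with b
    · have a := hα y hy b
      rw [b, zero_smul, hy' y a, b, zero_div, e0, (hs y₁ h1).2 _ a, h0, smul_zero]
    · rw [smul_inv_smul₀ b]

open RedH in
/-- row RED -/
theorem red_of (hd : DVS) : RED := by
  intro n V Ω _ _ E f hE hf hi m s₀ h₀ k₀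
  classical
  have key : ∀ (N : ℕ) (a : Fin E.r → ℕ) (s : Fin E.r → Cm 2 → Ω), ∑ j, a j = N →
      (∀ j, Sec E f (a j) (s j)) → (∃ y, y ≠ 0 ∧ LinearIndependent ℂ fun j => s j y) →
      ∃ (a : Fin E.r → ℕ) (s' : Fin E.r → Cm 2 → Ω), (∀ j, Sec E f (a j) (s' j)) ∧
        ∀ y, y ≠ 0 → LinearIndependent ℂ fun j => s' j y := by
    intro N
    induction N using Nat.strong_induction_on with
    | _ N ih =>
    rintro a s hN hs ⟨y, hy, hl⟩
    by_cases hall : ∀ y, y ≠ 0 → LinearIndependent ℂ fun j => s j y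
    · exact ⟨a, s, hs, hall⟩
    push Not at hall
    obtain ⟨y₁, h1, h2⟩ := hall
    obtain ⟨g, g1, j₁, g2⟩ := Fintype.not_linearIndependent_iff.1 h2
    obtain ⟨j₀, g3, g4⟩ := Finset.exists_max_image (Finset.univ.filter fun j => g j ≠ 0) a
      ⟨j₁, by simpa using g2⟩
    simp only [Finset.mem_filter, Finset.mem_univ, true_and] at g3 g4
    obtain ⟨y₂, h3⟩ := ex_lf h1
    have hS : Sec E f (a j₀) fun z => ∑ j, g j • (lf z y₂ ^ (a j₀ - a j) • s j z) :=
      Sec.sum hE hf _ fun j _ => by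
        by_cases e : g j = 0
        · simpa only [e, zero_smul] using sec_zero hE
        · have k := Sec.smul (a := fun z => lf z y₂ ^ (a j₀ - a j)) (m' := (a j₀ - a j : ℕ))
            (fun y _ => ⟨(an_l y₂ y).pow _, fun c _ => by rw [lf_l, mul_pow, zpow_natCast]⟩) (hs j)
          rw [← Nat.cast_add, Nat.sub_add_cancel (g4 j e)] at k
          exact k.const_smul _
    obtain ⟨s', k1, k2⟩ := hd E f hE hf _ _ y₁ hS h1 (by simpa only [h3, one_pow, one_smul] using g1)
    have k3 := k2 y hy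
    simp only [smul_smul] at k3
    have k4 : lf y₁ y • s' y ≠ 0 := fun e => g3 (by
      simpa using Fintype.linearIndependent_iff.1 hl _ (k3.trans e) j₀)
    have k5 : lf y₁ y ≠ 0 := left_ne_zero_of_smul k4
    have k6 : a j₀ ≠ 0 := fun e =>
      right_ne_zero_of_smul k4 (neg_zero hi k1 (by rw [e]; simp) hy)
    refine ih _ ?_ (Function.update a j₀ (a j₀ - 1)) (Function.update s j₀ s') rfl (fun j => ?_)
      ⟨y, hy, ?_⟩
    · rw [← hN]
      refine Finset.sum_lt_sum (fun j _ => ?_) ⟨j₀, Finset.mem_univ _, ?_⟩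
      · by_cases e : j = j₀
        · rw [e, Function.update_self]
          omega
        · rw [Function.update_of_ne e]
      · rw [Function.update_self]
        omega
    · by_cases e : j = j₀
      · rw [e, Function.update_self, Function.update_self,
          Nat.cast_sub (Nat.one_le_iff_ne_zero.2 k6)]
        exact k1
      · rw [Function.update_of_ne e, Function.update_of_ne e]
        exact hs j
    · have k7 := li_upd hl (w := fun j => (lf y₁ y)⁻¹ * (g j * lf y y₂ ^ (a j₀ - a j))) (j₀ := j₀)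
        (by simp [k5, g3])
      simp only [mul_smul (lf y₁ y)⁻¹] at k7
      rw [← Finset.smul_sum, k3, inv_smul_smul₀ k5] at k7
      refine Eq.mp (congrArg (fun v => LinearIndependent ℂ v) (funext fun j => ?_)) k7
      by_cases e : j = j₀
      · rw [e, Function.update_self, Function.update_self]
      · rw [Function.update_of_ne e, Function.update_of_ne e]
  exact key _ (fun _ => m) s₀ rfl h₀ k₀

/-- row RED -/
theorem red : RED := red_of dvs

end Vale.Agent.P280Z.Tr
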