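import Vale.Agent.P280Z.Tr.SkA
import Vale.Agent.P280Z.Gm.All

/-!
# P280Z, block Tr, half A: rows SCC and FCN
-/

open scoped Manifold ContDiff Topology Matrix
open Set Filter
open Vale.Agent.P272.K Vale.Agent.P281Z Vale.Agent.P280Z.Mp

noncomputable section

namespace Vale.Agent.P280Z.Tr

namespace SccH

/-- the punctured plane is connected -/
theorem conn : IsConnected {z : Cm 2 | z ≠ 0} :=
  isConnected_compl_singleton_of_one_lt_rank (by
    rw [← Module.finrank_eq_rank, Module.finrank_pi_fintype]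
    simp) 0

/-- a submersion of compact manifolds is onto a connected target -/
theorem onto {m n : ℕ} {U : Mf m} {V : Mf n} {e : U.X → V.X} (he : Sub m n e) [Nonempty U.X]
    [ConnectedSpace V.X] : Function.Surjective e := by
  refine range_eq_univ.1 (IsClopen.eq_univ ⟨(isCompact_range he.hol.cont).isClosed,
    isOpen_iff_mem_nhds.2 ?_⟩ (range_nonempty e))
  rintro _ ⟨u, rfl⟩
  rw [← (he.sbm u).map_nhds (he.hol.at u)]
  exact range_mem_map

end SccH

theorem scc : SCC := by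
  intro T hT hR n V hV hF Y ε hε hY y y' e
  have hc := (Gm.cov T hT hR Y V ε hε hY hV hF (ε y)).isPreconnected
  refine hc.isDiscrete_iff_subsingleton.1 (isDiscrete_iff_forall_mem_exists_isOpen.2 fun z hz => ?_)
    rfl e.symm
  obtain ⟨W, h1, h2⟩ := (imm_iff_sbm.2 (hε.sbm z)).inj (hε.hol.at z)
  obtain ⟨O, k1, k2, k3⟩ := mem_nhds_iff.1 h1
  exact ⟨O, k2, eq_singleton_iff_unique_mem.2 ⟨⟨k3, hz⟩, fun w hw =>
    h2 (k1 hw.1) (k1 k3) (Eq.trans hw.2 (Eq.symm hz))⟩⟩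

theorem fcn : FCN := by
  intro n N r d D k V P pt F
  refine ⟨fun y => ?_, fun hV hS hU x => ?_⟩
  · obtain ⟨a, ha, rfl⟩ := F.pk_onto y
    have h : F.p ⁻¹' {F.pk a} = F.pu a '' {z | z ≠ 0} := by
      ext u
      refine ⟨fun hu => ?_, ?_⟩
      · obtain ⟨a', z', h1, h2, rfl⟩ := F.pu_onto u
        obtain ⟨g, hg⟩ := (F.pk_eq a a' ha h1).1 (Eq.symm ((F.p_pu a' z' h1 h2).symm.trans hu))
        by_cases h0 : g *ᵥ z' = 0
        · exact ⟨z', h2, (F.pu_eq a a' z' z' ha h1 h2 h2).2 ⟨g, 0, hg, by rw [h0, zero_smul]⟩⟩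
        · exact ⟨_, h0, (F.pu_eq a a' _ z' ha h1 h0 h2).2 ⟨g, 1, hg, (one_smul _ _).symm⟩⟩
      · rintro ⟨z, hz, rfl⟩
        exact F.p_pu a z ha hz
    rw [h]
    exact SccH.conn.isPreconnected.image _
      (F.pu_cont.comp (f := fun z => (a, z)) (by fun_prop) fun z hz => ⟨ha, hz⟩)
  · have he : Sub (k + 1) n F.e := ⟨F.e_hol, F.e_sbm⟩
    obtain ⟨Y, π, ε, h1, h2, h3, h4, h5⟩ := Gm.cq F.U V F.e he
    have hi := hS Y ε h3 (h2.connectedSpace h1)
    obtain ⟨u, rfl⟩ := SccH.onto he x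
    have h : F.e ⁻¹' {F.e u} = π ⁻¹' {π u} := by
      ext v
      simp only [mem_preimage, mem_singleton_iff, ← h4, hi.eq_iff]
    rw [h]
    exact ⟨⟨u, rfl⟩, h5 _⟩

end Vale.Agent.P280Z.Tr
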