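import Vale.Agent.P280Z.Tr.Hb

/-!
# P280Z, block Tr: the transport along the curves (row TRN)
-/

open scoped Manifold ContDiff Topology Matrix Matrix.Norms.Elementwise
open Set Filter
open Vale.Agent.P272.K Vale.Agent.P281Z Vale.Agent.P280Z.Mp Vale.Agent.P280Z.Ma
open Vale.Agent.P277Z (at_chart)

noncomputable section

namespace Vale.Agent.P280Z.Tr

namespace TrnH

theorem ex_lin {S Ω : Type} [AddCommGroup S] [Module ℂ S] [AddCommGroup Ω] [Module ℂ Ω]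
    (f g : S →ₗ[ℂ] Ω) : ∃ φ : Ω →ₗ[ℂ] Ω, ∀ s, ∃ s', f s' = f s ∧ g s' = φ (f s) := by
  obtain ⟨ρ, hρ⟩ := f.rangeRestrict.exists_rightInverse_of_surjective f.range_rangeRestrict
  obtain ⟨φ, hφ⟩ := (g.comp ρ).exists_extend
  exact ⟨φ, fun s => ⟨ρ ⟨f s, s, rfl⟩, congrArg Subtype.val (LinearMap.congr_fun hρ ⟨f s, s, rfl⟩),
    (LinearMap.congr_fun hφ ⟨f s, s, rfl⟩).symm⟩⟩

theorem an_of {n : ℕ} {V : Mf n} {T W : Type} [NormedAddCommGroup T] [NormedSpace ℂ T]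
    [NormedAddCommGroup W] [NormedSpace ℂ W] {f : T → V.X} {τ : T} (h : AnM f τ) {a : V.X → W}
    (ha : AnV n a (f τ)) : AnalyticAt ℂ (fun t => a (f t)) τ := by
  have hχ := at_chart (n := n) (f τ)
  refine ((ha _ hχ).comp_of_eq (h.2 _ hχ) rfl).congr ?_
  filter_upwards [h.1.eventually ((chartAt (Cm n) (f τ)).open_source.mem_nhds hχ.2)] with t ht
  exact congrArg a ((chartAt (Cm n) (f τ)).left_inv ht)

variable {n N r δ d D k : ℕ} {V : Mf n} {P : Eqs r N} {pt : Cm N → V.X}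
  {F : Fam V P pt d D k} {Ω : Type} [AddCommGroup Ω] [Module ℂ Ω] {E : HB V.X Ω}

variable (F) in
/-- two points of a parametrised curve -/
structure Pr (u u' : F.U.X) (a : BF d N) (z z' : Cm 2) : Prop where
  m : F.M a
  n : z ≠ 0
  n' : z' ≠ 0
  e : F.pu a z = u
  e' : F.pu a z' = u'

variable (F E) in
/-- `w` is the transport of `v` -/
def R (u u' : F.U.X) (v w : Ω) : Prop := ∃ a z z' s, Pr F u u' a z z' ∧
  Sec E (fun y => pt (ev a y)) 0 s ∧ s z = v ∧ s z' = w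

theorem ex_pr (hy : Hyp V P δ pt d) {u u' : F.U.X} (h : F.p u = F.p u') :
    ∃ a z z', Pr F u u' a z z' := by
  obtain ⟨a, z, h1, h2, rfl⟩ := F.pu_onto u
  obtain ⟨b, y, k1, k2, rfl⟩ := F.pu_onto u'
  rw [F.p_pu _ _ h1 h2, F.p_pu _ _ k1 k2] at h
  obtain ⟨g, hg⟩ := (F.pk_eq _ _ h1 k1).1 h
  have h3 := Gl.mv_ne hy.pos (hg ▸ (F.cd _ k1).1.nz) k2
  exact ⟨a, z, g *ᵥ y, h1, h2, h3, rfl,
    (F.pu_eq _ _ _ _ h1 k1 h3 k2).2 ⟨g, 1, hg, (one_smul _ _).symm⟩⟩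

theorem sec_act {a : BF d N} {s : Cm 2 → Ω} (h : Sec E (fun y => pt (ev a y)) 0 s) {g : M2}
    (hg : ∀ y, y ≠ 0 → g *ᵥ y ≠ 0) :
    Sec E (fun y => pt (ev (act a g) y)) 0 fun y => s (g *ᵥ y) := fun y hy => by
  simp only [ev_act]
  exact ⟨AnS.cmp (g := fun y => g *ᵥ y) (h _ (hg y hy)).1
    (an_mulVec analyticAt_const analyticAt_id), fun c hc => by
      rw [Matrix.mulVec_smul, (h _ (hg y hy)).2 c hc]⟩

theorem sec_eq {f : Cm 2 → V.X} {s : Cm 2 → Ω} (h : Sec E f 0 s) {y y' : Cm 2} {c : ℂ}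
    (hy : y ≠ 0) (hy' : y' ≠ 0) (e : y' = c • y) : s y' = s y := by
  rw [e, (h y hy).2 c fun k => hy' (by rw [e, k, zero_smul]), zpow_zero, one_smul]

/-- the transport does not depend on the parametrisation -/
theorem key (hy : Hyp V P δ pt d) (hE : IsHB E) (H : ∀ a, F.M a → Tv E fun y => pt (ev a y))
    {u u' : F.U.X} {v w : Ω} (h : R F E u u' v w) {b : BF d N} {y y' : Cm 2} (hb : Pr F u u' b y y')
    {t : Cm 2 → Ω} (ht : Sec E (fun y => pt (ev b y)) 0 t) (e : t y = v) : t y' = w := by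
  obtain ⟨a, z, z', s, ha, hs, rfl, rfl⟩ := h
  obtain ⟨g, c, rfl, h1⟩ := (F.pu_eq _ _ _ _ ha.m hb.m ha.n hb.n).1 (ha.e.trans hb.e.symm)
  obtain ⟨g', c', h2, h3⟩ := (F.pu_eq _ _ _ _ ha.m hb.m ha.n' hb.n').1 (ha.e'.trans hb.e'.symm)
  have cb := (F.cd _ hb.m).1
  obtain ⟨ζ, -, rfl⟩ := Gl.uniq hy.pos hy.low (F.cd _ ha.m).1 (det_ne hy.pos cb.nz) h2.symm
  have hg : ∀ y, y ≠ 0 → g *ᵥ y ≠ 0 := fun _ => Gl.mv_ne hy.pos cb.nz
  have h4 := Gl.mv_ne hy.pos (h2 ▸ cb.nz) hb.n'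
  have h5 := (H _ hb.m).1 _ y (ht.add hE (ln_crv hy.cone cb) ((sec_act hs hg).const_smul (-1)))
    hb.n (by rw [e, sec_eq hs ha.n (hg y hb.n) h1, neg_one_smul, add_neg_cancel]) y' hb.n'
  rw [neg_one_smul, add_neg_eq_zero] at h5
  rw [h5, ← sec_eq hs (hg y' hb.n') h4 (Matrix.smul_mulVec _ _ _), sec_eq hs ha.n' h4 h3]

theorem ex_phi (hy : Hyp V P δ pt d) (hE : IsHB E) (H : ∀ a, F.M a → Tv E fun y => pt (ev a y))
    (u u' : F.U.X) : ∃ φ : Ω →ₗ[ℂ] Ω, F.p u = F.p u' → ∀ v ∈ E.A (F.e u), R F E u u' v (φ v) := by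
  by_cases h : F.p u = F.p u'
  swap
  · exact ⟨0, fun k => absurd k h⟩
  obtain ⟨a, z, z', ha⟩ := ex_pr hy h
  let S : Submodule ℂ (Cm 2 → Ω) :=
    { carrier := {s | Sec E (fun y => pt (ev a y)) 0 s}
      add_mem' := fun k k' => Sec.add hE (ln_crv hy.cone (F.cd _ ha.m).1) k k'
      zero_mem' := sec_zero hE
      smul_mem' := fun c _ k => Sec.const_smul c k }
  obtain ⟨φ, hφ⟩ := ex_lin ((LinearMap.proj z).comp S.subtype) ((LinearMap.proj z').comp S.subtype)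
  refine ⟨φ, fun _ v hv => ?_⟩
  rw [← ha.e, F.e_pu _ _ ha.m ha.n] at hv
  obtain ⟨s, hs, rfl⟩ := (H a ha.m).2 z ha.n v hv
  obtain ⟨s', h1, h2⟩ := hφ ⟨s, hs⟩
  exact ⟨a, z, z', s'.1, ha, s'.2, h1, h2⟩

end TrnH

open TrnH

/-- row TRN -/
theorem trn_of (hP : PAR) : TRN := by
  intro n N r δ d D k V P pt F Ω _ _ E hy hE H
  choose Φ hΦ using ex_phi hy hE H
  have mp : ∀ x x', F.p x = F.p x' → ∀ v ∈ E.A (F.e x), Φ x x' v ∈ E.A (F.e x') := by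
    intro x x' h v hv
    obtain ⟨a, z, z', s, ha, hs, -, e⟩ := hΦ x x' h v hv
    rw [← e, ← ha.e', F.e_pu _ _ ha.m ha.n']
    exact hs.mem hE (ln_crv hy.cone (F.cd _ ha.m).1) ha.n'
  refine ⟨Φ, mp, fun x v hv => ?_, fun x x' h v hv => ?_, fun l x x' s τ hx hx' hp hs => ?_⟩
  · have h := hΦ x x rfl v hv
    obtain ⟨a, z, z', s, ha, hs, e, -⟩ := id h
    exact (key hy hE H h ⟨ha.m, ha.n, ha.n, ha.e, ha.e⟩ hs e).symm.trans e
  · obtain ⟨a, z, z', s, ha, hs, e, e'⟩ := hΦ x x' h v hv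
    exact (key hy hE H (hΦ x' x h.symm _ (mp x x' h v hv)) ⟨ha.m, ha.n', ha.n, ha.e', ha.e⟩ hs
      e').symm.trans e
  obtain ⟨b, hb⟩ := Gl.ex_ck F (F.p (x τ))
  obtain ⟨j, hj⟩ := Gl.ex_cu F b hy.pos hb
  obtain ⟨j', hj'⟩ := Gl.ex_cu F b hy.pos (x := x' τ) (hp.self_of_nhds ▸ hb)
  have ha := an_of (hx.map (F.p_hol.at _)) (Gl.ra_an F b hb)
  have hz := an_of hx (Gl.rz_an F b j hj)
  have hz' := an_of hx' (Gl.rz_an F b j' hj')
  have h1 : ∀ᶠ t in 𝓝 τ, Pr F (x t) (x' t) (ra F b (F.p (x t))) (rz F b j (x t))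
      (rz F b j' (x' t)) := by
    filter_upwards [hp, hx.1.eventually ((cu F b j).open_source.mem_nhds hj),
      hx'.1.eventually ((cu F b j').open_source.mem_nhds hj')] with t k1 k2 k3
    exact ⟨Gl.ra_m F b (Gl.cu_src F b j k2).1, Gl.rz_ne F b j _, Gl.rz_ne F b j' _,
      (Gl.cu_src F b j k2).2.2, k1 ▸ (Gl.cu_src F b j' k3).2.2⟩
  have h2 := hs.evm hE (hx.map (F.e_hol.at _)).1
  obtain ⟨σ, hσ⟩ := ((h1.and h2).mono fun t k => (H _ k.1.m).2 _ k.1.n (s t)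
    (by simpa only [← F.e_pu _ _ k.1.m k.1.n, k.1.e] using k.2)).choice
  have h3 := hP E l (fun t y => pt (ev (ra F b (F.p (x t))) y)) σ _ τ hE
    (fun y h0 => anM_pt hy.cone (a_ev (AnalyticAt.comp (g := fun t => ra F b (F.p (x t)))
      (f := Prod.fst) (x := (τ, y)) ha analyticAt_fst) analyticAt_snd) (((continuousAt_fst.eventually h1).and
        (continuousAt_snd.eventually_ne h0)).mono fun q k => (F.cd _ k.1.m).1 _ k.2))
    ((h1.and hσ).mono fun t k => ⟨ln_crv hy.cone (F.cd _ k.1.m).1, k.2.1⟩)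
    (H _ h1.self_of_nhds.m).1 hz h1.self_of_nhds.n
    (hs.cng (h1.mono fun t k => by rw [← F.e_pu _ _ k.m k.n, k.e]) (hσ.mono fun t k => k.2.symm))
    _ h1.self_of_nhds.n'
  refine (AnS.cmp (g := fun t => (t, rz F b j' (x' t))) h3 (analyticAt_id.prod hz')).cng
    (h1.mono fun t k => by rw [← F.e_pu _ _ k.m k.n', k.e']) ?_
  filter_upwards [hp, h1, h2, hσ] with t k0 k1 k2 k3
  exact key hy hE H (hΦ _ _ k0 _ k2) k1 k3.1 k3.2

end Vale.Agent.P280Z.Tr
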