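import Vale.Agent.P280Z.Tr.Sk

/-!
# P280Z, block Tr: homogeneous holomorphic functions (row HOM)
-/

open scoped Topology
open Set Filter
open Vale.Agent.P272.K

noncomputable section

namespace Vale.Agent.P280Z.Tr

namespace Hom

variable {q : ℕ} {W : Type} [NormedAddCommGroup W] [NormedSpace ℂ W] {m : ℤ} {f : Cm q → W}

/-- homogeneous of degree `m` -/
def H (m : ℤ) (f : Cm q → W) : Prop :=
  ∀ y, y ≠ 0 → AnalyticAt ℂ f y ∧ ∀ c : ℂ, c ≠ 0 → f (c • y) = c ^ m • f y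

/-- the theorem of Liouville on a line -/
theorem line (h : H m f) {y u : Cm q} (hu : u ≠ 0) (hy : ∀ t : ℂ, y + t • u ≠ 0) {a : ℂ}
    (ha : Tendsto (fun t : ℂ => t ^ m) (cocompact ℂ) (𝓝 a)) : f y = a • f u := by
  have h0 : Tendsto (fun t : ℂ => t⁻¹) (cocompact ℂ) (𝓝 0) :=
    Metric.cobounded_eq_cocompact (α := ℂ) ▸ tendsto_inv₀_cobounded
  have h1 : Differentiable ℂ fun t : ℂ => f (y + t • u) := fun t =>
    (h _ (hy t)).1.differentiableAt.comp t (by fun_prop)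
  have h2 : Tendsto (fun t : ℂ => u + t⁻¹ • y) (cocompact ℂ) (𝓝 u) := by
    simpa using (h0.smul_const y).const_add u
  have h3 := h1.apply_eq_of_tendsto_cocompact 0 ((ha.smul
    ((h u hu).1.continuousAt.tendsto.comp h2)).congr' (by
      filter_upwards [isCompact_singleton.compl_mem_cocompact (s := {(0 : ℂ)})] with t ht
      have e : y + t • u = t • (u + t⁻¹ • y) := by
        rw [smul_add, smul_inv_smul₀ ht, add_comm]
      rw [e, (h _ fun k => hy t (by rw [e, k, smul_zero])).2 t ht]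
      rfl))
  simpa using h3

theorem neg (h : H m f) (hq : 2 ≤ q) (hm : m < 0) {y : Cm q} (hy : y ≠ 0) : f y = 0 := by
  obtain ⟨i, hi⟩ : ∃ i : Fin q, ∀ t : ℂ, y + t • (Pi.single i 1 : Cm q) ≠ 0 := by
    by_contra hc
    push Not at hc
    have : Nontrivial (Fin q) := Fin.nontrivial_iff_two_le.2 hq
    refine hy (funext fun j => ?_)
    obtain ⟨i, hi⟩ := exists_ne j
    obtain ⟨t, ht⟩ := hc i
    simpa [Pi.single_eq_of_ne hi.symm] using congrFun ht j
  obtain ⟨k, rfl⟩ : ∃ k : ℕ, m = -((k + 1 : ℕ) : ℤ) := ⟨(-m - 1).toNat, by omega⟩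
  have h0 : Tendsto (fun t : ℂ => t⁻¹) (cocompact ℂ) (𝓝 0) :=
    Metric.cobounded_eq_cocompact (α := ℂ) ▸ tendsto_inv₀_cobounded
  have := line h (fun k => by simpa using congrFun k i) hi
    ((h0.pow (k + 1)).congr fun t => by rw [zpow_neg, zpow_natCast, inv_pow])
  rwa [zero_pow k.succ_ne_zero, zero_smul] at this

theorem zero (h : H 0 f) (hq : 2 ≤ q) : ∃ a, ∀ y, y ≠ 0 → f y = a := by
  have hu : (fun _ => 1 : Cm q) ≠ 0 := fun k => by simpa using congrFun k ⟨0, by omega⟩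
  refine ⟨f fun _ => 1, fun y hy => ?_⟩
  by_cases k : ∀ t : ℂ, y + t • (fun _ => 1 : Cm q) ≠ 0
  · rw [line h hu k (a := 1) (by simp), one_smul]
  · push Not at k
    obtain ⟨t, ht⟩ := k
    have e : y = (-t) • (fun _ => 1 : Cm q) := by rw [neg_smul, eq_neg_of_add_eq_zero_left ht]
    rw [e, (h _ hu).2 _ (left_ne_zero_of_smul (e ▸ hy)), zpow_zero, one_smul]

theorem der [CompleteSpace W] (h : H m f) : H (m - 1) (fderiv ℂ f) := fun y hy =>
  ⟨(h y hy).1.fderiv, fun c hc => by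
    have h1 := (h _ (smul_ne_zero hc hy)).1.differentiableAt.hasFDerivAt.comp y
      ((hasFDerivAt_id (𝕜 := ℂ) y).const_smul c)
    have h2 := (h y hy).1.differentiableAt.hasFDerivAt.const_smul (c ^ m)
    have h3 := h1.unique (h2.congr_of_eventuallyEq
      ((eventually_ne_nhds hy).mono fun z hz => (h z hz).2 c hc))
    refine ContinuousLinearMap.ext fun v => ?_
    have h4 : fderiv ℂ f (c • y) (c • v) = c ^ m • fderiv ℂ f y v := DFunLike.congr_fun h3 v
    rw [map_smul, ← eq_inv_smul_iff₀ hc, smul_smul] at h4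
    rw [h4, zpow_sub_one₀ hc, mul_comm]
    rfl⟩

theorem euler (h : H m f) {y : Cm q} (hy : y ≠ 0) : fderiv ℂ f y y = (m : ℂ) • f y := by
  have h1 : HasDerivAt (fun c : ℂ => f (c • y)) (fderiv ℂ f y y) 1 := by
    have := HasFDerivAt.comp_hasDerivAt_of_eq (1 : ℂ) (h y hy).1.differentiableAt.hasFDerivAt
      ((hasDerivAt_id (1 : ℂ)).smul_const y) (one_smul ℂ y).symm
    rwa [one_smul] at this
  have h2 := (hasDerivAt_zpow m (1 : ℂ) (.inl one_ne_zero)).smul_const (f y)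
  rw [one_zpow, mul_one] at h2
  exact h1.unique (h2.congr_of_eventuallyEq
    ((eventually_ne_nhds one_ne_zero).mono fun c hc => (h y hy).2 c hc))

theorem one [CompleteSpace W] (h : H 1 f) (hq : 2 ≤ q) :
    ∃ L : Cm q →L[ℂ] W, ∀ y, y ≠ 0 → f y = L y := by
  obtain ⟨L, hL⟩ := zero (der h) hq
  refine ⟨L, fun y hy => ?_⟩
  rw [← hL y hy, euler h hy, Int.cast_one, one_smul]

end Hom

theorem hom : HOM := by
  intro q W _ _ _ m f hq h
  have := FiniteDimensional.complete ℂ W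
  refine ⟨fun hm y hy => Hom.neg h hq hm hy, ?_, ?_, ?_⟩ <;> rintro rfl
  · exact Hom.zero h hq
  · obtain ⟨L, hL⟩ := Hom.one h hq
    exact ⟨L, hL⟩
  · obtain ⟨L, hL⟩ := Hom.one (Hom.der h) hq
    let B : Cm q →ₗ[ℂ] Cm q →ₗ[ℂ] W := ContinuousLinearMap.coeLM ℂ ∘ₗ L.toLinearMap
    refine ⟨(4⁻¹ : ℂ) • (B + B.flip), fun y y' =>
      congrArg ((4⁻¹ : ℂ) • ·) (add_comm (L y y') (L y' y)), fun y hy => ?_⟩
    change _ = (4⁻¹ : ℂ) • (L y y + L y y)
    rw [← hL y hy, Hom.euler h hy, ← add_smul, smul_smul]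
    norm_num

end Vale.Agent.P280Z.Tr
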