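import Vale.Agent.P280Z.Tr.Hb
import Vale.Agent.P280Z.Tr.Hom

/-!
# P280Z, block Tr: the row TVF
-/

open scoped Manifold ContDiff Topology Matrix Matrix.Norms.Elementwise
open Set Filter
open Vale.Agent.P272.K Vale.Agent.P281Z

noncomputable section

namespace Vale.Agent.P280Z.Tr

theorem tvf : TVF := by
  intro n V Ω _ _ E f hE hf hi ⟨k, w, k0, w1, w2, i₀, y₀, y0, m0, w0⟩ a s hs hl
  have mem := fun y (hy : y ≠ 0) b => (hs b).mem hE hf hy
  obtain ⟨D, hD⟩ : ∃ D : E.ι → Cm 2 → ℂ, ∀ i y,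
    D i y = (Matrix.of fun p b => E.κ i (f y) (s b y) p).det := ⟨_, fun _ _ => rfl⟩
  have D0 : ∀ i y, y ≠ 0 → f y ∈ E.U i → D i y ≠ 0 := fun i y hy h =>
    hD i y ▸ (hE.li_iff h (mem y hy)).1 (hl y hy)
  have D1 : ∀ i j y, y ≠ 0 → f y ∈ E.U j → D i y = (E.tm i j (f y)).det * D j y :=
    fun i j y hy h => by
      rw [hD, hD, ← Matrix.det_mul]
      refine congrArg _ (Matrix.ext fun p b => ?_)
      rw [Matrix.of_apply, hE.κ_tm h (mem y hy b)]
      rfl
  have D2 : ∀ i y, y ≠ 0 → ∀ c : ℂ, c ≠ 0 → D i (c • y) = c ^ (∑ b, a b) * D i y :=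
    fun i y hy c hc => by
      rw [hD, hD, ← Finset.prod_pow_eq_pow_sum, ← Matrix.det_mul_row, (hf y hy).2 c hc]
      refine congrArg _ (Matrix.ext fun p b => ?_)
      simp only [Matrix.of_apply, (hs b y hy).2 c hc, map_smul, zpow_natCast, Pi.smul_apply,
        smul_eq_mul]
  have D3 : ∀ i y, y ≠ 0 → f y ∈ E.U i → AnalyticAt ℂ (D i) y := fun i y hy h => by
    rw [funext (hD i)]
    exact an_det (an_mat fun p b => an_app ((hs b y hy).1.κ hE (hf y hy).1 h) p)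
  choose ι hι using hE.cov
  have e : ∀ i y, y ≠ 0 → f y ∈ E.U i → w (ι (f y)) y / D (ι (f y)) y ^ k = w i y / D i y ^ k :=
    fun i y hy h => by
      rw [w2 _ i y hy (hι _) h _ (hE.b_tm (hι _) h), D1 _ i y hy h, mul_pow,
        mul_div_mul_left _ _ (pow_ne_zero _ (hE.tm_det (hι _) h))]
  have S0 : ∑ b, a b = 0 := by
    by_contra hS
    have h := (hom 2 ℂ (-((k * ∑ b, a b : ℕ) : ℤ)) (fun y => w (ι (f y)) y / D (ι (f y)) y ^ k)
      le_rfl fun y hy => ⟨?_, fun c hc => ?_⟩).1 (by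
        have := Nat.mul_pos k0 (Nat.pos_of_ne_zero hS)
        omega) y₀ y0
    · rw [e i₀ y₀ y0 m0] at h
      exact div_ne_zero w0 (pow_ne_zero _ (D0 _ _ y0 m0)) h
    · refine ((w1 _ y hy (hι _)).1.div ((D3 _ y hy (hι _)).pow k)
        (pow_ne_zero _ (D0 _ _ hy (hι _)))).congr ?_
      filter_upwards [isOpen_ne.mem_nhds hy,
        (hf y hy).1.1.eventually ((hE.opn _).mem_nhds (hι (f y)))] with t t1 t2
      exact (e _ t t1 t2).symm
    · simp only [(hf y hy).2 c hc, (w1 _ y hy (hι _)).2 c hc, D2 _ y hy c hc, mul_zero, neg_zero,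
        zpow_zero, one_mul, zpow_neg, zpow_natCast, smul_eq_mul, mul_pow, ← pow_mul, mul_comm k]
      rw [div_mul_eq_div_div_swap, div_eq_inv_mul]
  have a0 : ∀ b, Sec E f 0 (s b) := fun b => by
    have h := hs b
    rwa [Finset.sum_eq_zero_iff.1 S0 b (Finset.mem_univ b)] at h
  refine ⟨hi, fun y hy v hv => ?_⟩
  have h1 : Submodule.span ℂ (range fun b => s b y) = E.A (f y) := by
    obtain ⟨i, h⟩ : ∃ i, f y ∈ E.U i := ⟨_, hι _⟩
    have : FiniteDimensional ℂ (E.A (f y)) := hE.rng i _ h ▸ inferInstance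
    exact Submodule.eq_of_le_of_finrank_eq
      (Submodule.span_le.2 (range_subset_iff.2 (mem y hy)))
      (by rw [finrank_span_eq_card (hl y hy), hE.finrank, Fintype.card_fin])
  obtain ⟨c, rfl⟩ := (Submodule.mem_span_range_iff_exists_fun ℂ).1 (h1.ge hv)
  exact ⟨_, Sec.sum hE hf Finset.univ fun b _ => (a0 b).const_smul (c b), rfl⟩

end Vale.Agent.P280Z.Tr
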