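import Vale.Agent.P280Z.Tr.Bga
import Vale.Agent.P280Z.Tr.Bgh
import Vale.Agent.P280Z.Tr.Red
import Vale.Agent.P280Z.Tr.Tvf
import Vale.Agent.P280Z.Tr.Par
import Vale.Agent.P280Z.Tr.Trn
import Vale.Agent.P280Z.Tr.Chs
import Vale.Agent.P280Z.Tr.Covr
import Vale.Agent.P280Z.Tr.Scc
import Vale.Agent.P280Z.Tr.Chn
import Vale.Agent.P280Z.Tr.Mon
import Vale.Agent.P281Z.Rs.All

/-!
# P280Z, block Tr, half A: the theorems
-/

namespace Vale.Agent.P280Z.Tr

theorem tvx : TVX := tvx_of (bgh_of bga) (red_of dvs) tvf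

theorem trn : TRN := trn_of par

theorem glc : GLC := glc_of (P281Z.gen_of_res P281Z.res) chs covr

theorem ha : HA := ha_of tvx trn glc fcn lna

end Vale.Agent.P280Z.Tr
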