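import Vale.Agent.P280Z.Tr.Sk
import Vale.Agent.P280Z.Mp.Bf

/-!
# P280Z, block Tr: changes of normal forms (row CHG)
-/

open scoped Manifold ContDiff Topology Matrix Matrix.Norms.Elementwise
open Set Filter
open Vale.Agent.P272.K Vale.Agent.P281Z Vale.Agent.P280Z.Mp

noncomputable section

namespace Vale.Agent.P280Z.Tr

namespace ChgH

variable {n N r d D k ν p : ℕ} {V : Mf n} {P : Eqs r N} {pt : Cm N → V.X} {F : Fam V P pt d D k}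
  {Mc : Mo ν p} {Q Q' : ND V d N ν} {x : V.X} {v : Cm ν}

theorem e0_ne : e0 ≠ 0 := fun h => by simpa [e0] using congrFun h 0

theorem inf_act (a : BF d N) {g ξ ξ' : M2} (h : g * ξ = ξ' * g) :
    inf (act a g) ξ = act (inf a ξ') g := ev_inj fun z => by
  have h1 : ev (act a g) = ev a ∘ LinearMap.toContinuousLinearMap (Matrix.mulVecLin g) :=
    funext fun z => ev_act a g z
  rw [ev_inf, ev_act, ev_inf, Matrix.mulVec_mulVec, ← h, ← Matrix.mulVec_mulVec, h1,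
    (((an_ev2 a).differentiable (by simp) _).hasFDerivAt.comp z
      (ContinuousLinearMap.hasFDerivAt _)).fderiv]
  rfl

theorem comm {g : M2} {c : ℂ} (hc : c ≠ 0) (h1 : g.det = c ^ 2) (h2 : g *ᵥ e0 = c • e0) :
    g * E01 = E01 * g := by
  have k0 : g 0 0 = c := by simpa [e0, Matrix.mulVec, dotProduct] using congrFun h2 0
  have k1 : g 1 0 = 0 := by simpa [e0, Matrix.mulVec, dotProduct] using congrFun h2 1
  rw [Matrix.det_fin_two, k0, k1, mul_zero, sub_zero, sq] at h1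
  have k2 := mul_left_cancel₀ hc h1
  ext i j
  fin_cases i <;> fin_cases j <;> simp [E01, Matrix.mul_apply, Fin.sum_univ_two, k0, k1, k2]

theorem eu : Eu e0 e0 = E01 := by
  ext i j
  fin_cases i <;> fin_cases j <;> simp [Eu, e0, E01, Matrix.vecMulVec_apply]

theorem ext (hS : Mc.Sm) {h h' : Matrix (Fin ν) (Fin ν) ℂ} (e : ∀ v ∈ Mc.C, h *ᵥ v = h' *ᵥ v) :
    h = h' := funext fun i => sub_eq_zero.1 (hS.span _ fun v hv => by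
  rw [sub_dotProduct, sub_eq_zero]
  exact congrFun (e v hv) i)

theorem ov (h : NF F Mc Q) (hx : Q.Dm x) (hv : v ∈ Mc.C) : Ov F x (Q.A (Q.χ x) v) e0 :=
  ⟨(h.A_M _ hx.2 v hv).1, e0_ne, by
    rw [(h.A_M _ hx.2 v hv).2.1, (h.lam_in _ hx.2).2, Q.χ.left_inv hx.1]⟩

theorem ov' (hx : Q.Dm x) {a : BF d N} {z : Cm 2} (h : Ov F x a z) :
    Ov F (Q.χ.symm (Q.χ x)) a z := by rwa [Q.χ.left_inv hx.1]

theorem lin (hS : Mc.Sm) (h : NF F Mc Q) (hN : NAP F Mc Q) (h' : NF F Mc Q') (hx : Q.Dm x)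
    (hx' : Q'.Dm x) : ∃ m : Matrix (Fin ν) (Fin ν) ℂ, ∀ a z, Ov F x a z →
      Q'.θ a z = m *ᵥ Q.θ a z := by
  choose α hα using fun j => hS.deg1 (fun v => Q'.θ (Q.A (Q.χ x) v) e0 j)
    (fun l γ τ h1 h2 => analyticAt_pi_iff.1 (h'.θ_an l (fun _ => Q'.χ x) _ (fun _ => e0) τ
      (h.A_an l (fun _ => Q.χ x) γ τ analyticAt_const h1 hx.2 h2) analyticAt_const
      (h2.mono fun s hs => ⟨hx'.2, ov' hx' (ov h hx hs)⟩)).2.1 j)
    fun v hv c hc => by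
      rw [h.A_hom _ hx.2 v hv c hc, h'.θ_eq _ hx'.2 _ e0 e0 (dg c) 1 (ov' hx' (ov h hx hv)) e0_ne
        (by simpa [dg] using hc) (by ext i; fin_cases i <;> simp [dg, e0])]
      simp [dg]
  refine ⟨Matrix.of α, fun a z ha => ?_⟩
  obtain ⟨g, c, k1, k2, k3, k4⟩ := hN.nrm _ hx.2 a z (ov' hx ha)
  have k5 := h'.θ_eq _ hx'.2 a z e0 g c (ov' hx' ha) e0_ne (k2 ▸ pow_ne_zero 2 k1) k3
  rw [k2, div_self (pow_ne_zero 2 k1), one_smul, k4] at k5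
  exact k5.symm.trans (funext fun j => hα j _ (h.θ_mem _ hx.2 a z (ov' hx ha)))

theorem chg (hS : Mc.Sm) (h : NF F Mc Q) (hN : NAP F Mc Q) (h' : NF F Mc Q') (hN' : NAP F Mc Q')
    (hx : Q.Dm x) (hx' : Q'.Dm x) : ∃ m, Chg F Mc Q Q' x m := by
  obtain ⟨m, hm⟩ := lin hS h hN h' hx hx'
  obtain ⟨m', hm'⟩ := lin hS h' hN' h hx' hx
  have h1 : m' * m = 1 := ext hS fun v hv => by
    have k := hm' _ _ (ov h hx hv)
    rw [hm _ _ (ov h hx hv), (h.A_M _ hx.2 v hv).2.2] at k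
    rw [← Matrix.mulVec_mulVec, ← k, Matrix.one_mulVec]
  refine ⟨m, ⟨(Matrix.isUnit_det_of_left_inverse h1).ne_zero, fun v => ⟨fun hv => ?_, fun hv => ?_⟩⟩,
    hm⟩
  · have k := h.θ_mem _ hx.2 _ _ (ov' hx (ov h' hx' hv))
    rwa [hm' _ _ (ov h' hx' hv), (h'.A_M _ hx'.2 _ hv).2.2, Matrix.mulVec_mulVec, h1,
      Matrix.one_mulVec] at k
  · have k := h'.θ_mem _ hx'.2 _ _ (ov' hx' (ov h hx hv))
    rwa [hm _ _ (ov h hx hv), (h.A_M _ hx.2 _ hv).2.2] at k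

variable {m : Matrix (Fin ν) (Fin ν) ℂ}

theorem th (h : NF F Mc Q) (hx : Q.Dm x) (hm : Chg F Mc Q Q' x m) (hv : v ∈ Mc.C) :
    Q'.θ (Q.A (Q.χ x) v) e0 = m *ᵥ v := by
  rw [hm.θ _ _ (ov h hx hv), (h.A_M _ hx.2 _ hv).2.2]

theorem der (hC : CAP Mc) (h : NF F Mc Q) (hN : NAP F Mc Q) (hx : Q.Dm x) (hm : Chg F Mc Q Q' x m)
    (hv : v ∈ Mc.C) {L : BF d N →ₗ[ℂ] Cm ν} (hL : Dth F Mc Q' (Q.A (Q.χ x) v) e0 L) {w : Cm ν}
    (hw : w ∈ Mc.TC v) : L (Q.DA Mc (Q.χ x) v (0, w)) = m *ᵥ w := by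
  obtain ⟨γ, h1, rfl, rfl, h2⟩ := hC.ex v hv w hw
  obtain ⟨k1, k2⟩ := hN.arc (fun _ => Q.χ x) γ analyticAt_const h1 hx.2 h2
  have k3 := (hL.der _ ⟨k1, rfl, h2.mono fun t ht => ⟨(h.A_M _ hx.2 _ ht).1,
    (h.A_M _ hx.2 _ ht).2.1.trans (h.A_M _ hx.2 _ hv).2.1.symm⟩⟩).2
  rw [k2, deriv_const] at k3
  rw [← k3, Filter.EventuallyEq.deriv_eq (h2.mono fun t ht => th h hx hm ht)]
  exact ((LinearMap.toContinuousLinearMap (Matrix.mulVecLin m)).hasFDerivAt.comp_hasDerivAt 0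
    h1.differentiableAt.hasDerivAt).deriv

end ChgH

open ChgH

theorem chg_of (hL : LCH) (hD : DTH) : CHG := by
  intro n N r d D k ν p V P pt F Mc H Q Q' x h hN hS h' hN' hS' hx hx'
  obtain ⟨m, hm⟩ := chg H.sm h hN h' hN' hx hx'
  obtain ⟨μ, l, hμ, l1, l2⟩ := hL F Mc H Q Q' x h h' hx hx'
  refine ⟨m, hm, fun ⟨⟨w, t⟩, η, α⟩ ⟨⟨w', t'⟩, η', α'⟩ ⟨S, hT, hs⟩ => ?_⟩
  dsimp only at hs ⊢
  have key : ∀ v ∈ Mc.C, ∃ (g : M2) (c : ℂ), c ≠ 0 ∧ g.det = c ^ 2 ∧ g *ᵥ e0 = c • e0 ∧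
      act (Q.A (Q.χ x) v) g = Q'.A (Q'.χ x) (m *ᵥ v) ∧
      Q'.fr Mc (Q'.χ x) w' t' η' α' (m *ᵥ v) = act (Q.fr Mc (Q.χ x) w t η α v) g := fun v hv => by
    obtain ⟨g, c, k1, k2, k3, k4⟩ := hN'.nrm _ hx'.2 _ _ (ov' hx' (ov h hx hv))
    rw [th h hx hm hv] at k4
    refine ⟨g, c, k1, k2, k3, k4, ?_⟩
    rw [← (hs v hv).1, ← (hs _ ((hm.aut.2 v).2 hv)).2, ← k4]
    exact hT.2.2.1 _ _ _ g c (ov h hx hv) e0_ne (k2 ▸ pow_ne_zero 2 k1) k3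
  have e1 : w' = jacM Q.χ Q'.χ x *ᵥ w ∧ t' = t - l w := by
    obtain ⟨v, hv⟩ := H.sm.ne
    obtain ⟨g, c, -, -, k3, k4, k5⟩ := key v hv
    have hv' := (hm.aut.2 v).2 hv
    have a1 := congrArg (ev · e0) k4
    have a2 := congrArg (ev · e0) k5
    simp only [ev_act, k3, ev_arg, (h.A_M _ hx.2 _ hv).2.1, (h'.A_M _ hx'.2 _ hv').2.1,
      hS.val _ hx.2 w t η η.2 α v hv, hS'.val _ hx'.2 w' t' η' η'.2 α' _ hv'] at a1 a2
    rw [smul_left_injective ℂ (h.lam_in _ hx.2).1.1 (a1.trans l1)] at a2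
    have a3 := h'.lam_ind _ hx'.2 (w' - jacM Q.χ Q'.χ x *ᵥ w) (t' - (t - l w)) (by
      rw [map_sub, l2, eq_sub_of_add_eq a2, l1]
      module)
    exact ⟨sub_eq_zero.1 a3.1, sub_eq_zero.1 a3.2⟩
  have e2 : (w, t) = 0 → ∀ v ∈ Mc.C, η'.1 *ᵥ m *ᵥ v = m *ᵥ η.1 *ᵥ v ∧
      (η = 0 → α' ⬝ᵥ m *ᵥ v = α ⬝ᵥ v) := fun h0 v hv => by
    obtain ⟨rfl, rfl⟩ := Prod.mk_eq_zero.1 h0
    rw [Matrix.mulVec_zero, map_zero, sub_zero] at e1
    obtain ⟨rfl, rfl⟩ := e1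
    obtain ⟨g, c, k1, k2, k3, k4, k5⟩ := key v hv
    have ho := ov h hx hv
    have hv' := (hm.aut.2 v).2 hv
    obtain ⟨L, hL⟩ := hD F Mc H Q' x _ _ h' hN' hx' ho
    obtain ⟨β, hβ⟩ := hL.dec g c (k2 ▸ pow_ne_zero 2 k1) k3 (by rw [ho.2.2, th h hx hm hv, k4])
      (Q.fr Mc (Q.χ x) 0 0 η α v) ⟨(hs v hv).1 ▸ hT.2.1 _ _ ho, by
        rw [hS.val _ hx.2 0 0 η η.2 α v hv, map_zero, zero_smul, add_zero]⟩
    have a1 : L (Q.fr Mc (Q.χ x) 0 0 η α v) = m *ᵥ η.1 *ᵥ v := by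
      rw [ND.fr, zero_smul, add_zero, map_add, map_smul, der H.cap h hN hx hm hv hL (η.2 v hv), ← eu,
        hL.gl, lf, mul_comm, sub_self, zero_smul, smul_zero, add_zero]
    rw [ho.2.2, th h hx hm hv, k4, a1, ← k5, ND.fr, zero_smul, add_zero] at hβ
    have a2 := h'.ind _ hx'.2 _ hv' (η'.1 *ᵥ m *ᵥ v - m *ᵥ η.1 *ᵥ v) (sub_mem (η'.2 _ hv')
      (((H.cap.aut m hm.aut).1 v hv _).2 (η.2 v hv))) (α' ⬝ᵥ m *ᵥ v - β) (by
        rw [← sub_self (0 : Cm n), ← Prod.mk_sub_mk, map_sub, eq_sub_of_add_eq hβ]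
        module)
    refine ⟨sub_eq_zero.1 a2.1, fun h1 => ?_⟩
    have a3 := sub_eq_zero.1 a2.1
    rw [h1, ZeroMemClass.coe_zero, Matrix.zero_mulVec, Matrix.mulVec_zero] at a3
    have a4 : ∀ (s : ℂ) (b : BF d N), act (s • b) g = s • act b g := fun s b =>
      ev_inj fun z => by rw [ev_act, ev_smul, ev_smul, ev_act]
    simp only [ND.fr, a3, h1, ZeroMemClass.coe_zero, Matrix.zero_mulVec, Prod.mk_zero_zero,
      map_zero, zero_smul, zero_add, a4, ← inf_act _ (comm k1 k2 k3), k4] at k5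
    exact sub_eq_zero.1 (h'.ind _ hx'.2 _ hv' 0 (zero_mem _) _ (by
      rw [Prod.mk_zero_zero, map_zero, zero_add, sub_smul, k5, sub_self])).2
  refine ⟨e1.1, fun h0 => by rw [e1.2, h0, map_zero, sub_zero], fun h0 => ?_, fun h0 h1 =>
    sub_eq_zero.1 (H.sm.span _ fun v hv => ?_)⟩
  · have k : η'.1 * m = m * η.1 := ext H.sm fun v hv => by
      rw [← Matrix.mulVec_mulVec, ← Matrix.mulVec_mulVec, (e2 h0 v hv).1]
    rw [← k, Matrix.mul_nonsing_inv_cancel_right _ _ hm.aut.1.isUnit]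
  · rw [sub_dotProduct, ← Matrix.dotProduct_mulVec, (e2 h0 v hv).2 h1, sub_self]

end Vale.Agent.P280Z.Tr
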