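import Vale.Agent.P280Z.Tr.Sk
import Vale.Agent.P280Z.Mp.Bf

/-!
# P280Z, block Tr: families of arcs
-/

open scoped Manifold ContDiff Topology Matrix Matrix.Norms.Elementwise
open Set Filter
open Vale.Agent.P272.K Vale.Agent.P281Z Vale.Agent.P280Z.Mp

noncomputable section

namespace Vale.Agent.P280Z.Tr

namespace CrvH

variable {n N r d D k ν p : ℕ} {V : Mf n} {P : Eqs r N} {pt : Cm N → V.X} {F : Fam V P pt d D k}
  {Mc : Mo ν p} {Q : ND V d N ν} {T : Type} [NormedAddCommGroup T] [NormedSpace ℂ T] {τ : T}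

theorem A_an [FiniteDimensional ℂ T] (h : NF F Mc Q) {ξ : T → Cm n} {v : T → Cm ν}
    (h1 : AnalyticAt ℂ ξ τ) (h2 : AnalyticAt ℂ v τ) (h3 : ξ τ ∈ Q.B)
    (h4 : ∀ᶠ s in 𝓝 τ, v s ∈ Mc.C) : AnalyticAt ℂ (fun s => Q.A (ξ s) (v s)) τ := by
  let e : Cm (Module.finrank ℂ T) ≃L[ℂ] T := ContinuousLinearEquiv.ofFinrankEq (by simp)
  obtain ⟨σ, rfl⟩ := e.surjective τ
  have k := h.A_an _ (fun s => ξ (e s)) (fun s => v (e s)) σ (h1.comp (e.analyticAt σ))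
    (h2.comp (e.analyticAt σ)) h3 (e.continuous.continuousAt.eventually h4)
  refine (AnalyticAt.comp_of_eq k (e.symm.analyticAt (e σ)) (e.symm_apply_apply σ)).congr
    (.of_forall fun s => ?_)
  simp only [Function.comp_apply, e.apply_symm_apply]

theorem act_an {a : T → BF d N} {g : T → M2} (ha : AnalyticAt ℂ a τ) (hg : AnalyticAt ℂ g τ) :
    AnalyticAt ℂ (fun s => act (a s) (g s)) τ := (an_act' ha.contDiffAt hg.contDiffAt).analyticAt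

theorem inf_an {a : T → BF d N} (ha : AnalyticAt ℂ a τ) (ξ : M2) :
    AnalyticAt ℂ (fun s => inf (a s) ξ) τ :=
  (an_co fun z => (ContDiffAt.fderiv (f := fun s z => ev (a s) z) (g := fun _ => z) (n := ω)
    (an_ev' (ContDiffAt.comp (g := a) (τ, z) ha.contDiffAt contDiffAt_fst) contDiffAt_snd)
    contDiffAt_const le_top).clm_apply contDiffAt_const).analyticAt

theorem adj_an {g : T → M2} (hg : AnalyticAt ℂ g τ) :
    AnalyticAt ℂ (fun s => (g s).adjugate) τ := by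
  have h : ∀ i j, ContDiffAt ℂ ω (fun s => g s i j) τ := fun i j =>
    (an_ent i j).contDiffAt.comp τ hg.contDiffAt
  refine (an_mat fun i j => ?_).analyticAt
  simp only [Matrix.adjugate_fin_two]
  fin_cases i <;> fin_cases j
  exacts [h 1 1, (h 0 1).neg, (h 1 0).neg, h 0 0]

/-- substitution of a matrix, as a linear map -/
def aL (d N : ℕ) (g : M2) : BF d N →L[ℂ] BF d N := LinearMap.toContinuousLinearMap
  { toFun := fun a => act a g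
    map_add' := fun a b => ev_inj fun z => by rw [ev_add, ev_act, ev_act, ev_act, ev_add]
    map_smul' := fun c a => ev_inj fun z => by
      rw [RingHom.id_apply, ev_smul, ev_act, ev_act, ev_smul] }

theorem det_E (s : ℂ) : (1 + s • E01).det ≠ 0 := by simp [E01, Matrix.det_fin_two]

theorem mv_E (s : ℂ) : (1 + s • E01) *ᵥ e0 = e0 := by
  funext i
  fin_cases i <;> simp [E01, e0, Matrix.mulVec, dotProduct, Fin.sum_univ_two]

theorem vel {X : ℂ → BF d N} (hX : AnalyticAt ℂ X 0) (β : ℂ) (G : M2) :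
    deriv (fun t => act (act (X t) (1 + (t * β) • E01)) G) 0 =
      act (deriv X 0 + β • inf (X 0) E01) G := by
  have h1 : HasDerivAt (fun t : ℂ => (X t, (1 : M2) + (t * β) • E01)) (deriv X 0, β • E01) 0 := by
    refine hX.differentiableAt.hasDerivAt.prodMk ?_
    have h := (((hasDerivAt_id' (0 : ℂ)).mul_const β).smul_const E01).const_add (1 : M2)
    rwa [one_mul] at h
  have h2 := HasFDerivAt.comp_hasDerivAt_of_eq (0 : ℂ)
    ((an_act (d := d) (N := N)).differentiable (by simp) (X 0, 1)).hasFDerivAt h1 (by simp)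
  have h3 := fd_act (X 0) (deriv X 0) (β • E01)
  rw [show inf (X 0) (β • E01) = β • inf (X 0) E01 from (infL (X 0)).map_smul β E01] at h3
  exact ((aL d N G).hasFDerivAt.comp_hasDerivAt 0 (h2.congr_deriv h3)).deriv

end CrvH

open CrvH

/-- **CRV** -/
theorem crv_of (hl : LSOL) : CRV := by
  intro n N r d D k ν p V P pt F Mc hy Q a y₁ nf nap ha hy₁ hd μ hμ
  obtain ⟨x1, t1, g, c, g1, c1, hg⟩ := nap.fam (Cm 2) (fun _ => a) (fun y => y) y₁ analyticAt_const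
    analyticAt_id (.of_forall fun _ => ha) hy₁ hd
  obtain ⟨ξ, hξ⟩ : ∃ ξ : Cm 2 → Cm n, ξ = fun y => Q.χ (pt (ev a y)) := ⟨_, rfl⟩
  obtain ⟨G, hG⟩ : ∃ G : Cm 2 → M2, G = fun y => (c y ^ 2)⁻¹ • (g y).adjugate := ⟨_, rfl⟩
  have G1 : AnalyticAt ℂ G y₁ :=
    hG ▸ ((c1.pow 2).inv (pow_ne_zero 2 hg.self_of_nhds.2.1)).smul (adj_an g1)
  rw [← hξ] at x1
  have h1 : ∀ᶠ y in 𝓝 y₁, ξ y ∈ Q.B ∧ Q.θ a y ∈ Mc.C ∧ c y ≠ 0 ∧ g y * G y = 1 ∧
      g y *ᵥ e0 = c y • y ∧ G y *ᵥ y = (c y)⁻¹ • e0 ∧ act a (g y) = Q.A (ξ y) (Q.θ a y) := by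
    filter_upwards [hg, eventually_ne_nhds hy₁] with y ⟨k1, k2, k3, k4, k5⟩ k6
    have k7 := pow_ne_zero 2 k2
    have k8 : G y * g y = 1 := by
      rw [hG, Matrix.smul_mul, Matrix.adjugate_mul, k3, smul_smul, inv_mul_cancel₀ k7, one_smul]
    refine ⟨hξ ▸ k1.2, nf.θ_mem _ k1.2 a y ⟨ha, k6, (Q.χ.left_inv k1.1).symm⟩, k2,
      mul_eq_one_comm.1 k8, k4, ?_, hξ ▸ k5⟩
    rw [eq_inv_smul_iff₀ k2, ← Matrix.mulVec_smul, ← k4, Matrix.mulVec_mulVec, k8,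
      Matrix.one_mulVec]
  obtain ⟨b1, v1, -⟩ := h1.self_of_nhds
  obtain ⟨v₁, hv₁⟩ : ∃ v₁, v₁ = Q.θ a y₁ := ⟨_, rfl⟩
  rw [← hv₁] at v1
  have tv : Tendsto (Q.θ a) (𝓝 y₁) (𝓝 v₁) := hv₁ ▸ t1.continuousAt
  have r0 : Mc.ρ v₁ v₁ = 0 := by
    have h := (hy.sm.ρκ v₁ v1).self_of_nhds.2
    rwa [(hy.sm.anκ v₁ v1).2] at h
  have r1 : AnalyticAt ℂ (fun y => Mc.ρ v₁ (Q.θ a y)) y₁ :=
    AnalyticAt.comp_of_eq (hy.sm.anρ v₁ v1) t1 hv₁.symm
  have r2 : Mc.ρ v₁ (Q.θ a y₁) = 0 := hv₁ ▸ r0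
  obtain ⟨L, L1, L2⟩ := nap.loc _ b1 v₁ v1
  have L3 : AnalyticAt ℂ (fun y => (ξ y, Q.θ a y)) y₁ := x1.prod t1
  have L4 := (show Tendsto (fun y => (ξ y, Q.θ a y)) (𝓝 y₁) (𝓝 (ξ y₁, v₁)) from
    hv₁ ▸ L3.continuousAt).eventually L2
  have hr := tv.eventually (hy.cap.ret v₁ v1)
  have h2 : ∀ᶠ y in 𝓝 y₁, ∃ x : Cm (p + 1) × ℂ, act (μ y) (g y) =
      Q.DA Mc (ξ y) (Q.θ a y) (0, fderiv ℂ (Mc.κ v₁) (Mc.ρ v₁ (Q.θ a y)) x.1) +
        x.2 • inf (Q.A (ξ y) (Q.θ a y)) E01 := by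
    filter_upwards [h1, hr] with y ⟨k1, k2, _, _, k5, _, k7⟩ k8
    obtain ⟨w, w1, β, w2⟩ := nf.tan _ k1 _ k2 (act (μ y) (g y)) (fun z => by
      rw [← k7, ev_act, ev_act]
      exact (hμ y).1 _) (by rw [ev_act, k5, ev_arg, (hμ y).2, smul_zero])
    exact ⟨(_, β), by rw [(k8 k2).2.1 w w1]; exact w2⟩
  obtain ⟨x, hx⟩ := h2.choice
  let Λ : Cm 2 → (Cm (p + 1) × ℂ) →ₗ[ℂ] BF d N := fun y =>
    (((L (ξ y, Q.θ a y)).comp (ContinuousLinearMap.inr ℂ _ _)).comp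
      (fderiv ℂ (Mc.κ v₁) (Mc.ρ v₁ (Q.θ a y)))).toLinearMap.coprod
      (LinearMap.toSpanSingleton ℂ _ (inf (act a (g y)) E01))
  have hΛ : ∀ᶠ y in 𝓝 y₁, ∀ s : Cm (p + 1) × ℂ, Λ y s =
      Q.DA Mc (ξ y) (Q.θ a y) (0, fderiv ℂ (Mc.κ v₁) (Mc.ρ v₁ (Q.θ a y)) s.1) +
        s.2 • inf (Q.A (ξ y) (Q.θ a y)) E01 := by
    filter_upwards [h1, hr, L4] with y ⟨_, k2, _, _, _, _, k7⟩ k8 k9 s
    rw [k9 k2 0 _ ((k8 k2).2.2.1 s.1), ← k7]
    rfl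
  have x2 : AnalyticAt ℂ x y₁ := by
    refine (hl _ _ _ Λ x y₁ (fun s => ?_) ?_).2 ?_
    · have k1 : AnalyticAt ℂ (fun y => L (ξ y, Q.θ a y)) y₁ :=
        AnalyticAt.comp_of_eq L1 L3 (by rw [hv₁])
      have k2 : AnalyticAt ℂ (fun y => fderiv ℂ (Mc.κ v₁) (Mc.ρ v₁ (Q.θ a y))) y₁ :=
        AnalyticAt.comp_of_eq (hy.sm.anκ v₁ v1).1.fderiv r1 r2
      exact (k1.contDiffAt.clm_apply (contDiffAt_const.prodMk (k2.contDiffAt.clm_apply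
        (contDiffAt_const (c := s.1))))).analyticAt.add
        ((inf_an (act_an analyticAt_const g1) E01).const_smul (c := s.2))
    · refine (injective_iff_map_eq_zero _).2 fun s hs => ?_
      have k1 := hr.self_of_nhds (hv₁ ▸ v1)
      obtain ⟨k2, k3⟩ := nf.ind _ b1 _ (hv₁ ▸ v1) _ (k1.2.2.1 s.1) s.2
        ((hΛ.self_of_nhds s).symm.trans hs)
      exact Prod.ext (by rw [← k1.2.2.2 s.1, k2, map_zero]; rfl) k3
    · refine (act_an ((LinearMap.toContinuousLinearMap μ).analyticAt y₁) g1).congr ?_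
      filter_upwards [hx, hΛ] with y k1 k2 using k1.trans (k2 _).symm
  have sn : AnalyticAt ℂ (fun q : ℂ × Cm 2 => q.2) (0, y₁) := analyticAt_snd
  have x3 : AnalyticAt ℂ (fun q : ℂ × Cm 2 => x q.2) (0, y₁) := AnalyticAt.comp (g := x) x2 sn
  obtain ⟨s, hs⟩ : ∃ s : ℂ × Cm 2 → Cm (p + 1),
    s = fun q => Mc.ρ v₁ (Q.θ a q.2) + q.1 • (x q.2).1 := ⟨_, rfl⟩
  have s1 : AnalyticAt ℂ s (0, y₁) := hs ▸ (AnalyticAt.comp (g := fun y => Mc.ρ v₁ (Q.θ a y)) r1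
    sn).add (analyticAt_fst.smul (analyticAt_fst.comp x3))
  have s2 : s (0, y₁) = 0 := by simp only [hs, r2, zero_smul, add_zero]
  have s3 : ∀ᶠ q in 𝓝 ((0 : ℂ), y₁), Mc.κ v₁ (s q) ∈ Mc.C ∧ AnalyticAt ℂ (Mc.κ v₁) (s q) :=
    (show Tendsto s (𝓝 (0, y₁)) (𝓝 0) from s2 ▸ s1.continuousAt).eventually
      (((hy.sm.ρκ v₁ v1).mono fun _ h => h.1).and (hy.sm.anκ v₁ v1).1.eventually_analyticAt)
  obtain ⟨γ, hγ⟩ : ∃ γ : ℂ × Cm 2 → BF d N, γ = fun q => act (act (Q.A (ξ q.2) (Mc.κ v₁ (s q)))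
    (1 + (q.1 * (x q.2).2) • E01)) (G q.2) := ⟨_, rfl⟩
  have γ1 : AnalyticAt ℂ γ (0, y₁) := hγ ▸ act_an (act_an (A_an nf (AnalyticAt.comp (g := ξ) x1 sn)
    (AnalyticAt.comp (g := Mc.κ v₁) s3.self_of_nhds.2 s1) b1 (s3.mono fun _ h => h.1))
    (analyticAt_const.add ((analyticAt_fst.mul (analyticAt_snd.comp x3)).smul analyticAt_const)))
    (AnalyticAt.comp (g := G) G1 sn)
  have γ2 : ∀ᶠ q in 𝓝 ((0 : ℂ), y₁), F.M (γ q) ∧ ev (γ q) q.2 = ev a q.2 := by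
    filter_upwards [sn.continuousAt.eventually h1, s3] with q ⟨k1, k2, _, k4, _, k6, k7⟩ k8
    have k9 : (G q.2).det ≠ 0 := right_ne_zero_of_mul (a := (g q.2).det) (by
      rw [← Matrix.det_mul, k4, Matrix.det_one]
      exact one_ne_zero)
    refine ⟨hγ ▸ F.inv _ _ (F.inv _ _ (nf.A_M _ k1 _ k8.1).1 (det_E _)) k9, ?_⟩
    have k10 : ev a q.2 = ev (act (act a (g q.2)) (G q.2)) q.2 := by rw [act_act, k4, act_one]
    rw [k10, k7, hγ, ev_act, ev_act, ev_act, k6, Matrix.mulVec_smul, mv_E, ev_arg, ev_arg,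
      (nf.A_M _ k1 _ k8.1).2.1, (nf.A_M _ k1 _ k2).2.1]
  refine ⟨γ, γ1, γ2, ?_⟩
  have t0 : Tendsto (fun y : Cm 2 => ((0 : ℂ), y)) (𝓝 y₁) (𝓝 (0, y₁)) :=
    (continuous_const.prodMk continuous_id).continuousAt
  filter_upwards [t0.eventually (γ1.eventually_analyticAt.and (γ2.and s3).eventually_nhds), h1, hx,
    tv.eventually (hy.sm.κρ v₁ v1)] with y ⟨k1, k2⟩ ⟨m1, m2, _, m4, _, _, m7⟩ k3 k4
  have l1 : AnalyticAt ℂ (fun t : ℂ => (t, y)) 0 := analyticAt_id.prod analyticAt_const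
  have l2 := l1.continuousAt.eventually k2
  have l3 : Mc.κ v₁ (s (0, y)) = Q.θ a y := by simp only [hs, zero_smul, add_zero, k4 m2]
  have l4 : HasDerivAt (fun t : ℂ => s (t, y)) (x y).1 0 := by
    have h := ((hasDerivAt_id' (0 : ℂ)).smul_const (x y).1).const_add (Mc.ρ v₁ (Q.θ a y))
    rw [one_smul] at h
    rw [hs]
    exact h
  have l5 : AnalyticAt ℂ (fun t : ℂ => Mc.κ v₁ (s (t, y))) 0 := by
    refine AnalyticAt.comp (g := Mc.κ v₁) (f := fun t : ℂ => s (t, y)) k2.self_of_nhds.2.2 ?_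
    rw [hs]
    change AnalyticAt ℂ (fun t : ℂ => Mc.ρ v₁ (Q.θ a y) + t • (x y).1) 0
    fun_prop
  have l6 : deriv (fun t : ℂ => Mc.κ v₁ (s (t, y))) 0 =
      fderiv ℂ (Mc.κ v₁) (Mc.ρ v₁ (Q.θ a y)) (x y).1 := by
    have h := (k2.self_of_nhds.2.2.differentiableAt.hasFDerivAt.comp_hasDerivAt
      (f := fun t : ℂ => s (t, y)) 0 l4).deriv
    rw [show s (0, y) = Mc.ρ v₁ (Q.θ a y) by simp only [hs, zero_smul, add_zero]] at h
    exact h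
  obtain ⟨l7, l8⟩ := nap.arc (fun _ => ξ y) _ analyticAt_const l5 m1 (l2.mono fun _ h => h.2.1)
  refine ⟨⟨AnalyticAt.comp (g := γ) k1 l1, ?_, l2.mono fun _ h => h.1⟩, ?_⟩
  · rw [hγ]
    change act (act (Q.A (ξ y) (Mc.κ v₁ (s (0, y)))) (1 + (0 * (x y).2) • E01)) (G y) = a
    rw [l3, zero_mul, zero_smul, add_zero, act_one, ← m7, act_act, m4, act_one]
  · rw [hγ]
    refine (vel l7 (x y).2 (G y)).trans ?_
    simp only [l8, l3, l6, deriv_const]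
    rw [← k3, act_act, m4, act_one]

end Vale.Agent.P280Z.Tr
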