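import Vale.Agent.P280Z.Tr.Sk
import Vale.Agent.P280Z.Mp.Bf

/-!
# P280Z, block Tr, row DIV: division by a linear form
-/

open scoped Topology Matrix Matrix.Norms.Elementwise
open Set Filter
open Vale.Agent.P272.K Vale.Agent.P280Z.Mp

noncomputable section

namespace Vale.Agent.P280Z.Tr

namespace Dv

variable {d N r : ℕ} {y y' : Cm 2}

theorem ex_lf (hy : y ≠ 0) : ∃ y', lf y y' = 1 := by
  by_cases h1 : y 1 = 0
  · have h2 : y 0 ≠ 0 := fun e => hy (funext fun k => by fin_cases k <;> assumption)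
    exact ⟨![0, (y 0)⁻¹], by simp [lf, h2]⟩
  · exact ⟨![-(y 1)⁻¹, 0], by simp [lf, h1]⟩

theorem lf_self (y : Cm 2) : lf y y = 0 := by
  rw [lf]
  ring

theorem lf_dec (h : lf y y' = 1) (z : Cm 2) : z = (-lf y' z) • y + lf y z • y' := by
  funext k
  simp only [lf] at h
  fin_cases k <;> simp [lf]
  · linear_combination -z 0 * h
  · linear_combination -z 1 * h

theorem dns (hy : y ≠ 0) {f : Cm 2 → Cm r} (hf : Continuous f) (h : ∀ z, lf y z ≠ 0 → f z = 0)
    (z : Cm 2) : f z = 0 := by
  obtain ⟨y', h1⟩ := ex_lf hy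
  have h2 : (fun t : ℂ => f (z + t • y')) = fun _ => 0 :=
    Continuous.ext_on (dense_compl_singleton (-lf y z)) (hf.comp (by fun_prop)) continuous_const
      fun t ht => h _ fun e => ht (by
        simp only [lf, Pi.add_apply, Pi.smul_apply, smul_eq_mul, mem_singleton_iff] at e h1 ⊢
        linear_combination e - t * h1)
  simpa using congrFun h2 0

theorem can (hy : y ≠ 0) (B : BF d N) (h : ∀ z, lf y z ≠ 0 → ev B z = 0) : B = 0 :=
  ev_inj fun z => (dns hy (an_ev2 B).continuous h z).trans (ev_zero z).symm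

theorem eu_mv (u y z : Cm 2) : Eu u y *ᵥ z = lf y z • u := by
  funext k
  simp [Eu, lf, Matrix.mulVec, dotProduct, Fin.sum_univ_two, Matrix.vecMulVec_apply]
  ring

/-- `Eu u` as a linear map -/
def EuL (u : Cm 2) : Cm 2 →ₗ[ℂ] M2 where
  toFun := Eu u
  map_add' a b := by
    ext i j
    fin_cases j <;> simp [Eu, Matrix.vecMulVec_apply] <;> ring
  map_smul' c a := by
    ext i j
    fin_cases j <;> simp [Eu, Matrix.vecMulVec_apply] <;> ring

theorem ev_lf {ψ : Cm 2 → Cm N} (h : Hm d ψ) (y z : Cm 2) :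
    ev (co (d + 1) fun z => lf y z • ψ z) z = lf y z • ψ z :=
  (((hm_lf y).mul h).cast (add_comm 1 d)).ev_co z

/-- multiplication by the linear forms -/
def mu {ψ : Cm 2 → Cm N} (h : Hm d ψ) : Cm 2 →ₗ[ℂ] BF (d + 1) N where
  toFun y := co (d + 1) fun z => lf y z • ψ z
  map_add' a b := ev_inj fun z => by
    rw [ev_add, ev_lf h, ev_lf h, ev_lf h, ← add_smul]
    simp only [lf, Pi.add_apply]
    ring_nf
  map_smul' c a := ev_inj fun z => by
    rw [RingHom.id_apply, ev_smul, ev_lf h, ev_lf h, smul_smul]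
    simp only [lf, Pi.smul_apply, smul_eq_mul]
    ring_nf

end Dv

open Dv in
theorem div : DIV := by
  intro d N r P a y hy
  refine ⟨fun μ hμ h0 => ?_, fun b hb => ?_, can hy, fun h u => ⟨infL a ∘ₗ EuL u, fun z =>
    ⟨inf_mem (dns hy ((an_Pv P).continuous.comp (an_ev2 a).continuous) fun w hw =>
      (h w fun e => hw (by simp [e, lf])).2) _, ?_⟩, fun _ => rfl⟩⟩
  · obtain ⟨y', h1⟩ := ex_lf hy
    have h2 : ∀ z, μ z = lf y z • μ y' := fun z => by
      rw [congrArg μ (lf_dec h1 z), map_add, map_smul, map_smul, h0, smul_zero, zero_add]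
    have h3 : μ y' = 0 := can hy _ fun z hz => by
      have h4 := (hμ z).2
      rw [h2, ev_smul] at h4
      exact (smul_eq_zero.1 h4).resolve_left hz
    exact LinearMap.ext fun z => by rw [h2, h3, smul_zero, LinearMap.zero_apply]
  · cases d with
    | zero =>
      refine ⟨0, (H1 P a).zero_mem, (ev_inj fun z => ?_).symm⟩
      have h1 := hb.2
      simp only [ev, Fin.sum_univ_succ, Fin.sum_univ_zero, Fin.val_zero, Nat.sub_zero, pow_zero,
        LinearMap.zero_apply, Pi.zero_apply, smul_zero] at h1 ⊢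
      simpa using h1
    | succ d =>
      obtain ⟨ψ, h1, h2⟩ := (hm_ev b).div hy hb.2
      have h3 : ∀ z, Jm P (ev a z) *ᵥ ψ z = 0 := by
        refine dns hy ?_ fun z hz => ?_
        · obtain ⟨c, hc⟩ := h1
          rw [funext hc]
          exact (continuous_matrix fun i j => (an_Jm P i j).continuous.comp
            (an_ev2 a).continuous).matrix_mulVec (an_ev2 c).continuous
        · have h4 := hb.1 z
          rw [h2, Matrix.mulVec_smul] at h4
          exact (smul_eq_zero.1 h4).resolve_left hz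
      exact ⟨mu h1, fun z => ⟨fun w => (congrArg _ (ev_lf h1 z w)).trans (by
        rw [Matrix.mulVec_smul, h3, smul_zero]), (ev_lf h1 z z).trans (by
          rw [lf_self, zero_smul])⟩, ev_inj fun z => (ev_lf h1 y z).trans (h2 z).symm⟩
  · refine (ev_inf a (Eu u z) z).trans ?_
    rw [eu_mv, lf_self, zero_smul, map_zero]

end Vale.Agent.P280Z.Tr
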