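import Vale.Agent.P280Z.Tr.NfA

/-!
# P280Z, block Tr: normal forms exist
-/

open scoped Manifold ContDiff Topology Matrix Matrix.Norms.Elementwise
open Set Filter Function
open Vale.Agent.P272.K Vale.Agent.P281Z Vale.Agent.P280Z.Mp Vale.Agent.P280Z.Ma

noncomputable section

namespace Vale.Agent.P280Z.Tr.Nf

variable {n N r e d D k ν p : ℕ} {V : Mf n} {P : Eqs r N} {pt : Cm N → V.X}
  {F : Fam V P pt d D k} {Mc : Mo ν p} {O : Set V.X} {θ : (Tb F).ι → F.U.X → Cm ν}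

/-- the point `(0, 1)` -/
def e1 : Cm 2 := ![0, 1]

/-- the matrix with the columns `z`, `y` -/
def cl (z y : Cm 2) : M2 := !![z 0, y 0; z 1, y 1]

theorem e0_ne : e0 ≠ 0 := fun h => by simpa [e0] using congrFun h 0

theorem cl_e0 (z y : Cm 2) : cl z y *ᵥ e0 = z := by
  funext i
  fin_cases i <;> simp [cl, e0]

theorem cl_e1 (z y : Cm 2) : cl z y *ᵥ e1 = y := by
  funext i
  fin_cases i <;> simp [cl, e1]

theorem cl_det (z y : Cm 2) : (cl z y).det = lf z y := by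
  simp [cl, lf, Matrix.det_fin_two, mul_comm]

theorem ex_w {z : Cm 2} (hz : z ≠ 0) : ∃ w, lf z w ≠ 0 := by
  by_contra h
  push Not at h
  exact hz (funext (Fin.forall_fin_two.2 ⟨by simpa [lf] using h ![0, 1],
    by simpa [lf] using h ![1, 0]⟩))

theorem dif (a : BF d N) (z : Cm 2) : DifferentiableAt ℂ (ev a) z :=
  (an_ev2 a).differentiable (by simp) z

/-- the first order term at `(1, 0)` -/
def D1 (d N : ℕ) : BF d N →L[ℂ] Cm N := LinearMap.toContinuousLinearMap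
  { toFun := fun a => fderiv ℂ (ev a) e0 e1
    map_add' := fun a b => by
      rw [show ev (a + b) = ev a + ev b from funext (ev_add a b), fderiv_add (dif a _) (dif b _)]
      rfl
    map_smul' := fun c a => by
      rw [show ev (c • a) = c • ev a from funext (ev_smul c a), fderiv_const_smul (dif a _)]
      rfl }

theorem D1_act (a : BF d N) (g : M2) :
    D1 d N (act a g) = fderiv ℂ (ev a) (g *ᵥ e0) (g *ᵥ e1) := by
  let L := LinearMap.toContinuousLinearMap g.mulVecLin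
  exact congrArg (· e1) ((congrArg (fderiv ℂ · e0) (funext (ev_act a g))).trans
    (HasFDerivAt.comp (f := L) e0 (dif a _).hasFDerivAt L.hasFDerivAt).fderiv)

theorem D1_inf (a : BF d N) : D1 d N (inf a E01) = (d : ℂ) • ev a e0 := by
  have h1 : ev (inf a E01) = fun z => z 1 • fderiv ℂ (ev a) z e0 := funext fun z => by
    rw [ev_inf, ← map_smul]
    congr 1
    funext i
    fin_cases i <;> simp [E01, e0, Matrix.mulVec, dotProduct, Fin.sum_univ_two]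
  have h2 : DifferentiableAt ℂ (fun z => fderiv ℂ (ev a) z e0) e0 :=
    ((an_ev2 a).contDiffAt.analyticAt.fderiv.differentiableAt).clm_apply (differentiableAt_const _)
  have h3 := congrArg (· e1) ((hasFDerivAt_apply (𝕜 := ℂ) 1 e0).smul h2.hasFDerivAt).fderiv
  rw [← euler]
  refine (congrArg (fun f => fderiv ℂ f e0 e1) h1).trans (h3.trans ?_)
  simp [e0, e1]

theorem ev_inf0 (a : BF d N) : ev (inf a E01) e0 = 0 := by
  rw [ev_inf, show E01 *ᵥ e0 = 0 by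
    funext i
    fin_cases i <;> simp [E01, e0], map_zero]

/-- the normalising matrix -/
def g1 (l : Fin N) (a : BF d N) (z w : Cm 2) (μ : ℂ) : M2 :=
  cl z ((μ / lf z w) • w + (-(μ / lf z w * fderiv ℂ (ev a) z w l) / (d * ev a z l)) • z)

/-- the normal forms -/
def Ch (θ : (Tb F).ι → F.U.X → Cm ν) (l : Fin N) (x : Cm N) (v : Cm ν) (a : BF d N) : Prop :=
  F.M a ∧ ev a e0 = x ∧ th θ a e0 = v ∧ D1 d N a l = 0

section an
variable {E : Type} [NormedAddCommGroup E] [NormedSpace ℂ E] {x : E}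

theorem an_g1 (hd : 0 < d) (l : Fin N) {a : E → BF d N} {z : E → Cm 2} {μ : E → ℂ} {w : Cm 2}
    (ha : ContDiffAt ℂ ω a x) (hz : ContDiffAt ℂ ω z x) (hμ : ContDiffAt ℂ ω μ x)
    (h1 : lf (z x) w ≠ 0) (h2 : ev (a x) (z x) l ≠ 0) :
    ContDiffAt ℂ ω (fun y => g1 l (a y) (z y) w (μ y)) x := by
  have z1 := contDiffAt_pi.1 hz
  have h3 : ContDiffAt ℂ ω (fun y => μ y / lf (z y) w) x :=
    hμ.div (((z1 0).mul contDiffAt_const).sub ((z1 1).mul contDiffAt_const)) h1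
  have h4 : ContDiffAt ℂ ω (fun y => fderiv ℂ (ev (a y)) (z y) w) x := by
    have h5 : ContDiffAt ℂ ω (fun y => fderiv ℂ (fun q : BF d N × Cm 2 => ev q.1 q.2) (a y, z y)) x :=
      ContDiffAt.comp (f := fun y => (a y, z y)) x
        (an_ev.contDiffAt.analyticAt.fderiv.contDiffAt) (ha.prodMk hz)
    refine (h5.clm_apply (contDiffAt_const (c := ((0 : BF d N), w)))).congr_of_eventuallyEq
      (Eventually.of_forall fun y => ?_)
    exact ((EsbH.fd_pair (a y) 0 (z y) w).trans (by rw [ev_zero, zero_add])).symm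
  have h5 := contDiffAt_pi.1 ((h3.smul (contDiffAt_const (c := w))).add
    (((h3.mul (contDiffAt_pi.1 h4 l)).neg.div
    (contDiffAt_const.mul (contDiffAt_pi.1 (an_ev' ha hz) l))
    (mul_ne_zero (Nat.cast_ne_zero.2 hd.ne') h2)).smul hz))
  exact an_mat (Fin.forall_fin_two.2 ⟨Fin.forall_fin_two.2 ⟨z1 0, h5 0⟩,
    Fin.forall_fin_two.2 ⟨z1 1, h5 1⟩⟩)

theorem tg_of (hP : Hom P e) {f : E → BF d N} (h : ContDiffAt ℂ ω f x)
    (hc : ∀ᶠ y in 𝓝 x, Crv P (f y)) (u : E) : fderiv ℂ f x u ∈ Tg P (f x) := by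
  have k3 : (Psi P e ∘ f) =ᶠ[𝓝 x] fun _ => 0 := hc.mono fun _ h => h.psi hP
  have k4 := congrArg (· u) (k3.fderiv_eq (𝕜 := ℂ))
  rw [fderiv_comp x ((an_Psi P e).differentiable (by simp) _) (h.differentiableAt (by simp))] at k4
  rw [mem_Tg hP, ← fd_Psi hP]
  simpa using k4

end an

theorem g1_det (l : Fin N) (a : BF d N) {z w : Cm 2} (h : lf z w ≠ 0) (μ : ℂ) :
    (g1 l a z w μ).det = μ := by
  rw [g1, cl_det, ← div_mul_cancel₀ μ h, mul_div_cancel_right₀ _ h]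
  simp only [lf, Pi.add_apply, Pi.smul_apply, smul_eq_mul]
  ring

theorem ev_l (H : Hyp V P e pt d) {l : Fin N} {x : Cm N} (hx : In P x) (hl : x l ≠ 0)
    {a : BF d N} {z : Cm 2} (h : Ov F (pt x) a z) :
    ev a z l ≠ 0 ∧ (x l / ev a z l) • ev a z = x := by
  obtain ⟨c, rfl⟩ := H.cone.inj _ _ ((F.cd a h.1).1 z h.2.1) hx h.2.2
  have h1 : ev a z l ≠ 0 := right_ne_zero_of_mul hl
  exact ⟨h1, by rw [Pi.smul_apply, smul_eq_mul, mul_div_cancel_right₀ _ h1]⟩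

theorem k1 (H : Hyp V P e pt d) (hM : MF F Mc O θ) {l : Fin N} {x : Cm N} (hx : In P x)
    (hl : x l ≠ 0) (hO : pt x ∈ O) {a : BF d N} {z w : Cm 2} (h : Ov F (pt x) a z)
    (hw : lf z w ≠ 0) {μ : ℂ} (hμ : μ ≠ 0) :
    Ch θ l x (μ • th θ a z) ((x l / ev a z l) • act a (g1 l a z w μ)) := by
  obtain ⟨h1, h2⟩ := ev_l H hx hl h
  obtain ⟨α, hα⟩ := IsAlgClosed.exists_pow_nat_eq (x l / ev a z l) H.pos
  have h3 : α ≠ 0 := fun k => div_ne_zero hl h1 (by rw [← hα, k, zero_pow H.pos.ne'])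
  have h4 : (α • g1 l a z w μ).det = α ^ 2 * μ := by
    rw [Matrix.det_smul, g1_det l a hw, Fintype.card_fin]
  have h5 : (α • g1 l a z w μ).det ≠ 0 := h4 ▸ mul_ne_zero (pow_ne_zero 2 h3) hμ
  refine ⟨?_, ?_, ?_, ?_⟩
  · rw [← hα, ← act_smul]
    exact F.inv a _ h.1 h5
  · rw [ev_smul, ev_act, g1, cl_e0, h2]
  · rw [← hα, ← act_smul, th_eq H hM h.1 h.2.1 (by rw [F.e_pu _ _ h.1 h.2.1, h.2.2]; exact hO)
      e0_ne h5 (c := α) (by rw [Matrix.smul_mulVec, g1, cl_e0]), h4,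
      mul_div_cancel_left₀ _ (pow_ne_zero 2 h3)]
  · have h6 : (d : ℂ) ≠ 0 := Nat.cast_ne_zero.2 H.pos.ne'
    rw [map_smul, D1_act, g1, cl_e0, cl_e1, map_add, map_smul, map_smul, euler]
    simp only [Pi.smul_apply, Pi.add_apply, smul_eq_mul]
    rw [div_mul_cancel₀ _ (mul_ne_zero h6 h1), add_neg_cancel, mul_zero]

theorem uniq (H : Hyp V P e pt d) (hS : Mc.Sm) (hM : MF F Mc O θ) {l : Fin N} {x : Cm N}
    (hl : x l ≠ 0) (hO : pt x ∈ O) {v : Cm ν} {a a' : BF d N} (h : Ch θ l x v a)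
    (h' : Ch θ l x v a') : a' = a := by
  obtain ⟨h1, h2, h3, h4⟩ := h
  obtain ⟨k1, k2, k3, k4⟩ := h'
  have h5 : F.e (F.pu a e0) ∈ O := by rwa [F.e_pu _ _ h1 e0_ne, h2]
  obtain ⟨g, c, rfl, h6⟩ := (F.pu_eq _ _ _ _ h1 k1 e0_ne e0_ne).1 (th_inj H hM h1 e0_ne k1 e0_ne h5
    (by rw [F.e_pu _ _ h1 e0_ne, F.e_pu _ _ k1 e0_ne, h2, k2]) (k3.trans h3.symm)).symm
  have hg := det_ne H.pos (F.cd _ k1).1.nz
  have hc := Asm.c_ne hg e0_ne h6
  rw [ev_act, h6, ev_arg, h2] at k2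
  have h7 : c ^ d = 1 := mul_right_cancel₀ hl ((congrFun k2 l).trans (one_mul _).symm)
  rw [th_eq H hM h1 e0_ne h5 e0_ne hg h6, ← h3] at k3
  have h8 := smul_left_injective ℂ (hS.nz _ (th_mem H hS hM h1 e0_ne h5))
    (k3.trans (one_smul ℂ _).symm)
  have h9 := congrFun h6 0
  have h10 := congrFun h6 1
  simp [e0, Matrix.mulVec, dotProduct, Fin.sum_univ_two] at h9 h10
  rw [div_eq_one_iff_eq (pow_ne_zero 2 hc), Matrix.det_fin_two, h9, h10, mul_zero, sub_zero, sq,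
    mul_right_inj' hc] at h8
  have h11 : g = c • cl e0 ((g 0 1 / c) • e0 + e1) := by
    ext i j
    fin_cases i <;> fin_cases j <;> simp [cl, e0, e1, h8, h9, h10, mul_div_cancel₀ _ hc]
  rw [h11, act_smul, h7, one_smul] at k4 ⊢
  rw [D1_act, cl_e0, cl_e1, map_add, map_smul, euler, h2, Pi.add_apply] at k4
  have h12 : g 0 1 / c = 0 := by
    have h13 : g 0 1 / c * (d * x l) + 0 = 0 := h4 ▸ k4
    exact (mul_eq_zero.1 ((add_zero _).symm.trans h13)).resolve_right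
      (mul_ne_zero (Nat.cast_ne_zero.2 H.pos.ne') hl)
  rw [h12, show cl e0 ((0 : ℂ) • e0 + e1) = 1 by
    ext i j
    fin_cases i <;> fin_cases j <;> simp [cl, e0, e1], act_one]

theorem lam_ex (hC : Cone V P e pt) {x : V.X} (hO : O ∈ 𝓝 x) : ∃ (χ : Chart n V.X) (B : Set (Cm n))
    (lam : Cm n → Cm N) (l : Fin N), At χ x ∧ IsOpen B ∧ χ x ∈ B ∧ ∀ ξ ∈ B, ξ ∈ χ.target ∧
      AnalyticAt ℂ lam ξ ∧ In P (lam ξ) ∧ pt (lam ξ) = χ.symm ξ ∧ lam ξ l ≠ 0 ∧ χ.symm ξ ∈ O := by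
  obtain ⟨y, hy, rfl⟩ := hC.onto x
  have hχ : At (chartAt (Cm n) (pt y)) (pt y) := ⟨chart_mem_atlas _ _, mem_chart_source _ _⟩
  obtain ⟨-, lam, -, h1, h2, -, h3⟩ := hC.loc y hy _ hχ
  obtain ⟨l, hl⟩ := ne_iff.1 hy.1
  obtain ⟨B, b1, b2, b3⟩ := eventually_nhds_iff.1
    (((chartAt (Cm n) (pt y)).open_target.eventually_mem hχ.mem_target).and
      (h1.eventually_analyticAt.and (h3.and (((analyticAt_pi_iff.1 h1 l).continuousAt.eventually_ne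
        (by rw [h2]; exact hl)).and (at_ev hχ (P := (· ∈ O)) hO)))))
  exact ⟨_, B, lam, l, hχ, b2, b3, fun ξ h => ⟨(b1 ξ h).1, (b1 ξ h).2.1, (b1 ξ h).2.2.1.1,
    (b1 ξ h).2.2.1.2, (b1 ξ h).2.2.2⟩⟩

theorem lam_tan (hC : Cone V P e pt) {χ : Chart n V.X} (hχ : χ ∈ atlas (Cm n) V.X)
    {lam : Cm n → Cm N} {ξ : Cm n} (h1 : AnalyticAt ℂ lam ξ)
    (h2 : ∀ᶠ η in 𝓝 ξ, η ∈ χ.target ∧ In P (lam η) ∧ pt (lam η) = χ.symm η) :
    (∀ w, Jm P (lam ξ) *ᵥ w = 0 ↔ ∃ (u : Cm n) (c : ℂ), w = fderiv ℂ lam ξ u + c • lam ξ) ∧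
      ∀ (u : Cm n) (c : ℂ), fderiv ℂ lam ξ u + c • lam ξ = 0 → u = 0 ∧ c = 0 := by
  obtain ⟨k1, k2, k3⟩ := h2.self_of_nhds
  have hA : At χ (pt (lam ξ)) := ⟨hχ, k3 ▸ χ.map_target k1⟩
  obtain ⟨ρ, -, r1, -, -, r2, -⟩ := hC.loc _ k2 χ hA
  obtain ⟨t1, -, t2⟩ := (tub V P pt hC _ k2).2 χ ρ hA r1 (r2.mono fun _ h k => (h k).2)
  have h3 : ∀ u, fderiv ℂ ρ (lam ξ) (fderiv ℂ lam ξ u) = u := fun u => by
    have h4 : (ρ ∘ lam) =ᶠ[𝓝 ξ] id := by
      filter_upwards [h2, h1.continuousAt.eventually r2] with η m1 m2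
      rw [comp, ← (m2 m1.2.1).2, m1.2.2, χ.right_inv m1.1, id]
    have h5 := h4.fderiv_eq (𝕜 := ℂ)
    rw [fderiv_comp ξ r1.differentiableAt h1.differentiableAt, fderiv_id] at h5
    exact congrArg (· u) h5
  have h4 : ∀ u, Jm P (lam ξ) *ᵥ fderiv ℂ lam ξ u = 0 := fun u => by
    rw [← fd_Pv' P h1.differentiableAt, EventuallyEq.fderiv_eq (f := fun _ => 0)
      (h2.mono fun _ h => h.2.1.2)]
    simp
  have h5 : Jm P (lam ξ) *ᵥ lam ξ = 0 := by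
    have h6 := fd_Pv' P (φ := fun c : ℂ => c • lam ξ) (x := 1) (by fun_prop) 1
    simp only [Pv_smul hC.hom, k2.2, smul_zero, one_smul] at h6
    rw [show fderiv ℂ (fun c : ℂ => c • lam ξ) 1 = _ from
      ((hasFDerivAt_id (1 : ℂ)).smul_const (lam ξ)).fderiv] at h6
    simpa using h6.symm
  refine ⟨fun w => ⟨fun h => ?_, ?_⟩, fun u c h => ?_⟩
  · obtain ⟨c, hc⟩ := t2 (w - fderiv ℂ lam ξ (fderiv ℂ ρ (lam ξ) w))
      (by rw [Matrix.mulVec_sub, h, h4, sub_zero]) (by rw [map_sub, h3, sub_self])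
    exact ⟨_, c, by rw [← hc, add_sub_cancel]⟩
  · rintro ⟨u, c, rfl⟩
    rw [Matrix.mulVec_add, Matrix.mulVec_smul, h4, h5, smul_zero, add_zero]
  · have h6 := congrArg (fderiv ℂ ρ (lam ξ)) h
    rw [map_add, map_smul, h3, t1, smul_zero, add_zero, map_zero] at h6
    rw [h6, map_zero, zero_add, smul_eq_zero, or_iff_left k2.1] at h
    exact ⟨h6, h⟩

theorem rk_ker (H : Hyp V P e pt d) {a : BF d N} (ha : CD P D a) :
    n + 1 + Module.finrank ℂ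
      (LinearMap.ker ((evL d N e0).toLinearMap.domRestrict (Tg P a))) = D := by
  have h1 := ((evL d N e0).toLinearMap.domRestrict (Tg P a)).finrank_range_add_finrank_ker
  have h2 : LinearMap.range ((evL d N e0).toLinearMap.domRestrict (Tg P a)) =
      LinearMap.ker (Jm P (ev a e0)).mulVecLin := by
    ext v
    exact ⟨fun ⟨b, hb⟩ => hb ▸ b.2 e0, fun h =>
      let ⟨b, h1, h2⟩ := H.gen a ha.1 e0 e0_ne v h
      ⟨⟨b, h1⟩, h2⟩⟩
  have h3 := (Jm P (ev a e0)).mulVecLin.finrank_range_add_finrank_ker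
  have h4 := H.cone.rk _ (ha.1 e0 e0_ne)
  rw [h2, ha.2] at h1
  rw [Module.finrank_fin_fun, show Module.finrank ℂ (LinearMap.range (Jm P (ev a e0)).mulVecLin) =
    (Jm P (ev a e0)).rank from rfl] at h3
  rw [← h1, add_left_cancel (h3.trans h4.symm)]

theorem nf_at (H : Hyp V P e pt d) (hS : Mc.Sm) (hM : MF F Mc O θ) (hk : k + 4 = D)
    (hp : k + 1 = n + p) {x : V.X} (hx : x ∈ O) :
    ∃ Q, NF F Mc Q ∧ x ∈ Q.χ.source ∧ Q.χ x ∈ Q.B := by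
  obtain ⟨χ, B, lam, l, hχ, hB, hxB, hb⟩ := lam_ex H.cone (hM.opn.mem_nhds hx)
  have hA : ∀ ξ ∈ B, At χ (χ.symm ξ) := fun ξ h => ⟨hχ.1, χ.map_target (hb ξ h).1⟩
  let A : Cm n → Cm ν → BF d N := fun ξ v => Classical.epsilon (Ch θ l (lam ξ) v)
  have hO : ∀ ξ ∈ B, pt (lam ξ) ∈ O := fun ξ h => (hb ξ h).2.2.2.1 ▸ (hb ξ h).2.2.2.2.2
  have hO' : ∀ ξ ∈ B, ∀ a z, Ov F (χ.symm ξ) a z → F.e (F.pu a z) ∈ O := fun ξ h a z k => by
    rw [F.e_pu _ _ k.1 k.2.1, k.2.2]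
    exact (hb ξ h).2.2.2.2.2
  have A1 : ∀ ξ ∈ B, ∀ v a, Ch θ l (lam ξ) v a → A ξ v = a := fun ξ h v a k =>
    uniq H hS hM (hb ξ h).2.2.2.2.1 (hO ξ h) k (Classical.epsilon_spec ⟨a, k⟩)
  have lf1 : ∀ {E : Type} [TopologicalSpace E] {z : E → Cm 2} {y : E} {w : Cm 2}, ContinuousAt z y →
      lf (z y) w ≠ 0 → ∀ᶠ s in 𝓝 y, lf (z s) w ≠ 0 := fun h1 h2 =>
    ContinuousAt.eventually_ne (((continuousAt_pi.1 h1 0).mul continuousAt_const).sub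
      ((continuousAt_pi.1 h1 1).mul continuousAt_const)) h2
  have A2 : ∀ ξ ∈ B, ∀ v ∈ Mc.C, ∃ A' : Cm n × Cm ν → BF d N, ContDiffAt ℂ ω A' (ξ, v) ∧
      ∀ᶠ q in 𝓝 (ξ, v), q.2 ∈ Mc.C → A q.1 q.2 = A' q ∧ Ch θ l (lam q.1) q.2 (A q.1 q.2) :=
    fun ξ h v hv => by
    obtain ⟨a, z, μ, h1, h2, h3, h4⟩ := inv_loc H hS hM hp (hA ξ h) (hb ξ h).2.2.2.2.2 hv
    rw [χ.right_inv (hb ξ h).1] at h1 h2 h3 h4
    obtain ⟨w, hw⟩ := ex_w h4.self_of_nhds.1.2.1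
    have h5 := (ev_l H (hb ξ h).2.2.1 (hb ξ h).2.2.2.2.1
      ((hb ξ h).2.2.2.1.symm ▸ h4.self_of_nhds.1)).1
    refine ⟨fun q => (lam q.1 l / ev (a q) (z q) l) • act (a q) (g1 l (a q) (z q) w (μ q)),
      ((contDiffAt_pi.1 (ContDiffAt.comp (f := Prod.fst) (ξ, v) (hb ξ h).2.1.contDiffAt
        contDiffAt_fst) l).div (contDiffAt_pi.1 (an_ev' h1 h2) l) h5).smul
        (an_act' h1 (an_g1 H.pos l h1 h2 h3 hw h5)), ?_⟩
    filter_upwards [h4, lf1 h2.continuousAt hw,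
      (continuous_fst.tendsto (ξ, v)).eventually (hB.mem_nhds h)] with q k2 k3 k4 hq
    have k5 := k1 H hM (hb _ k4).2.2.1 (hb _ k4).2.2.2.2.1 (hO _ k4)
      ((hb _ k4).2.2.2.1.symm ▸ k2.1) k3 k2.2.1
    rw [← k2.2.2 hq] at k5
    rw [A1 _ k4 _ _ k5]
    exact ⟨rfl, k5⟩
  have A3 : ∀ ξ ∈ B, ∀ v ∈ Mc.C, Ch θ l (lam ξ) v (A ξ v) := fun ξ h v hv =>
    let ⟨_, _, k⟩ := A2 ξ h v hv
    (k.self_of_nhds hv).2
  let Q : ND V d N ν := ⟨χ, B, lam, A, th θ⟩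
  have A4 : ∀ ξ ∈ B, ∀ v ∈ Mc.C, ∀ s (c : ℂ), (Q.DA Mc ξ v (0, fderiv ℂ (Mc.κ v) 0 s) ∈ Tg P (A ξ v) ∧
      ev (Q.DA Mc ξ v (0, fderiv ℂ (Mc.κ v) 0 s)) e0 = 0) ∧
      (Q.DA Mc ξ v (0, fderiv ℂ (Mc.κ v) 0 s) + c • inf (A ξ v) E01 = 0 → s = 0 ∧ c = 0) :=
    fun ξ h v hv s c => by
    obtain ⟨A', h1, h2⟩ := A2 ξ h v hv
    have r0 := rho0 hS hv
    have r1 := (hS.anρ v hv).contDiffAt (n := ω)
    have r2 : ContDiffAt ℂ ω (Mc.κ v) (Mc.ρ v v) := r0.symm ▸ (hS.anκ v hv).1.contDiffAt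
    have r3 : Mc.κ v (Mc.ρ v v) = v := by rw [r0, (hS.anκ v hv).2]
    have r4 : ContDiffAt ℂ ω (fun q : Cm n × Cm ν => Mc.ρ v q.2) (ξ, v) :=
      ContDiffAt.comp (f := Prod.snd) (ξ, v) r1 contDiffAt_snd
    let R : Cm n × Cm ν → Cm n × Cm ν := fun q => (q.1, Mc.κ v (Mc.ρ v q.2))
    have r5 : ContDiffAt ℂ ω R (ξ, v) := contDiffAt_fst.prodMk
      (ContDiffAt.comp (f := fun q : Cm n × Cm ν => Mc.ρ v q.2) (ξ, v) r2 r4)
    have r6 : R (ξ, v) = (ξ, v) := Prod.ext rfl r3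
    let G : Cm n × Cm ν → BF d N := fun q => A q.1 (Mc.κ v (Mc.ρ v q.2))
    have g0 : G (ξ, v) = A ξ v := congrArg (A ξ) r3
    have r7 := (r0 ▸ r4.continuousAt.tendsto).eventually (hS.ρκ v hv)
    have g2 : ∀ᶠ q in 𝓝 (ξ, v), G q = A' (R q) ∧ Ch θ l (lam q.1) (R q).2 (G q) := by
      filter_upwards [(r6 ▸ r5.continuousAt.tendsto).eventually h2, r7] with q m1 m2 using m1 m2.1
    have g3 : ContDiffAt ℂ ω G (ξ, v) := (ContDiffAt.comp (f := R) (ξ, v) (r6.symm ▸ h1)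
      r5).congr_of_eventuallyEq (g2.mono fun _ m => m.1)
    have g4 := g3.differentiableAt (by simp)
    set y : Cm n × Cm ν := (0, fderiv ℂ (Mc.κ v) 0 s) with hy
    have g5 : D1 d N (fderiv ℂ G (ξ, v) y) l = 0 := by
      have m1 := (hasFDerivAt_pi'.1 ((D1 d N).hasFDerivAt.comp (ξ, v) g4.hasFDerivAt) l).fderiv
      have m2 := m1.symm.trans (EventuallyEq.fderiv_eq (f := fun _ => (0 : ℂ))
        (g2.mono fun _ m => m.2.2.2.2))
      simpa using congrArg (· y) m2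
    refine ⟨⟨g0 ▸ tg_of H.cone.hom g3 (g2.mono fun _ m => (F.cd _ m.2.1).1) y, ?_⟩, fun h3 => ?_⟩
    · refine (fd_ev g4 e0 y).symm.trans ?_
      rw [EventuallyEq.fderiv_eq (f := lam ∘ Prod.fst) (g2.mono fun _ m => m.2.2.1),
        fderiv_comp (ξ, v) (hb ξ h).2.1.differentiableAt differentiableAt_fst, fderiv_fst]
      exact map_zero (fderiv ℂ lam ξ)
    · have m1 := congrFun (congrArg (D1 d N) h3) l
      rw [map_add, map_smul, D1_inf, (A3 ξ h v hv).2.1, Pi.add_apply, map_zero] at m1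
      have m2 : c = 0 := (mul_eq_zero.1 ((zero_add (c * (d * lam ξ l))).symm.trans
        ((congrArg (· + _) g5.symm).trans m1))).resolve_right
        (mul_ne_zero (Nat.cast_ne_zero.2 H.pos.ne') (hb ξ h).2.2.2.2.1)
      rw [m2, zero_smul, add_zero] at h3
      obtain ⟨T, t1, t2⟩ := th_an H hM (A3 ξ h v hv).1 e0_ne (hO' ξ h _ _ ⟨(A3 ξ h v hv).1, e0_ne,
        by rw [(A3 ξ h v hv).2.1, (hb ξ h).2.2.2.1]⟩)
      have t3 : T (A ξ v, e0) = v := (t2.self_of_nhds (A3 ξ h v hv).1).symm.trans (A3 ξ h v hv).2.2.1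
      have t4 : ContDiffAt ℂ ω (fun b => Mc.ρ v (T (b, e0))) (G (ξ, v)) := g0.symm ▸
        ContDiffAt.comp (f := fun b => T (b, e0)) _ (t3.symm ▸ r1) (ContDiffAt.comp
          (f := fun b : BF d N => (b, e0)) _ t1 (contDiffAt_id.prodMk contDiffAt_const))
      have t5 : ((fun b => Mc.ρ v (T (b, e0))) ∘ G) =ᶠ[𝓝 (ξ, v)] Mc.ρ v ∘ Prod.snd := by
        filter_upwards [g2, r7, ((g0 ▸ g3.continuousAt.tendsto).prodMk_nhds
          (tendsto_const_nhds (x := e0))).eventually t2] with q m3 m4 m5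
        exact (congrArg (Mc.ρ v) ((m5 m3.2.1).symm.trans m3.2.2.2.1)).trans m4.2
      have t6 := congrArg (· y) (t5.fderiv_eq (𝕜 := ℂ))
      rw [fderiv_comp _ (t4.differentiableAt (by simp)) g4, fderiv_comp (ξ, v)
        (hS.anρ v hv).differentiableAt differentiableAt_snd, fderiv_snd] at t6
      have t7 : fderiv ℂ (Mc.ρ v) v (fderiv ℂ (Mc.κ v) 0 s) = 0 :=
        t6.symm.trans ((congrArg (fderiv ℂ _ _) h3).trans (map_zero _))
      have t8 := EventuallyEq.fderiv_eq (𝕜 := ℂ) (f₁ := Mc.ρ v ∘ Mc.κ v) (f := id)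
        ((hS.ρκ v hv).mono fun _ m => m.2)
      rw [fderiv_comp 0 (by rw [(hS.anκ v hv).2]; exact (hS.anρ v hv).differentiableAt)
        (hS.anκ v hv).1.differentiableAt, (hS.anκ v hv).2, fderiv_id] at t8
      exact ⟨(congrArg (· s) t8).symm.trans t7, m2⟩
  have L1 := fun ξ (h : ξ ∈ B) => lam_tan H.cone hχ.1 (hb ξ h).2.1 ((hB.eventually_mem h).mono
    fun η k => ⟨(hb η k).1, (hb η k).2.2.1, (hb η k).2.2.2.1⟩)
  refine ⟨Q, ⟨hχ.1, hB, fun ξ h => (hb ξ h).1, fun ξ h => (hb ξ h).2.1,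
    fun ξ h => ⟨(hb ξ h).2.2.1, (hb ξ h).2.2.2.1⟩, fun ξ h => (L1 ξ h).1, fun ξ h => (L1 ξ h).2,
    fun m ξ v τ h1 h2 h3 h4 => ?_, fun ξ h v hv => ⟨(A3 ξ h v hv).1, (A3 ξ h v hv).2.1,
      (A3 ξ h v hv).2.2.1⟩, fun ξ h v hv c hc => ?_,
    fun ξ h a z k => th_mem H hS hM k.1 k.2.1 (hO' ξ h a z k),
    fun ξ h a z z' g c k => th_eq H hM k.1 k.2.1 (hO' ξ h a z k), fun m ξ a z τ h1 h2 h3 => ?_,
    fun ξ h v hv b b1 b2 => ?_, fun ξ h v hv w hw c k => ?_⟩, hχ.2, hxB⟩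
  · obtain ⟨A', k1, k2⟩ := A2 _ h3 _ h4.self_of_nhds
    refine (k1.analyticAt.comp (f := fun s => (ξ s, v s)) (h1.prod h2)).congr ?_
    filter_upwards [(h1.prod h2).continuousAt.eventually k2, h4] with s k3 k4 using (k3 k4).1.symm
  · obtain ⟨k1, k2, k3, k4⟩ := A3 ξ h v hv
    have k5 : (dg c).det = c := by simp [dg]
    have k6 : dg c *ᵥ e0 = e0 := by
      funext i
      fin_cases i <;> simp [dg, e0]
    have k7 : dg c *ᵥ e1 = c • e1 := by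
      funext i
      fin_cases i <;> simp [dg, e1]
    refine A1 ξ h _ _ ⟨F.inv _ _ k1 (k5.symm ▸ hc), by rw [ev_act, k6]; exact k2, ?_, ?_⟩
    · rw [th_eq H hM k1 e0_ne (hO' ξ h _ _ ⟨k1, e0_ne, by rw [k2, (hb ξ h).2.2.2.1]⟩) e0_ne
        (k5.symm ▸ hc) (c := 1) (by rw [k6, one_smul]), k5, k3, one_pow, div_one]
    · rw [D1_act, k6, k7, map_smul, Pi.smul_apply]
      exact (congrArg (c • ·) k4).trans (smul_zero c)
  · obtain ⟨k1, k2⟩ := h3.self_of_nhds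
    have c1 := h1.contDiffAt (n := ω)
    have c2 := h2.contDiffAt (n := ω)
    have c3 := an_ev' c1 c2
    obtain ⟨ρ, -, r1, -, -, r2, -⟩ := H.cone.loc _ ((F.cd _ k2.1).1 _ k2.2.1) χ (k2.2.2.symm ▸ hA _ k1)
    have x1 : AnalyticAt ℂ ξ τ := (r1.comp (f := fun s => ev (a s) (z s)) c3.analyticAt).congr (by
      filter_upwards [h3, c3.continuousAt.eventually r2] with s m1 m2
      rw [comp, ← (m2 ((F.cd _ m1.2.1).1 _ m1.2.2.1)).2, m1.2.2.2, χ.right_inv (hb _ m1.1).1])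
    obtain ⟨T, t1, t2⟩ := th_an H hM k2.1 k2.2.1 (hO' _ k1 _ _ k2)
    obtain ⟨w, hw⟩ := ex_w k2.2.1
    have k3 := (ev_l H (hb _ k1).2.2.1 (hb _ k1).2.2.2.2.1 ((hb _ k1).2.2.2.1.symm ▸ k2)).1
    let t : Cm m → ℂ := fun s => lam (ξ s) l / ev (a s) (z s) l
    have t3 : AnalyticAt ℂ t τ := (analyticAt_pi_iff.1 ((hb _ k1).2.1.comp x1) l).div
      (contDiffAt_pi.1 c3 l).analyticAt k3
    have t4 : t τ ≠ 0 := div_ne_zero (hb _ k1).2.2.2.2.1 k3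
    obtain ⟨α, hα⟩ := IsAlgClosed.exists_pow_nat_eq (t τ) H.pos
    refine ⟨x1, (t1.analyticAt.comp (f := fun s => (a s, z s)) (h1.prod h2)).congr ?_,
      fun s => (α * (t s / t τ) ^ ((d : ℂ)⁻¹)) • g1 l (a s) (z s) w 1,
      (analyticAt_const.mul ((t3.div analyticAt_const t4).cpow analyticAt_const
        (by rw [Pi.div_apply, div_self t4]; exact Complex.one_mem_slitPlane))).smul
        (an_g1 H.pos l c1 c2 contDiffAt_const hw k3).analyticAt, ?_⟩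
    · filter_upwards [(h1.prod h2).continuousAt.eventually t2, h3] with s m1 m2
      exact (m1 m2.2.1).symm
    · filter_upwards [h3, lf1 h2.continuousAt hw, t3.continuousAt.eventually_ne t4] with s m1 m2 m3
      have m4 : (α * (t s / t τ) ^ ((d : ℂ)⁻¹)) ^ d = t s := by
        rw [mul_pow, Complex.cpow_nat_inv_pow _ H.pos.ne', hα, mul_div_cancel₀ _ t4]
      have m5 := Nf.k1 H hM (hb _ m1.1).2.2.1 (hb _ m1.1).2.2.2.2.1 (hO _ m1.1)
        ((hb _ m1.1).2.2.2.1.symm ▸ m1.2) m2 one_ne_zero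
      rw [one_smul] at m5
      refine ⟨?_, ⟨_, by rw [Matrix.smul_mulVec, g1, cl_e0]⟩, ?_⟩
      · rw [Matrix.det_smul, g1_det l _ m2, mul_one]
        exact pow_ne_zero _ fun m6 => m3 (by rw [← m4, m6, zero_pow H.pos.ne'])
      · rw [act_smul, m4]
        exact (A1 _ m1.1 _ _ m5).symm
  · have k1 := F.cd _ (A3 ξ h v hv).1
    let L : Cm (p + 1) × ℂ →ₗ[ℂ] Tg P (A ξ v) := LinearMap.codRestrict _
      (((Q.DA Mc ξ v).toLinearMap ∘ₗ LinearMap.inr ℂ _ _ ∘ₗ (fderiv ℂ (Mc.κ v) 0).toLinearMap).coprod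
        (LinearMap.toSpanSingleton ℂ _ (inf (A ξ v) E01))) fun y => add_mem (A4 ξ h v hv y.1 0).1.1
        (Submodule.smul_mem _ _ (inf_mem (k1.1.pv H.cone.hom) _))
    have k2 := LinearMap.finrank_range_of_inj (f := L) ((injective_iff_map_eq_zero _).2
      fun y k => Prod.ext_iff.2 ((A4 ξ h v hv y.1 y.2).2 (congrArg Subtype.val k)))
    have k3 := rk_ker H k1
    rw [Module.finrank_prod, Module.finrank_fin_fun, Module.finrank_self] at k2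
    have k4 := Submodule.eq_of_le_of_finrank_le (S₁ := LinearMap.range L)
      (S₂ := LinearMap.ker ((evL d N e0).toLinearMap.domRestrict (Tg P (A ξ v)))) (by
        rintro _ ⟨y, rfl⟩
        show ev (_ + y.2 • inf (A ξ v) E01) e0 = 0
        rw [ev_add, ev_smul, ev_inf0, smul_zero, add_zero]
        exact (A4 ξ h v hv y.1 0).1.2) (by omega)
    obtain ⟨y, hy⟩ : (⟨b, b1⟩ : Tg P (A ξ v)) ∈ LinearMap.range L := k4.symm ▸ b2
    exact ⟨_, (hS.tan v hv _).2 ⟨y.1, rfl⟩, y.2, (congrArg Subtype.val hy).symm⟩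
  · obtain ⟨s, rfl⟩ := (hS.tan v hv w).1 hw
    obtain ⟨k1, k2⟩ := (A4 ξ h v hv s c).2 k
    exact ⟨by rw [k1, map_zero], k2⟩

end Nf

/-- **normal forms exist** -/
theorem nfx {n N r e d D k ν p : ℕ} {V : Mf n} {P : Eqs r N} {pt : Cm N → V.X}
    (F : Fam V P pt d D k) (Mc : Mo ν p) (H : Hyp V P e pt d) (hS : Mc.Sm) (hk : k + 4 = D)
    (hp : k + 1 = n + p) (h : ∀ x, ∃ O θ, MF F Mc O θ ∧ x ∈ O) : NFs F Mc := fun x =>
  let ⟨_, _, h1, h2⟩ := h x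
  Nf.nf_at H hS h1 hk hp h2

end Vale.Agent.P280Z.Tr
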