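import Vale.Agent.P280Z.Tr.Sk
import Vale.Agent.P280Z.Tr.Nf

/-!
# P280Z, block Tr, row DTH: the differential of `θ` along the arcs
-/

open scoped Manifold ContDiff Topology Matrix Matrix.Norms.Elementwise
open Set Filter Function
open Vale.Agent.P272.K Vale.Agent.P281Z Vale.Agent.P280Z.Mp Vale.Agent.P280Z.Ma
open Vale.Agent.P280Z.Mp.Asm (act_inv inv_mv)
open Vale.Agent.P280Z.Tr.Nf (e0_ne dif tg_of)

noncomputable section

namespace Vale.Agent.P280Z.Tr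

namespace DthH

variable {d N : ℕ}

/-- substitution as a linear map -/
def aL (d N : ℕ) (g : M2) : BF d N →L[ℂ] BF d N :=
  LinearMap.toContinuousLinearMap ⟨⟨fun a => act a g, fun a b => ev_inj fun z => by
    simp only [ev_add, ev_act]⟩, fun c a => ev_inj fun z => by
    simp only [ev_smul, ev_act, RingHom.id_apply]⟩

theorem inf_act (a : BF d N) {g ξ η : M2} (h : g * ξ = η * g) :
    inf (act a g) ξ = act (inf a η) g := ev_inj fun z => by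
  rw [ev_act, ev_inf, ev_inf, funext (ev_act a g), Matrix.mulVec_mulVec, ← h,
    ← Matrix.mulVec_mulVec]
  exact congrArg (· (ξ *ᵥ z)) ((dif a _).hasFDerivAt.comp z
    (LinearMap.toContinuousLinearMap (Matrix.toLin' g)).hasFDerivAt).fderiv

theorem d_act {γ : ℂ → BF d N} {γ' : BF d N} {β : ℂ → ℂ} {β' : ℂ} (hγ : HasDerivAt γ γ' 0)
    (hβ : HasDerivAt β β' 0) (h0 : β 0 = 0) (ξ : M2) :
    HasDerivAt (fun t => act (γ t) (1 + β t • ξ)) (γ' + β' • inf (γ 0) ξ) 0 := by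
  have h1 := ((an_act (d := d) (N := N)).differentiable (by simp) (γ 0, 1)).hasFDerivAt
  have h2 := HasFDerivAt.comp_hasDerivAt_of_eq 0 h1
    (hγ.prodMk ((hβ.smul_const ξ).const_add (1 : M2))) (by rw [h0, zero_smul, add_zero])
  exact h2.congr_deriv ((fd_act (γ 0) γ' (β' • ξ)).trans
    (congrArg (γ' + ·) ((infL (γ 0)).map_smul β' ξ)))

theorem col {g : M2} {c : ℂ} {z : Cm 2} (h : g *ᵥ e0 = c • z) :
    g 0 0 = c * z 0 ∧ g 1 0 = c * z 1 := by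
  have h1 := congrFun h 0
  have h2 := congrFun h 1
  simp [e0, Matrix.mulVec, dotProduct, Fin.sum_univ_two] at h1 h2
  exact ⟨h1, h2⟩

theorem inv_z {g : M2} {c : ℂ} {z : Cm 2} (hc : c ≠ 0) (hg : g.det ≠ 0) (h : g *ᵥ e0 = c • z) :
    g⁻¹ *ᵥ z = c⁻¹ • e0 := by
  rw [← inv_mv hg e0, h, Matrix.mulVec_smul, inv_smul_smul₀ hc]

theorem mul_eu {g : M2} {c : ℂ} {z : Cm 2} (hc : c ≠ 0) (hd : g.det = c ^ 2)
    (h : g *ᵥ e0 = c • z) : g * E01 = Eu z z * g := by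
  obtain ⟨h1, h2⟩ := col h
  rw [Matrix.det_fin_two, h1, h2] at hd
  have h3 : z 0 * g 1 1 - z 1 * g 0 1 = c := mul_left_cancel₀ hc (by linear_combination hd)
  ext i j
  fin_cases i <;> fin_cases j <;> simp [E01, Eu, Matrix.mul_apply, Fin.sum_univ_two, h1, h2]
  · ring
  · linear_combination -z 0 * h3
  · ring
  · linear_combination -z 1 * h3

theorem two {g g' : M2} {c c' : ℂ} {z : Cm 2} (hc : c ≠ 0) (hd : g.det = c ^ 2)
    (h : g *ᵥ e0 = c • z) (hc' : c' ≠ 0) (hd' : g'.det = c' ^ 2) (h' : g' *ᵥ e0 = c' • z)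
    (k : c' ^ d = c ^ d) (b : BF d N) :
    act b g' = act (act b g) (1 + ((g⁻¹ * g') 0 1 * c / c') • E01) := by
  have hg : g.det ≠ 0 := hd ▸ pow_ne_zero 2 hc
  have h1 : (g⁻¹ * g') *ᵥ e0 = (c' / c) • e0 := by
    rw [← Matrix.mulVec_mulVec, h', Matrix.mulVec_smul, inv_z hc hg h, smul_smul, div_eq_mul_inv]
  obtain ⟨h2, h3⟩ := col h1
  have h4 : (g⁻¹ * g').det = (c' / c) ^ 2 := by
    rw [Matrix.det_mul, Matrix.det_nonsing_inv, Ring.inverse_eq_inv', hd, hd', div_pow,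
      div_eq_inv_mul]
  have h5 := div_ne_zero hc' hc
  simp only [e0, Matrix.cons_val_zero, Matrix.cons_val_one, mul_one, mul_zero] at h2 h3
  rw [Matrix.det_fin_two, h2, h3, mul_zero, sub_zero, sq, mul_right_inj' h5] at h4
  have h6 : g⁻¹ * g' = (c' / c) • (1 + ((g⁻¹ * g') 0 1 * c / c') • E01) := by
    ext i j
    fin_cases i <;> fin_cases j <;> simp [E01, h2, h3, h4]
    field_simp
  rw [← one_smul ℂ (act (act b g) _), ← div_self (pow_ne_zero d hc), ← k, k, ← div_pow]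
  nth_rewrite 1 [← Matrix.mul_nonsing_inv_cancel_left g g' hg.isUnit]
  rw [h6, ← act_act, act_smul, div_pow, div_pow, k, ← h6]

theorem eu_z (u z : Cm 2) (t : ℂ) :
    (1 + t • Eu u z) *ᵥ z = (1 : ℂ) • z ∧ (1 + t • Eu u z).det = 1 + t * lf z u := by
  refine ⟨funext fun i => ?_, ?_⟩
  · fin_cases i <;> simp [Eu, Matrix.mulVec, dotProduct, Fin.sum_univ_two] <;> ring
  · simp [Eu, lf, Matrix.det_fin_two]
    ring

end DthH

open DthH in
/-- row DTH -/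
theorem dth : DTH := by
  intro n N r d D k ν p V P pt F Mc H Q x a z hF hN hD hO
  obtain ⟨e, hH⟩ := H.hyp
  have hx : Q.χ.symm (Q.χ x) = x := Q.χ.left_inv hD.1
  have hO' : ∀ {b}, F.M b → ev b z = ev a z → Ov F (Q.χ.symm (Q.χ x)) b z := fun h1 h2 =>
    ⟨h1, hO.2.1, by rw [h2, hx, hO.2.2]⟩
  have hv := hF.θ_mem _ hD.2 a z (hO' hO.1 rfl)
  obtain ⟨g, c, hc, hd, hg0, hA⟩ := hN.nrm _ hD.2 a z (hO' hO.1 rfl)
  have hg : g.det ≠ 0 := hd ▸ pow_ne_zero 2 hc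
  have hC := (F.cd a hO.1).1
  let J : Mc.TC (Q.θ a z) × ℂ →ₗ[ℂ] BF d N :=
    ((Q.DA Mc (Q.χ x) (Q.θ a z)).toLinearMap ∘ₗ LinearMap.inr ℂ _ _ ∘ₗ Submodule.subtype _).coprod
      (LinearMap.toSpanSingleton ℂ _ (inf (act a g) E01))
  obtain ⟨R, hR⟩ := J.exists_leftInverse_of_injective (LinearMap.ker_eq_bot'.2 fun y h => by
    have h1 := hF.ind _ hD.2 _ hv y.1.1 y.1.2 y.2 (hA ▸ h)
    exact Prod.ext (Subtype.ext h1.1) h1.2)
  let L : BF d N →ₗ[ℂ] Cm ν :=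
    Submodule.subtype _ ∘ₗ LinearMap.fst ℂ _ _ ∘ₗ R ∘ₗ (aL d N g).toLinearMap
  have hU : ∀ b, ∀ w ∈ Mc.TC (Q.θ a z), ∀ β : ℂ,
      act b g = Q.DA Mc (Q.χ x) (Q.θ a z) (0, w) + β • inf (act a g) E01 → L b = w :=
    fun b w hw β h => (congrArg (fun y => (R y).1.1) h).trans
      (congrArg (fun y => y.1.1) (LinearMap.congr_fun hR (⟨w, hw⟩, β)))
  have hK : ∀ b, Kr P a z b → ∃ β : ℂ,
      act b g = Q.DA Mc (Q.χ x) (Q.θ a z) (0, L b) + β • inf (act a g) E01 := fun b hb => by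
    obtain ⟨w, hw, β, h⟩ := hF.tan _ hD.2 _ hv (act b g)
      (fun y => by rw [← hA, ev_act, ev_act]; exact hb.1 _)
      (by rw [ev_act, hg0, ev_arg, hb.2, smul_zero])
    rw [← hA] at h
    exact ⟨β, by rw [hU b w hw β h]; exact h⟩
  have hl : c ^ d • ev a z = Q.lam (Q.χ x) := by
    rw [← (hF.A_M _ hD.2 _ hv).2.1, ← hA, ev_act, hg0, ev_arg]
  have hder : ∀ γ, Arc F a z γ → AnalyticAt ℂ (fun t => Q.θ (γ t) z) 0 ∧
      deriv (fun t => Q.θ (γ t) z) 0 = L (deriv γ 0) := fun γ hγ => by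
    obtain ⟨-, h2, G, C, hG, hC', hev⟩ := hN.fam ℂ γ (fun _ => z) 0 hγ.1 analyticAt_const
      (hγ.2.2.mono fun _ h => h.1) hO.2.1 (by rw [hγ.2.1, hO.2.2]; exact hD)
    have h3 : ∀ᶠ t in 𝓝 (0 : ℂ), Q.θ (γ t) z ∈ Mc.C :=
      hγ.2.2.mono fun t h => hF.θ_mem _ hD.2 _ z (hO' h.1 h.2)
    have h4 : ∀ᶠ t in 𝓝 (0 : ℂ), act (act (γ t) g) (1 + ((g⁻¹ * G t) 0 1 * c / C t) • E01) =
        Q.A (Q.χ x) (Q.θ (γ t) z) := by
      filter_upwards [hev, hγ.2.2, h3] with t k1 k2 k3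
      obtain ⟨-, k4, k5, k6, k7⟩ := k1
      rw [k2.2, hO.2.2] at k7
      have k8 := congrArg (ev · e0) k7
      simp only [ev_act, k6, ev_arg, k2.2, (hF.A_M _ hD.2 _ k3).2.1, ← hl] at k8
      rw [← two hc hd hg0 k4 k5 k6 (smul_left_injective ℂ (hC.nz z hO.2.1) k8), k7]
    have h5 : AnalyticAt ℂ (fun t => (g⁻¹ * G t) 0 1 * c / C t) 0 := by
      have k1 : ∀ i j, AnalyticAt ℂ (fun t => G t i j) 0 := fun i j =>
        (an_ent i j).contDiffAt.analyticAt.comp hG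
      simp only [Matrix.mul_apply, Fin.sum_univ_two]
      exact (((analyticAt_const.mul (k1 0 1)).add (analyticAt_const.mul (k1 1 1))).mul
        analyticAt_const).div hC' hev.self_of_nhds.2.1
    have h6 : (g⁻¹ * G 0) 0 1 * c / C 0 = 0 := by
      have k1 := h4.self_of_nhds
      rw [hγ.2.1, ← hA] at k1
      obtain ⟨ζ, -, k2⟩ := (free P _ hH.pos (hC.act hg)).2 hH.low _ k1
      simpa [E01] using congrFun (congrFun k2 0) 1
    have h7 := d_act ((aL d N g).hasFDerivAt.comp_hasDerivAt 0 hγ.1.differentiableAt.hasDerivAt)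
      h5.differentiableAt.hasDerivAt h6 E01
    have h8 := (hN.arc (fun _ => Q.χ x) _ analyticAt_const h2 hD.2 h3).2
    have h9 := H.cap.vel _ h2 h3
    rw [← EventuallyEq.deriv_eq h4, deriv_const] at h8
    simp only [hγ.2.1] at h8 h9
    refine ⟨h2, (hU _ _ h9 (-deriv (fun t => (g⁻¹ * G t) 0 1 * c / C t) 0) ?_).symm⟩
    rw [← h8, neg_smul, ← sub_eq_add_neg, eq_sub_iff_add_eq, ← hγ.2.1]
    exact h7.deriv.symm
  refine ⟨L, fun γ hγ => ⟨?_, ?_⟩, hder, fun b _ => (R (act b g)).1.2, fun γ h1 h2 h3 => ?_,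
    fun b hb h => ?_, fun u => ?_, fun g' c' h1 _ h2 b hb => ?_⟩
  · exact hγ.2.1 ▸ tg_of hH.cone.hom hγ.1.contDiffAt (hγ.2.2.mono fun _ h => (F.cd _ h.1).1) 1
  · refine (fd_ev hγ.1.differentiableAt z 1).symm.trans ?_
    rw [EventuallyEq.fderiv_eq (f := fun _ => ev a z) (hγ.2.2.mono fun _ h => h.2)]
    simp
  · have hi : g⁻¹.det = c⁻¹ ^ 2 := by
      rw [Matrix.det_nonsing_inv, Ring.inverse_eq_inv', hd, inv_pow]
    have hi' : g⁻¹.det ≠ 0 := hi ▸ pow_ne_zero 2 (inv_ne_zero hc)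
    refine ⟨fun t => act (Q.A (Q.χ x) (γ t)) g⁻¹, ⟨(aL d N g⁻¹).analyticAt _ |>.comp
      (hN.arc (fun _ => Q.χ x) γ analyticAt_const h1 hD.2 h3).1, ?_, h3.mono fun t k => ?_⟩,
      h3.mono fun t k => ?_⟩
    · simp only [h2, ← hA, act_inv a hg]
    · obtain ⟨k1, k2, -⟩ := hF.A_M _ hD.2 _ k
      refine ⟨F.inv _ _ k1 hi', ?_⟩
      rw [ev_act, inv_z hc hg hg0, ev_arg, k2, ← hl, inv_pow, inv_smul_smul₀ (pow_ne_zero d hc)]
    · obtain ⟨k1, k2, k3⟩ := hF.A_M _ hD.2 _ k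
      have k4 := hF.θ_eq _ hD.2 _ e0 z g⁻¹ c⁻¹ ⟨k1, e0_ne, by rw [k2, (hF.lam_in _ hD.2).2]⟩
        hO.2.1 hi' (inv_z hc hg hg0)
      rwa [hi, div_self (pow_ne_zero 2 (inv_ne_zero hc)), one_smul, k3] at k4
  · obtain ⟨β, hβ⟩ := hK b hb
    rw [h, Prod.mk_zero_zero, map_zero, zero_add, inf_act a (mul_eu hc hd hg0)] at hβ
    refine ⟨β, ?_⟩
    rw [← act_inv b hg, hβ, ← act_inv (inf a (Eu z z)) hg, act_inv (inf a (Eu z z)) hg]
    exact ((aL d N g⁻¹).map_smul _ _).trans (congrArg (β • ·) (act_inv _ hg))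
  · have h1 : ∀ᶠ t in 𝓝 (0 : ℂ), (1 + t • Eu u z).det ≠ 0 := by
      simp only [(eu_z u z _).2]
      exact ContinuousAt.eventually_ne (by fun_prop) (by simp)
    have h2 := d_act (hasDerivAt_const (0 : ℂ) a) (hasDerivAt_id (0 : ℂ)) rfl (Eu u z)
    have h3 := (hder (fun t => act a (1 + t • Eu u z)) ⟨(an_act' contDiffAt_const
      (contDiffAt_const.add (contDiffAt_id.smul contDiffAt_const))).analyticAt,
      by simp only [zero_smul, add_zero, act_one], h1.mono fun t h => ⟨F.inv _ _ hO.1 h, by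
        rw [ev_act, (eu_z u z t).1, one_smul]⟩⟩).2
    rw [show deriv (fun t : ℂ => act a (1 + t • Eu u z)) 0 = _ from h2.deriv, zero_add, one_smul,
      EventuallyEq.deriv_eq (f := fun t => (1 + t * lf z u) • Q.θ a z) (h1.mono fun t h => by
        rw [hF.θ_eq _ hD.2 a z z _ 1 (hO' hO.1 rfl) hO.2.1 h (eu_z u z t).1, (eu_z u z t).2,
          one_pow, div_one])] at h3
    rw [← h3]
    simpa using ((((hasDerivAt_id (0 : ℂ)).mul_const (lf z u)).const_add 1).smul_const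
      (Q.θ a z)).deriv
  · rw [hO.2.2] at h2 ⊢
    obtain ⟨ζ, k1, rfl⟩ := Gl.uniq hH.pos hH.low hC hg (h2.trans hA.symm)
    simp only [act_smul, k1, one_smul]
    exact hK b hb

end Vale.Agent.P280Z.Tr
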