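import Vale.Agent.P280Z.Tr.Sk
import Vale.Agent.P281Z.Mf.Adj

/-!
# P280Z, block Tr: vector fields from sections
-/

open scoped Matrix Topology
open Filter
open Vale.Agent.P272.K Vale.Agent.P281Z
open Vale.Agent.P277Z (at_chart)

noncomputable section

namespace Vale.Agent.P280Z.Tr

/-- **FLD** -/
theorem fld : FLD := by
  intro n N r d D k ν p V P pt F Mc _ E Q β hT hc hs e x he v
  have hA : ∀ {i y}, y ∈ E.U i → At (Q i).χ y := fun {i y} h =>
    ⟨(hT.nf i).atl, ((hT.dom i y).1 h).1⟩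
  obtain ⟨i, hi⟩ := hT.hb.cov x
  obtain ⟨s, h1, h2⟩ := hs x (E.b i x (β.symm ((jacM e (Q i).χ x *ᵥ v, 0), 0)))
    (hT.hb.rng i x hi ▸ LinearMap.mem_range_self _ _)
  have h3 : ∀ y, ∃ i c, y ∈ E.U i ∧ s y = E.b i y c := fun y => by
    have hy := at_chart (n := n) y
    obtain ⟨i, k1, c, -, k2⟩ := h1 y _ hy
    have k3 := k2.self_of_nhds
    simp only [hy.left_inv] at k1 k3
    exact ⟨i, _, k1, k3⟩
  choose I C hI hC using h3
  obtain ⟨ξ, key⟩ : ∃ ξ : Chart n V.X → Cm n → Cm n, ∀ (e : Chart n V.X) y i c, At e y →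
      y ∈ E.U i → s y = E.b i y c → ξ e (e y) = jacM (Q i).χ e y *ᵥ (β c).1.1 :=
    ⟨fun e z => jacM (Q (I (e.symm z))).χ e (e.symm z) *ᵥ (β (C (e.symm z))).1.1,
      fun e y i c he hi h => by
        simp only [he.left_inv]
        rw [hc i (I y) y (C y) c hi (hI y) ((hC y).symm.trans h), Matrix.mulVec_mulVec,
          ← jacM_comp (hA (hI y)) (hA hi) he]⟩
  refine ⟨ξ, ⟨fun e y he => ?_, fun e e' y he he' => ?_⟩, ?_⟩
  · obtain ⟨i, k1, c, k2, k3⟩ := h1 y e he
    simp only [he.left_inv] at k1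
    have k4 : AnalyticAt ℂ (fun t => (β (c t)).1.1) (e y) :=
      ((LinearMap.toContinuousLinearMap (LinearMap.fst ℂ _ _ ∘ₗ LinearMap.fst ℂ _ _ ∘ₗ
        β.toLinearMap)).analyticAt _).comp k2
    have k5 : AnalyticAt ℂ (fun t => dfM (fun x => x) (Q i).χ e (e.symm t) *ᵥ (β (c t)).1.1)
        (e y) := analyticAt_pi_iff.2 fun a => by
      simp only [Matrix.mulVec, dotProduct]
      exact Finset.analyticAt_fun_sum _ fun b _ =>
        (hol_dfM (holM_id.at y) (hA k1) he a b e he).fun_mul (analyticAt_pi_iff.1 k4 b)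
    refine k5.congr ?_
    have k6 : Tendsto e.symm (𝓝 (e y)) (𝓝 y) := P277Z.Slc.tendsto_symm he
    filter_upwards [k3, he.nhds_target, k6.eventually (at_near he),
      k6.eventually ((hT.hb.opn i).mem_nhds k1)] with t l1 l2 l3 l4
    rw [dfM_id (hA l4) l3, ← key e _ i _ l3 l4 l1, e.right_inv l2]
  · rw [key e y _ _ he (hI y) (hC y), key e' y _ _ he' (hI y) (hC y), Matrix.mulVec_mulVec,
      ← jacM_comp (hA (hI y)) he he']
  · rw [key e x i _ he hi h2, β.apply_symm_apply, Matrix.mulVec_mulVec, jacM_mul he (hA hi),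
      Matrix.one_mulVec]

end Vale.Agent.P280Z.Tr
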