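import Vale.Agent.P280Z.Tr.Sk
import Vale.Agent.P280Z.Mp.Free
import Vale.Agent.P280Z.Mp.Bf
import Mathlib.Analysis.Calculus.Deriv.CompMul

/-!
# P280Z, block Tr: a section along a curve which vanishes at a point vanishes
-/

open scoped Manifold ContDiff Topology Matrix Matrix.Norms.Elementwise
open Set Filter
open Vale.Agent.P272.K Vale.Agent.P281Z Vale.Agent.P280Z.Mp

noncomputable section

namespace Vale.Agent.P280Z.Tr

namespace InjH

section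
variable {n : ℕ} {V : Mf n} {Ω : Type} [AddCommGroup Ω] [Module ℂ Ω] {E : HB V.X Ω}
  {T T' : Type} [NormedAddCommGroup T] [NormedSpace ℂ T] [NormedAddCommGroup T'] [NormedSpace ℂ T']

theorem ans_comp {f : T → V.X} {s : T → Ω} {φ : T' → T} {τ : T'} (h : AnS E f s (φ τ))
    (hφ : AnalyticAt ℂ φ τ) {f' : T' → V.X} (e : ∀ᶠ t in 𝓝 τ, f' t = f (φ t)) :
    AnS E f' (fun t => s (φ t)) τ := by
  obtain ⟨i, hi, c, hc, h⟩ := h
  refine ⟨i, e.self_of_nhds ▸ hi, fun t => c (φ t), hc.comp hφ, ?_⟩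
  filter_upwards [hφ.continuousAt.eventually h, e] with t h1 h2
  rw [h1, h2]

end

section
variable {W : Type} [NormedAddCommGroup W] [NormedSpace ℂ W] [CompleteSpace W]

/-- the derivative in the first variable -/
def dt (G : ℂ × Cm 2 → W) (q : ℂ × Cm 2) : W := deriv (fun t => G (t, q.2)) q.1

theorem an_dt {G : ℂ × Cm 2 → W} {q : ℂ × Cm 2} (h : AnalyticAt ℂ G q) : AnalyticAt ℂ (dt G) q := by
  refine (((ContinuousLinearMap.apply ℂ W ((1, 0) : ℂ × Cm 2)).analyticAt _).comp h.fderiv).congr ?_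
  filter_upwards [h.eventually_analyticAt] with q hq
  exact (hq.differentiableAt.hasFDerivAt.comp_hasDerivAt q.1
    ((hasDerivAt_id q.1).prodMk (hasDerivAt_const q.1 q.2))).deriv.symm

/-- operators on germs of arcs, of weight `m` -/
structure Op (D : (ℂ → W) → W) (m : ℤ) : Prop where
  cg : ∀ g g', g =ᶠ[𝓝 0] g' → D g = D g'
  sc : ∀ g (c : ℂ), D (fun t => g (c * t)) = c ^ m • D g
  an : ∀ (G : ℂ × Cm 2 → W) y, AnalyticAt ℂ G (0, y) → AnalyticAt ℂ (fun y => D fun t => G (t, y)) y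

theorem an_pr (y : Cm 2) : AnalyticAt ℂ (fun y : Cm 2 => ((0 : ℂ), y)) y :=
  analyticAt_const.prod analyticAt_id

theorem op1 : Op (fun g : ℂ → W => deriv g 0) 1 :=
  ⟨fun _ _ h => h.deriv_eq, fun g c => by rw [deriv_comp_mul_left, mul_zero, zpow_one],
    fun _ y h => (an_dt h).comp_of_eq (an_pr y) rfl⟩

theorem op2 : Op (fun g : ℂ → W => deriv (deriv g) 0) 2 :=
  ⟨fun _ _ h => h.deriv.deriv_eq, fun g c => by
      rw [show deriv (fun t => g (c * t)) = fun t => c • deriv g (c * t) from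
        funext fun _ => deriv_comp_mul_left .., deriv_fun_const_smul_field, deriv_comp_mul_left,
        mul_zero, smul_smul, zpow_two],
    fun _ y h => (an_dt (an_dt h)).comp_of_eq (an_pr y) rfl⟩

end

variable {n N r d D k ν p : ℕ} {V : Mf n} {P : Eqs r N} {pt : Cm N → V.X} {F : Fam V P pt d D k}
  {Mc : Mo ν p} {E : HB V.X (Am d N)} {Q : E.ι → ND V d N ν} {β : Cm E.r ≃ₗ[ℂ] Co n Mc}
  {a : BF d N} {s : Cm 2 → Am d N}

theorem jnt (h : TB F Mc E Q β) {T : Type} [NormedAddCommGroup T] [NormedSpace ℂ T]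
    [FiniteDimensional ℂ T] {a : T → BF d N} {z : T → Cm 2} {s : T → Am d N} {τ : T}
    (ha : AnalyticAt ℂ a τ) (hz : AnalyticAt ℂ z τ) (hM : ∀ᶠ t in 𝓝 τ, F.M (a t) ∧ z t ≠ 0)
    (hs : AnS E (fun t => pt (ev (a t) (z t))) s τ) :
    AnalyticAt ℂ (fun t => s t (a t) (z t)) τ := by
  let φ : Cm (Module.finrank ℂ T) ≃L[ℂ] T :=
    ContinuousLinearEquiv.ofFinrankEq (Module.finrank_fin_fun ℂ)
  obtain ⟨σ, rfl⟩ := φ.surjective τ
  have hφ : AnalyticAt ℂ φ σ := φ.analyticAt σ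
  have k := h.jnt _ (fun t => a (φ t)) (fun t => z (φ t)) (fun t => s (φ t)) σ (ha.comp hφ)
    (hz.comp hφ) (hφ.continuousAt.eventually hM) (ans_comp hs hφ (.of_forall fun _ => rfl))
  have k2 := k.comp_of_eq (φ.symm.analyticAt (φ σ)) (φ.symm_apply_apply σ)
  simpa only [Function.comp_def, φ.apply_symm_apply] using k2

theorem mem (h : TB F Mc E Q β) (hs : Sec E (fun y => pt (ev a y)) 0 s) {y : Cm 2} (hy : y ≠ 0) :
    s y ∈ TA F (pt (ev a y)) := by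
  obtain ⟨i, hi, c, -, e⟩ := (hs y hy).1
  rw [← h.fib, ← h.hb.rng i _ hi, e.self_of_nhds]
  exact ⟨_, rfl⟩

theorem scale {x : V.X} {S : Am d N} (hS : S ∈ TA F x) {b : BF d N} {z : Cm 2} (h : Ov F x b z)
    {c : ℂ} (hc : c ≠ 0) : S b (c • z) = S b z := by
  have k := hS.2.2.1 b z (c • z) 1 c h (smul_ne_zero hc h.2.1) (by simp) (Matrix.one_mulVec _)
  rwa [act_one, act_one] at k

theorem td (c : ℂ) : Tendsto (fun t : ℂ => c * t) (𝓝 0) (𝓝 0) :=
  (continuous_const_mul c).tendsto' 0 0 (mul_zero c)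

theorem arc_sc {y : Cm 2} {γ : ℂ → BF d N} (h : Arc F a y γ) (c : ℂ) :
    Arc F a (c • y) fun t => γ (c * t) := by
  have hc : AnalyticAt ℂ (fun t : ℂ => c * t) 0 := analyticAt_const.mul analyticAt_id
  refine ⟨h.1.comp_of_eq hc (mul_zero c), (congrArg γ (mul_zero c)).trans h.2.1, ?_⟩
  filter_upwards [(td c).eventually h.2.2] with t ht
  exact ⟨ht.1, by rw [ev_arg, ev_arg, ht.2]⟩

theorem key (hC : CRV) (hy : Hy F Mc) (h : TB F Mc E Q β) (hN : ∀ Q, NF F Mc Q → NAP F Mc Q)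
    (ha : F.M a) (hs : Sec E (fun y => pt (ev a y)) 0 s) {μ : Cm 2 →ₗ[ℂ] BF d N} (hμ : μ ∈ H1 P a)
    {O : (ℂ → BF d N) → BF d N} {m : ℤ} (hO : Op O m)
    (hw : ∀ y, y ≠ 0 → ∀ γ γ', Arc F a y γ → Arc F a y γ' → deriv γ 0 = deriv γ' 0 →
      O (fun t => s y (γ t) y) = O fun t => s y (γ' t) y) :
    ∃ Λ : Cm 2 → BF d N,
      (∀ y, y ≠ 0 → AnalyticAt ℂ Λ y ∧ ∀ c : ℂ, c ≠ 0 → Λ (c • y) = c ^ m • Λ y) ∧
      (∀ y, y ≠ 0 → ∀ γ, Arc F a y γ → deriv γ 0 = μ y → O (fun t => s y (γ t) y) = Λ y) ∧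
      ∀ y, y ≠ 0 → ∃ γ, Arc F a y γ ∧ O (fun t => s y (γ t) y) = Λ y := by
  have hc := fun (y : Cm 2) (h0 : y ≠ 0) => (h.hb.cov (pt (ev a y))).elim fun i hi =>
    hC F Mc hy (Q i) a y (h.nf i) (hN _ (h.nf i)) ha h0 ((h.dom i _).1 hi) μ hμ
  have he : ∀ y : Cm 2, ∃ γ, y ≠ 0 → Arc F a y γ ∧ deriv γ 0 = μ y := fun y => by
    by_cases h0 : y = 0
    · exact ⟨0, fun k => absurd h0 k⟩
    · obtain ⟨γ, -, -, k⟩ := hc y h0
      exact ⟨_, fun _ => k.self_of_nhds⟩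
  choose Γ hΓ using he
  have h2 : ∀ y, y ≠ 0 → ∀ γ, Arc F a y γ → deriv γ 0 = μ y →
      O (fun t => s y (γ t) y) = O fun t => s y (Γ y t) y := fun y h0 γ k e =>
    hw y h0 _ _ k (hΓ y h0).1 (e.trans (hΓ y h0).2.symm)
  refine ⟨fun y => O fun t => s y (Γ y t) y, fun y h0 => ⟨?_, fun c hc => ?_⟩, h2,
    fun y h0 => ⟨_, (hΓ y h0).1, rfl⟩⟩
  · obtain ⟨γ, k1, k2, k3⟩ := hc y h0
    have k4 : ∀ᶠ q : ℂ × Cm 2 in 𝓝 (0, y), q.2 ≠ 0 :=
      (isOpen_ne.preimage continuous_snd).mem_nhds h0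
    have k5 := jnt h (z := Prod.snd) (s := fun q => s q.2) k1 analyticAt_snd
      (k2.mp (k4.mono fun q u v => ⟨v.1, u⟩))
      (ans_comp (φ := Prod.snd) (hs y h0).1 analyticAt_snd (k2.mono fun q u => congrArg pt u.2))
    refine (hO.an _ y k5).congr ?_
    filter_upwards [k3, isOpen_ne.mem_nhds h0] with y' u v
    exact h2 y' v _ u.1 u.2
  · have k := hΓ y h0
    have k1 := arc_sc k.1 c
    refine (h2 _ (smul_ne_zero hc h0) _ k1 ?_).symm.trans ((hO.cg _ _ ?_).trans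
      (hO.sc (fun t => s y (Γ y t) y) c))
    · rw [deriv_comp_mul_left, mul_zero, k.2, map_smul]
    · filter_upwards [(td c).eventually k.1.2.2] with t ht
      rw [(hs y h0).2 c hc, zpow_zero, one_smul]
      exact scale (mem h hs h0) ⟨ht.1, h0, congrArg pt ht.2⟩ hc

theorem eu_sc (c : ℂ) (y : Cm 2) : Eu (c • y) (c • y) = c ^ (2 : ℤ) • Eu y y := by
  ext i j
  fin_cases j <;> simp [Eu, Matrix.vecMulVec_apply] <;> ring

theorem eu_ne {y : Cm 2} (h : y ≠ 0) : Eu y y ≠ 0 := fun e => h <| funext fun i => by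
  have h0 := congrFun (congrFun e 0) 1
  have h1 := congrFun (congrFun e 1) 0
  simp only [Eu, Matrix.vecMulVec_apply, Matrix.cons_val_zero, Matrix.cons_val_one,
    Matrix.zero_apply, mul_neg, neg_eq_zero, mul_self_eq_zero] at h0 h1
  fin_cases i <;> assumption

theorem eu_an (a : BF d N) (y : Cm 2) : AnalyticAt ℂ (fun y => inf a (Eu y y)) y := by
  have h : ContDiffAt ℂ ω (fun y : Cm 2 => Eu y y) y := an_mat fun i j => by
    fin_cases j <;> simp only [Eu, Matrix.vecMulVec_apply] <;> simp <;> fun_prop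
  exact ((LinearMap.toContinuousLinearMap (infL a)).analyticAt _).comp h.analyticAt

end InjH

open InjH in
/-- **INJ** -/
theorem inj_of (hL : LSOL) (hH : HOM) (hD : DIV) (hC : CRV) (hT : DTH) : INJ := by
  intro n N r d D k ν p V P pt F Mc hy E Q β h hN hJ a ha s y₀ hs hy₀ h₀
  have ov : ∀ y, y ≠ 0 → Ov F (pt (ev a y)) a y := fun y h0 => ⟨ha, h0, rfl⟩
  obtain ⟨b, hb⟩ := (hH 2 _ 0 (fun y => s y a y) le_rfl fun y h0 =>
    ⟨jnt h analyticAt_const analyticAt_id ((isOpen_ne.eventually_mem h0).mono fun _ u => ⟨ha, u⟩)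
      (hs y h0).1, fun c hc => by
        rw [(hs y h0).2 c hc, zpow_zero, one_smul, one_smul]
        exact scale (mem h hs h0) (ov y h0) hc⟩).2.1 rfl
  have J : ∀ y, y ≠ 0 → Jet F (s y) a y := fun y h0 => hJ _ a y (ov y h0) _ (mem h hs h0)
    ((hb y h0).trans ((hb y₀ hy₀).symm.trans (by rw [h₀]; rfl)))
  have vel : ∀ y, y ≠ 0 → ∀ γ, Arc F a y γ → ∃ μ ∈ H1 P a, μ y = deriv γ 0 := fun y h0 γ u => by
    obtain ⟨i, hi⟩ := h.hb.cov (pt (ev a y))
    obtain ⟨L, hL⟩ := hT F Mc hy (Q i) _ a y (h.nf i) (hN _ (h.nf i)) ((h.dom i _).1 hi) (ov y h0)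
    exact (hD P a y h0).2.1 _ (hL.kr γ u)
  have one : ∀ y, y ≠ 0 → ∀ γ, Arc F a y γ → deriv (fun t => s y (γ t) y) 0 = 0 := by
    intro y h0 γ u
    obtain ⟨μ, hμ, e⟩ := vel y h0 γ u
    obtain ⟨Λ, k1, k2, k3⟩ := key hC hy h hN ha hs hμ op1 fun y h0 γ γ' u u' e =>
      ((J y h0).one γ u).2 γ' u' e
    obtain ⟨L, hL⟩ := (hH 2 _ 1 Λ le_rfl k1).2.2.1 rfl
    have hz : L = 0 := (hD (fun i : Fin 0 => i.elim0) a y₀ hy₀).1 L (fun z =>
      ⟨fun _ => Subsingleton.elim _ _, by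
        by_cases hz : z = 0
        · rw [hz, map_zero, ev_zero]
        · obtain ⟨γ, u, e⟩ := k3 z hz
          rw [← hL z hz, ← e]
          exact ((J z hz).one γ u).1⟩) (by
      obtain ⟨γ, u, e⟩ := k3 y₀ hy₀
      rw [← hL y₀ hy₀, ← e, h₀]
      exact deriv_const _ _)
    exact (k2 y h0 γ u e.symm).trans ((hL y h0).trans (by rw [hz]; rfl))
  intro y h0
  refine (J y h0).fin fun γ u => ⟨one y h0 γ u, ?_⟩
  obtain ⟨μ, hμ, e⟩ := vel y h0 γ u
  obtain ⟨Λ, k1, k2, k3⟩ := key hC hy h hN ha hs hμ op2 fun y h0 γ γ' u u' e =>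
    ((J y h0).two (one y h0) γ u).2 γ' u' e
  obtain ⟨δ, hδ⟩ := hy.hyp
  have ne : ∀ z : Cm 2, z ≠ 0 → inf a (Eu z z) ≠ 0 := fun z hz e =>
    eu_ne hz ((free P a hδ.pos (F.cd a ha).1).1 _ e)
  have hq : ∀ z : Cm 2, ∃ q : ℂ, z ≠ 0 → Λ z = q • inf a (Eu z z) := fun z => by
    by_cases hz : z = 0
    · exact ⟨0, fun k => absurd hz k⟩
    · obtain ⟨γ, u, e⟩ := k3 z hz
      obtain ⟨q, hq⟩ := ((J z hz).two (one z hz) γ u).1
      exact ⟨q, fun _ => e.symm.trans hq⟩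
  choose q hq using hq
  obtain ⟨c, hc⟩ := (hH 2 _ 0 q le_rfl fun z hz =>
    ⟨(hL _ ℂ _ (fun z => LinearMap.toSpanSingleton ℂ _ (inf a (Eu z z))) q z
      (fun t => (eu_an a z).const_smul (c := t)) (smul_left_injective ℂ (ne z hz))).2
      ((k1 z hz).1.congr ((isOpen_ne.eventually_mem hz).mono hq)), fun c hc => by
        have k := (k1 z hz).2 c hc
        rw [hq _ (smul_ne_zero hc hz), hq z hz, eu_sc, show inf a (c ^ (2 : ℤ) • Eu z z) =
          c ^ (2 : ℤ) • inf a (Eu z z) from (infL a).map_smul _ _, smul_comm] at k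
        rw [zpow_zero, one_smul]
        exact smul_left_injective ℂ (ne z hz)
          (smul_right_injective _ (zpow_ne_zero 2 hc) k)⟩).2.1 rfl
  have hz : q y₀ = 0 := by
    obtain ⟨γ, u, e⟩ := k3 y₀ hy₀
    rw [h₀, hq y₀ hy₀] at e
    refine (smul_eq_zero.1 (e.symm.trans ?_)).resolve_right (ne y₀ hy₀)
    show deriv (deriv fun _ : ℂ => (0 : BF d N)) 0 = 0
    rw [deriv_const']
    exact deriv_const _ _
  refine (k2 y h0 γ u e.symm).trans ?_
  rw [hq y h0, hc y h0, ← hc y₀ hy₀, hz, zero_smul]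

end Vale.Agent.P280Z.Tr
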