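import Vale.Agent.P280Z.Tr.Sk
import Vale.Agent.P280Z.Mp.Bf
import Vale.Agent.P280Z.Mp.Free

/-!
# P280Z, block Tr, row JET: the jets of a field which vanishes at a curve
-/

open scoped Manifold ContDiff Topology Matrix Matrix.Norms.Elementwise
open Set Filter Asymptotics
open Vale.Agent.P272.K Vale.Agent.P281Z Vale.Agent.P280Z.Mp

noncomputable section

namespace Vale.Agent.P280Z.Tr

namespace JetH

section calculus
variable {E E' : Type} [NormedAddCommGroup E] [NormedSpace ℂ E] [NormedAddCommGroup E']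
  [NormedSpace ℂ E'] {Y : ℂ → E} {Y' : E}

theorem hd_lin (Φ : ℂ → E → E') (hs : ∀ t (c : ℂ) y, Φ t (c • y) = c • Φ t y)
    (hc : ContinuousAt (fun q : ℂ × E => Φ q.1 q.2) (0, Y')) (hY : HasDerivAt Y Y' 0)
    (h0 : Y 0 = 0) : HasDerivAt (fun t => Φ t (Y t)) (Φ 0 Y') 0 := by
  have h1 := hY.tendsto_slope_zero
  have h2 : Φ 0 0 = 0 := by simpa using hs 0 0 0
  rw [hasDerivAt_iff_tendsto_slope_zero]
  simp only [zero_add, h0, h2, sub_zero, ← hs] at h1 ⊢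
  exact hc.tendsto.comp ((tendsto_id.mono_left nhdsWithin_le_nhds).prodMk_nhds h1)

theorem hd_map [FiniteDimensional ℂ E] (f : E →ₗ[ℂ] E') (h : HasDerivAt Y Y' 0) :
    HasDerivAt (fun t => f (Y t)) (f Y') 0 :=
  f.toContinuousLinearMap.hasFDerivAt.comp_hasDerivAt 0 h

theorem d2_smul [CompleteSpace E] {φ : ℂ → ℂ} {J : ℂ → E} (hφ : AnalyticAt ℂ φ 0)
    (hJ : AnalyticAt ℂ J 0) (h0 : φ 0 = 0) (h1 : deriv φ 0 = 0) (h : Y =ᶠ[𝓝 0] fun t => φ t • J t) :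
    deriv (deriv Y) 0 = deriv (deriv φ) 0 • J 0 := by
  have h2 : deriv Y =ᶠ[𝓝 0] fun t => φ t • deriv J t + deriv φ t • J t := by
    filter_upwards [h.deriv, hφ.eventually_analyticAt, hJ.eventually_analyticAt] with t k1 k2 k3
    exact k1.trans (k2.differentiableAt.hasDerivAt.smul k3.differentiableAt.hasDerivAt).deriv
  have h3 := (hφ.differentiableAt.hasDerivAt.smul hJ.deriv.differentiableAt.hasDerivAt).add
    (hφ.deriv.differentiableAt.hasDerivAt.smul hJ.differentiableAt.hasDerivAt)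
  simp only [h0, h1, zero_smul, zero_add] at h3
  exact h2.deriv_eq.trans h3.deriv

theorem d2_comp [CompleteSpace E] {ψ : E → ℂ} (hψ : AnalyticAt ℂ ψ (Y 0)) (hY : AnalyticAt ℂ Y 0)
    (h0 : fderiv ℂ ψ (Y 0) = 0) : deriv (deriv fun t => ψ (Y t)) 0 =
      fderiv ℂ (fderiv ℂ ψ) (Y 0) (deriv Y 0) (deriv Y 0) := by
  have h2 : (deriv fun t => ψ (Y t)) =ᶠ[𝓝 0] fun t => fderiv ℂ ψ (Y t) (deriv Y t) := by
    filter_upwards [hY.continuousAt.eventually hψ.eventually_analyticAt, hY.eventually_analyticAt]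
      with t k1 k2
    exact (k1.differentiableAt.hasFDerivAt.comp_hasDerivAt t k2.differentiableAt.hasDerivAt).deriv
  have h3 := (hψ.fderiv.differentiableAt.hasFDerivAt.comp_hasDerivAt 0
    hY.differentiableAt.hasDerivAt).clm_apply hY.deriv.differentiableAt.hasDerivAt
  refine h2.deriv_eq.trans (h3.deriv.trans ?_)
  simp [h0]

theorem small {φ : ℂ → ℂ} (hφ : AnalyticAt ℂ φ 0) (h0 : φ 0 = 0) (h1 : deriv φ 0 = 0)
    (h2 : deriv (deriv φ) 0 = 0) : φ =o[𝓝 0] fun s => s ^ 2 := by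
  obtain ⟨g, k1, k2⟩ := (natCast_le_analyticOrderAt hφ (n := 3)).1
    ((natCast_le_analyticOrderAt_iff_iteratedDeriv_eq_zero hφ).2 fun i hi => by
      interval_cases i <;> simp [iteratedDeriv_succ, h0, h1, h2])
  refine IsLittleO.congr' ((isLittleO_pow_pow (𝕜 := ℂ) (by norm_num : 2 < 3)).mul_isBigO
    (k1.continuousAt.isBigO_one ℂ)) (k2.mono fun s k => ?_) (.of_forall fun s => mul_one _)
  simp [k]

end calculus

variable {d N r ν p : ℕ} {a b b' : BF d N} {g g' : M2} {z : Cm 2}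

theorem e0_ne : e0 ≠ 0 := fun h => by simpa [e0] using congrFun h 0

theorem act_left (c : ℂ) (b : BF d N) (g : M2) : act (c • b) g = c • act b g :=
  ev_inj fun z => by rw [ev_act, ev_smul, ev_smul, ev_act]

theorem hd_act {Y : ℂ → BF d N} {g : ℂ → M2} (hg : ContinuousAt g 0) (hY : HasDerivAt Y b 0)
    (h0 : Y 0 = 0) : HasDerivAt (fun t => act (Y t) (g t)) (act b (g 0)) 0 :=
  hd_lin (fun t y => act y (g t)) (fun _ c y => act_left c y _)
    (ContinuousAt.comp (g := fun q : BF d N × M2 => act q.1 q.2)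
      (f := fun q : ℂ × BF d N => (q.2, g q.1)) an_act.continuous.continuousAt
      (continuousAt_snd.prodMk (hg.comp_of_eq continuousAt_fst rfl))) hY h0

theorem act_inj (hg : g.det ≠ 0) (h : act b g = act b' g) : b = b' := by
  rw [← act_one b, ← act_one b', ← g.mul_nonsing_inv hg.isUnit, ← act_act, ← act_act, h]

theorem act_uniq {P : Eqs r N} (hd : 0 < d) (hL : Low P d) (ha : Crv P a) (hg : g'.det ≠ 0)
    (h : act a g = act a g') (b : BF d N) : act b g = act b g' := by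
  obtain ⟨c, h1, h2⟩ := (free P a hd ha).2 hL (g * g'⁻¹)
    (by rw [← act_act, h, act_act, g'.mul_nonsing_inv hg.isUnit, act_one])
  rw [← g'.nonsing_inv_mul_cancel_right g hg.isUnit, h2, Matrix.smul_mul, Matrix.one_mul, act_smul,
    h1, one_smul]

theorem act_inf {c : ℂ} (h1 : c ≠ 0) (h2 : g.det = c ^ 2) (h3 : g *ᵥ e0 = c • z) :
    act (inf a (Eu z z)) g = inf (act a g) E01 := ev_inj fun y => by
  have h4 := congrArg (· (E01 *ᵥ y)) (((an_ev2 a).differentiable (by simp) (g *ᵥ y)).hasFDerivAt.comp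
    y (g.mulVecLin.toContinuousLinearMap.hasFDerivAt (x := y))).fderiv
  rw [ev_act, ev_inf, ev_inf, show ev (act a g) = _ from funext (ev_act a g)]
  refine Eq.trans (congrArg _ ?_) h4.symm
  have a0 := congrFun h3 0
  have a1 := congrFun h3 1
  rw [Matrix.det_fin_two] at h2
  simp [e0] at a0 a1
  have h5 : z 0 * g 1 1 - z 1 * g 0 1 = c := mul_left_cancel₀ h1 (by
    linear_combination h2 - g 1 1 * a0 + g 0 1 * a1)
  funext i
  fin_cases i <;>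
    simp [Eu, E01, Matrix.mulVec, dotProduct, Fin.sum_univ_two, Matrix.vecMulVec_apply, a0, a1]
  · linear_combination z 0 * y 1 * h5
  · linear_combination z 1 * y 1 * h5

/-- the infinitesimal substitution is linear in the form -/
def infA (d N : ℕ) (ξ : M2) : BF d N →ₗ[ℂ] BF d N where
  toFun a := inf a ξ
  map_add' a b := ev_inj fun z => by
    rw [ev_add, ev_inf, ev_inf, ev_inf, show ev (a + b) = _ from funext (ev_add a b), fderiv_fun_add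
      ((an_ev2 a).differentiable (by simp) z) ((an_ev2 b).differentiable (by simp) z), add_apply]
  map_smul' c a := ev_inj fun z => by
    rw [RingHom.id_apply, ev_smul, ev_inf, ev_inf, show ev (c • a) = _ from funext (ev_smul c a),
      fderiv_fun_const_smul ((an_ev2 a).differentiable (by simp) z), smul_apply]

theorem an_inf {γ : ℂ → BF d N} (h : AnalyticAt ℂ γ 0) (ξ : M2) :
    AnalyticAt ℂ (fun t => inf (γ t) ξ) 0 :=
  ((infA d N ξ).toContinuousLinearMap.analyticAt _).comp h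

theorem eu_ne (hz : z ≠ 0) : Eu z z ≠ 0 := fun h => hz (funext fun i => by
  have a0 := congrFun₂ h 0 1
  have a1 := congrFun₂ h 1 0
  simp [Eu, Matrix.vecMulVec_apply] at a0 a1
  fin_cases i <;> assumption)

/-- the scalar product with `α` -/
def dL (α : Cm ν) : Cm ν →ₗ[ℂ] ℂ := ⟨⟨fun v => α ⬝ᵥ v, dotProduct_add α⟩, fun c v => dotProduct_smul c α v⟩

theorem tc_of {M : Mo ν p} (hS : M.Sm) (hC : CAP M) {η : Matrix (Fin ν) (Fin ν) ℂ} (hη : η ∈ M.g0)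
    {v w : Cm ν} (hv : v ∈ M.C) (h0 : η *ᵥ v = 0) (hw : w ∈ M.TC v) : η *ᵥ w ∈ M.TC v := by
  obtain ⟨γ, h1, rfl, rfl, h2⟩ := hC.ex v hv w hw
  have h3 := hC.ret _ hv
  have h4 : M.ρ (γ 0) (γ 0) = 0 := by
    simpa only [(hS.anκ _ hv).2] using ((hS.ρκ _ hv).self_of_nhds).2
  have h5 := hd_map η.mulVecLin h1.differentiableAt.hasDerivAt
  have h6 := hd_lin (fun t y => fderiv ℂ (M.κ (γ 0)) (M.ρ (γ 0) (γ t)) (fderiv ℂ (M.ρ (γ 0)) (γ t) y))
    (fun t c y => by rw [map_smul, map_smul])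
    (ContinuousAt.clm_apply (ContinuousAt.comp_of_eq (hS.anκ _ hv).1.fderiv.continuousAt
      ((hS.anρ _ hv).continuousAt.comp_of_eq (h1.continuousAt.comp_of_eq continuousAt_fst rfl) rfl) h4)
      (((hS.anρ _ hv).fderiv.continuousAt.comp_of_eq
        (h1.continuousAt.comp_of_eq continuousAt_fst rfl) rfl).clm_apply continuousAt_snd)) h5 h0
  rw [show η *ᵥ deriv γ 0 = _ from h5.unique (h6.congr_of_eventuallyEq (by
    filter_upwards [h1.continuousAt.eventually h3, h2] with t k1 k2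
      using ((k1 k2).2.1 _ (hη _ k2)).symm))]
  exact (h3.self_of_nhds hv).2.2.1 _

end JetH

open JetH in
/-- **row JET** -/
theorem jet : JET := fun {n N r d D k ν p V P pt} F Mc H hO Q x a z L hN hA hS hx ho hL S hT h0 => by
  obtain ⟨δ, hy⟩ := H.hyp
  have ex : Q.χ.symm (Q.χ x) = x := Q.χ.left_inv hx.1
  have hm : ∀ a', Ov F x a' z → Q.θ a' z ∈ Mc.C := fun a' h =>
    hN.θ_mem _ hx.2 a' z (ex.symm ▸ h)
  have hv := hm a ho
  obtain ⟨w, t, η, hη, α, hs⟩ := hS.span _ hx.2 S (ex.symm ▸ hT)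
  have eqv : ∀ a' (g : M2) (c : ℂ), Ov F x a' z → c ≠ 0 → g.det = c ^ 2 → g *ᵥ e0 = c • z →
      act a' g = Q.A (Q.χ x) (Q.θ a' z) →
      act (S a' z) g = Q.fr Mc (Q.χ x) w t η α (Q.θ a' z) := fun a' g c k1 k2 k3 k4 k5 => by
    rw [← hs _ (hm a' k1), ← k5, hT.2.2.1 a' z e0 g c k1 e0_ne (k3 ▸ pow_ne_zero 2 k2) k4]
  obtain ⟨g₀, c₀, n1, n2, n3, n4⟩ := hA.nrm _ hx.2 a z (ex.symm ▸ ho)
  have n5 : g₀.det ≠ 0 := n2 ▸ pow_ne_zero 2 n1
  have f0 : Q.fr Mc (Q.χ x) w t η α (Q.θ a z) = 0 := by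
    rw [← eqv a g₀ c₀ ho n1 n2 n3 n4, h0]
    simpa using act_left 0 (0 : BF d N) g₀
  obtain ⟨rfl, rfl⟩ := hN.lam_ind _ hx.2 w t
    (by rw [← hS.val _ hx.2 w t η hη α _ hv, f0, ev_zero])
  obtain ⟨z1, z2⟩ := hN.ind _ hx.2 _ hv _ (hη _ hv) (α ⬝ᵥ Q.θ a z) (by simpa [ND.fr] using f0)
  obtain ⟨Lc, l1, l2⟩ := hA.loc _ hx.2 _ hv
  have arc : ∀ γ, Arc F a z γ → AnalyticAt ℂ (fun t => S (γ t) z) 0 ∧
      (∀ᶠ t in 𝓝 (0 : ℂ), Q.θ (γ t) z ∈ Mc.C ∧ ev (S (γ t) z) z = 0 ∧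
        (η = 0 → S (γ t) z = (α ⬝ᵥ Q.θ (γ t) z) • inf (γ t) (Eu z z))) ∧
      act (deriv (fun t => S (γ t) z) 0) g₀ = Lc (Q.χ x, Q.θ a z) (0, η *ᵥ L (deriv γ 0)) +
        (α ⬝ᵥ L (deriv γ 0)) • inf (Q.A (Q.χ x) (Q.θ a z)) E01 := fun γ hγ => by
    obtain ⟨t1, t2⟩ := hL.der γ hγ
    obtain ⟨k1, rfl, k2⟩ := hγ
    have k3 : ∀ᶠ t in 𝓝 (0 : ℂ), Ov F x (γ t) z := k2.mono fun t k => ⟨k.1, ho.2.1, k.2 ▸ ho.2.2⟩
    have p0 : AnalyticAt ℂ (fun s : Cm 1 => s 0) 0 :=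
      (ContinuousLinearMap.proj (R := ℂ) (φ := fun _ : Fin 1 => ℂ) 0).analyticAt _
    have k4 : AnalyticAt ℂ (fun t => S (γ t) z) 0 :=
      (hT.2.2.2 1 (fun s => γ (s 0)) (fun _ => z) 0 (k1.comp_of_eq p0 rfl) analyticAt_const
        (p0.continuousAt.eventually k3)).comp_of_eq (f := fun (t : ℂ) (_ : Fin 1) => t)
        (AnalyticAt.pi fun _ => analyticAt_id) rfl
    obtain ⟨-, -, g, c, g1, -, g2⟩ := hA.fam ℂ γ (fun _ => z) 0 k1 analyticAt_const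
      (k2.mono fun _ k => k.1) ho.2.1 (ho.2.2.symm ▸ hx)
    have k5 : ∀ᶠ t in 𝓝 (0 : ℂ), Ov F x (γ t) z ∧ c t ≠ 0 ∧ (g t).det = c t ^ 2 ∧
        g t *ᵥ e0 = c t • z ∧ act (γ t) (g t) = Q.A (Q.χ x) (Q.θ (γ t) z) :=
      (k3.and g2).mono fun t k => ⟨k.1, k.2.2.1, k.2.2.2.1, k.2.2.2.2.1, k.1.2.2 ▸ k.2.2.2.2.2⟩
    refine ⟨k4, k5.mono fun t ⟨m1, m2, m3, m4, m5⟩ => ⟨hm _ m1, ?_, fun e => ?_⟩, ?_⟩
    · have m6 := hS.val _ hx.2 0 0 η hη α _ (hm _ m1)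
      rw [← eqv _ _ _ m1 m2 m3 m4 m5, ev_act, m4, ev_arg, map_zero, zero_smul, add_zero] at m6
      exact (smul_eq_zero.1 m6).resolve_left (pow_ne_zero _ m2)
    · refine act_inj (m3 ▸ pow_ne_zero 2 m2) ?_
      rw [eqv _ _ _ m1 m2 m3 m4 m5, act_left, act_inf m2 m3 m4, m5, e]
      simp [ND.fr, Prod.mk_zero_zero]
    · have m1 := hd_act g1.continuousAt k4.differentiableAt.hasDerivAt h0
      have m2 := t2 ▸ t1.differentiableAt.hasDerivAt
      have m3 := (hA.arc (fun _ => Q.χ x) _ analyticAt_const t1 hx.2 (k3.mono fun _ => hm _)).1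
      have m4 := hd_lin (fun t (q : Cm ν × ℂ) => Lc (Q.χ x, Q.θ (γ t) z) (0, q.1) +
          q.2 • inf (Q.A (Q.χ x) (Q.θ (γ t) z)) E01)
        (fun t c q => by rw [smul_add, smul_smul, ← map_smul]; simp)
        (((l1.continuousAt.comp_of_eq (continuousAt_const.prodMk
          (t1.continuousAt.comp_of_eq continuousAt_fst rfl)) rfl).clm_apply
          (continuousAt_const.prodMk continuousAt_snd.fst)).add (continuousAt_snd.snd.smul
            ((an_inf m3 E01).continuousAt.comp_of_eq continuousAt_fst rfl)))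
        ((hd_map η.mulVecLin m2).prodMk (hd_map (dL α) m2)) (Prod.ext z1 z2)
      rw [← act_uniq hy.pos hy.low (F.cd _ ho.1).1 n5 (k5.self_of_nhds.2.2.2.2.trans n4.symm)]
      refine m1.unique (m4.congr_of_eventuallyEq ?_)
      filter_upwards [k5, (continuousAt_const.prodMk t1.continuousAt).eventually l2]
        with t ⟨u1, u2, u3, u4, u5⟩ u6
      rw [eqv _ _ _ u1 u2 u3 u4 u5, ND.fr, u6 (hm _ u1) 0 _ (hη _ (hm _ u1)), zero_smul, add_zero]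
      rfl
  have kill : (∀ γ, Arc F a z γ → deriv (fun t => S (γ t) z) 0 = 0) →
      η = 0 ∧ ∀ w ∈ Mc.TC (Q.θ a z), α ⬝ᵥ w = 0 := fun h => by
    have k : ∀ w ∈ Mc.TC (Q.θ a z), η *ᵥ w = 0 ∧ α ⬝ᵥ w = 0 := fun w hw => by
      obtain ⟨c, c1, c2, rfl, c3⟩ := H.cap.ex _ hv w hw
      obtain ⟨γ, hγ, c4⟩ := hL.onto c c1 c2 c3
      have c5 := (arc γ hγ).2.2
      have c6 := tc_of H.sm H.cap hη hv z1 hw
      rw [h γ hγ, ← (hL.der γ hγ).2, EventuallyEq.deriv_eq c4,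
        ← l2.self_of_nhds hv 0 _ c6] at c5
      exact hN.ind _ hx.2 _ hv _ c6 _ (c5.symm.trans (by simpa using act_left 0 (0 : BF d N) g₀))
    exact ⟨H.sm.rig _ hv η hη fun w hw => (k w hw).1, fun w hw => (k w hw).2⟩
  have sec : (∀ γ, Arc F a z γ → deriv (fun t => S (γ t) z) 0 = 0) → ∀ γ, Arc F a z γ →
      AnalyticAt ℂ (fun t => α ⬝ᵥ Q.θ (γ t) z) 0 ∧ deriv (fun t => α ⬝ᵥ Q.θ (γ t) z) 0 = 0 ∧
      deriv (deriv fun t => S (γ t) z) 0 =
        deriv (deriv fun t => α ⬝ᵥ Q.θ (γ t) z) 0 • inf a (Eu z z) := fun h γ hγ => by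
    obtain ⟨t1, t2⟩ := hL.der γ hγ
    have k1 : AnalyticAt ℂ (fun t => α ⬝ᵥ Q.θ (γ t) z) 0 :=
      ((dL α).toContinuousLinearMap.analyticAt _).comp t1
    have k2 : deriv (fun t => α ⬝ᵥ Q.θ (γ t) z) 0 = 0 :=
      (hd_map (dL α) (t2 ▸ t1.differentiableAt.hasDerivAt)).deriv.trans
        ((kill h).2 _ (hL.mem _ (hL.kr γ hγ)))
    exact ⟨k1, k2, hγ.2.1 ▸ d2_smul k1 (an_inf hγ.1 _) (hγ.2.1 ▸ z2) k2
      ((arc γ hγ).2.1.mono fun t k => k.2.2 (kill h).1)⟩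
  refine ⟨fun γ hγ => ⟨?_, fun γ' hγ' e => act_inj n5 ?_⟩,
    fun h γ hγ => ⟨⟨_, (sec h γ hγ).2.2⟩, fun γ' hγ' e => ?_⟩, fun h => ?_⟩
  · exact (hd_map (evL d N z).toLinearMap (arc γ hγ).1.differentiableAt.hasDerivAt).unique
      ((hasDerivAt_const (0 : ℂ) (0 : Cm N)).congr_of_eventuallyEq
        ((arc γ hγ).2.1.mono fun t k => k.2.1))
  · rw [(arc γ hγ).2.2, (arc γ' hγ').2.2, e]
  · have h4 : Mc.ρ (Q.θ a z) (Q.θ a z) = 0 := by
      simpa only [(H.sm.anκ _ hv).2] using ((H.sm.ρκ _ hv).self_of_nhds).2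
    have h5 := (H.sm.anκ _ hv).1.comp_of_eq (H.sm.anρ _ hv) h4
    have h6 := ((dL α).toContinuousLinearMap.analyticAt _).comp h5
    have h7 : fderiv ℂ ((dL α).toContinuousLinearMap ∘ Mc.κ (Q.θ a z) ∘ Mc.ρ (Q.θ a z))
        (Q.θ a z) = 0 := by
      rw [((dL α).toContinuousLinearMap.hasFDerivAt.comp _
        ((h4 ▸ (H.sm.anκ _ hv).1.differentiableAt.hasFDerivAt).comp _
          (H.sm.anρ _ hv).differentiableAt.hasFDerivAt)).fderiv]
      rw [h4]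
      exact ContinuousLinearMap.ext fun u => (kill h).2 _ ((H.sm.tan _ hv _).2 ⟨_, rfl⟩)
    have key : ∀ γ, Arc F a z γ → deriv (deriv fun t => α ⬝ᵥ Q.θ (γ t) z) 0 =
        fderiv ℂ (fderiv ℂ ((dL α).toContinuousLinearMap ∘ Mc.κ (Q.θ a z) ∘ Mc.ρ (Q.θ a z)))
          (Q.θ a z) (L (deriv γ 0)) (L (deriv γ 0)) := fun γ hγ => by
      obtain ⟨t1, t2⟩ := hL.der γ hγ
      have t3 : Q.θ (γ 0) z = Q.θ a z := by rw [hγ.2.1]
      have t4 := d2_comp (Y := fun t => Q.θ (γ t) z) (t3 ▸ h6) t1 (t3 ▸ h7)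
      rw [t2, t3] at t4
      refine Eq.trans (EventuallyEq.deriv_eq (EventuallyEq.deriv ?_)) t4
      filter_upwards [(arc γ hγ).2.1, Tendsto.eventually (t3 ▸ t1.continuousAt.tendsto)
        (H.sm.κρ _ hv)] with t u1 u2
      exact congrArg (α ⬝ᵥ ·) (u2 u1.1).symm
    rw [(sec h γ hγ).2.2, (sec h γ' hγ').2.2, key γ hγ, key γ' hγ', e]
  · have h1 := fun γ hγ => (h γ hγ).1
    obtain rfl := hO _ hv α fun c c1 c2 c3 => by
      obtain ⟨γ, hγ, c4⟩ := hL.onto c c1 c2 c3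
      obtain ⟨k1, k2, k3⟩ := sec h1 γ hγ
      rw [(h γ hγ).2] at k3
      exact (small k1 (hγ.2.1 ▸ z2) k2 ((smul_eq_zero.1 k3.symm).resolve_right fun e => eu_ne ho.2.1
        ((free P a hy.pos (F.cd _ ho.1).1).1 _ e))).congr' (c4.mono fun t k => congrArg (α ⬝ᵥ ·) k) .rfl
    refine hS.ext _ hx.2 S (ex.symm ▸ hT) fun v hv' => ?_
    rw [hs v hv', (kill h1).1]
    simp [ND.fr, Prod.mk_zero_zero]

end Vale.Agent.P280Z.Tr
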