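import Vale.Agent.P280Z.Tr.Sk
import Vale.Agent.P280Z.Mp.Bf
import Vale.Agent.P280Z.Mp.Tub
import Vale.Agent.P281Z.Mf.Adj

/-!
# P280Z, block Tr, rows LAM and LCH: local lifts to the cone
-/

open scoped Manifold ContDiff Topology Matrix Matrix.Norms.Elementwise
open Set Filter
open Vale.Agent.P272.K Vale.Agent.P281Z Vale.Agent.P280Z.Mp
open Vale.Agent.P277Z (trans_an)

noncomputable section

namespace Vale.Agent.P280Z.Tr

namespace La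

variable {n N r δ : ℕ} {V : Mf n} {P : Eqs r N} {pt : Cm N → V.X} {χ : Chart n V.X} {ξ : Cm n}

theorem crd (h : Cone V P δ pt) (ha : χ ∈ atlas (Cm n) V.X) (hξ : ξ ∈ χ.target) {y : Cm N}
    (hy : In P y) (e : pt y = χ.symm ξ) : At χ (pt y) ∧ ∃ ρ : Cm N → Cm n, AnalyticAt ℂ ρ y ∧
      ∀ᶠ y' in 𝓝 y, In P y' → pt y' ∈ χ.source ∧ χ (pt y') = ρ y' := by
  have h1 : At χ (pt y) := ⟨ha, e ▸ χ.map_target hξ⟩
  obtain ⟨ρ, -, a1, -, -, a4, -⟩ := h.loc y hy χ h1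
  exact ⟨h1, ρ, a1, a4⟩

theorem rad (hP : Hom P δ) {y : Cm N} (hy : In P y) : Jm P y *ᵥ y = 0 := by
  funext k
  have h1 := congrArg (MvPolynomial.eval y) (hP k).sum_X_mul_pderiv
  simp only [map_sum, map_mul, MvPolynomial.eval_X, map_nsmul,
    show MvPolynomial.eval y (P k) = 0 from congrFun hy.2 k, smul_zero] at h1
  exact (Finset.sum_congr rfl fun j _ => mul_comm _ _).trans h1

theorem tan (h : Cone V P δ pt) (ha : χ ∈ atlas (Cm n) V.X) (hξ : ξ ∈ χ.target)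
    {lam : Cm n → Cm N} (h1 : AnalyticAt ℂ lam ξ)
    (h2 : ∀ᶠ ξ' in 𝓝 ξ, In P (lam ξ') ∧ pt (lam ξ') = χ.symm ξ') :
    (∀ w, Jm P (lam ξ) *ᵥ w = 0 ↔ ∃ (u : Cm n) (c : ℂ), w = fderiv ℂ lam ξ u + c • lam ξ) ∧
      ∀ (u : Cm n) (c : ℂ), fderiv ℂ lam ξ u + c • lam ξ = 0 → u = 0 ∧ c = 0 := by
  obtain ⟨k1, k2⟩ := h2.self_of_nhds
  obtain ⟨a0, ρ, a1, a2⟩ := crd h ha hξ k1 k2
  obtain ⟨b1, -, b3⟩ := (tub V P pt h _ k1).2 χ ρ a0 a1 (a2.mono fun y k k' => (k k').2)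
  have c1 : ∀ u, fderiv ℂ ρ (lam ξ) (fderiv ℂ lam ξ u) = u := fun u => by
    have d1 : ρ ∘ lam =ᶠ[𝓝 ξ] id := by
      filter_upwards [h2, h1.continuousAt.eventually a2, χ.open_target.mem_nhds hξ] with z j1 j2 j3
      exact (j2 j1.1).2.symm.trans (by rw [j1.2, χ.right_inv j3, id])
    have d2 := d1.fderiv_eq (𝕜 := ℂ)
    rw [fderiv_comp ξ a1.differentiableAt h1.differentiableAt, fderiv_id] at d2
    exact congrArg (fun L : Cm n →L[ℂ] Cm n => L u) d2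
  have c2 : ∀ u, Jm P (lam ξ) *ᵥ fderiv ℂ lam ξ u = 0 := fun u => by
    rw [← fd_Pv' P h1.differentiableAt, EventuallyEq.fderiv_eq (f := fun _ => 0)
      (h2.mono fun z j => j.1.2)]
    simp
  refine ⟨fun w => ⟨fun hw => ?_, ?_⟩, fun u c e => ?_⟩
  · obtain ⟨c, hc⟩ := b3 (w - fderiv ℂ lam ξ (fderiv ℂ ρ (lam ξ) w))
      (by rw [Matrix.mulVec_sub, hw, c2, sub_zero]) (by rw [map_sub, c1, sub_self])
    exact ⟨_, c, sub_eq_iff_eq_add'.1 hc⟩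
  · rintro ⟨u, c, rfl⟩
    rw [Matrix.mulVec_add, Matrix.mulVec_smul, c2, rad h.hom k1, smul_zero, add_zero]
  · have d1 := congrArg (fderiv ℂ ρ (lam ξ)) e
    rw [map_add, map_smul, c1, b1, smul_zero, add_zero, map_zero] at d1
    rw [d1, map_zero, zero_add] at e
    exact ⟨d1, (smul_eq_zero.1 e).resolve_right k1.1⟩

end La

theorem lam : LAM := by
  intro n N r δ V P pt h x O hO hx
  obtain ⟨y, hy, rfl⟩ := h.onto x
  have hχ : At (chartAt (Cm n) (pt y)) (pt y) := ⟨chart_mem_atlas _ _, mem_chart_source _ _⟩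
  generalize chartAt (Cm n) (pt y) = χ at hχ
  obtain ⟨-, l, -, a2, a3, -, a5⟩ := h.loc y hy χ hχ
  obtain ⟨i, hi⟩ := Function.ne_iff.1 hy.1
  have ev : ∀ᶠ ξ in 𝓝 (χ (pt y)), ξ ∈ χ.target ∧ AnalyticAt ℂ l ξ ∧ l ξ i ≠ 0 ∧ χ.symm ξ ∈ O ∧
      ∀ᶠ ξ' in 𝓝 ξ, In P (l ξ') ∧ pt (l ξ') = χ.symm ξ' :=
    (χ.open_target.eventually_mem (χ.map_source hχ.2)).and (a2.eventually_analyticAt.and
      ((((continuous_apply i).continuousAt.comp a2.continuousAt).eventually_ne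
        (y := 0) (by rwa [Function.comp_apply, a3])).and
        (((χ.tendsto_symm hχ.2).eventually (hO.mem_nhds hx)).and a5.eventually_nhds)))
  obtain ⟨B, h1, h2, h3⟩ := eventually_nhds_iff.1 ev
  refine ⟨χ, B, l, LinearMap.proj i, ⟨hχ.1, h2, fun ξ k => (h1 ξ k).1, fun ξ k => (h1 ξ k).2.1,
    fun ξ k => (h1 ξ k).2.2.2.2.self_of_nhds,
    fun ξ k => (La.tan h hχ.1 (h1 ξ k).1 (h1 ξ k).2.1 (h1 ξ k).2.2.2.2).1,
    fun ξ k => (La.tan h hχ.1 (h1 ξ k).1 (h1 ξ k).2.1 (h1 ξ k).2.2.2.2).2,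
    fun ξ k => (h1 ξ k).2.2.1, fun ξ k z k1 k2 => ?_⟩, hχ.2, h3, fun ξ k => (h1 ξ k).2.2.2.1⟩
  obtain ⟨-, ρ, b1, b2⟩ := La.crd h hχ.1 (h1 ξ k).1 k1 k2
  exact ⟨ρ, b1, by rw [← (b2.self_of_nhds k1).2, k2, χ.right_inv (h1 ξ k).1],
    b2.mono fun w j j' => by rw [← (j j').2, χ.left_inv (j j').1]⟩

theorem lch : LCH := by
  intro n N r d D k ν p V P pt F Mc hy Q Q' x h h' hx hx'
  obtain ⟨δ, hδ⟩ := hy.hyp
  have a : At Q.χ x := ⟨h.atl, hx.1⟩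
  have a' : At Q'.χ x := ⟨h'.atl, hx'.1⟩
  have hT := trans_an a' a
  have e0 : Q'.χ (Q.χ.symm (Q.χ x)) = Q'.χ x := by rw [Q.χ.left_inv hx.1]
  have l1 := h.lam_an _ hx.2
  have l2 : AnalyticAt ℂ Q'.lam (Q'.χ (Q.χ.symm (Q.χ x))) := e0 ▸ h'.lam_an _ hx'.2
  have l3 := AnalyticAt.fun_comp (f := fun z => Q'.χ (Q.χ.symm z)) l2 hT
  obtain ⟨i, hi⟩ := Function.ne_iff.1 (h.lam_in _ hx.2).1.1
  have l4 := analyticAt_pi_iff.1 l1 i
  have hm := ((analyticAt_pi_iff.1 l3 i).fun_div l4 hi).differentiableAt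
  generalize hm' : (fun z => Q'.lam (Q'.χ (Q.χ.symm z)) i / Q.lam z i) = m at hm
  have ev : (fun z => Q'.lam (Q'.χ (Q.χ.symm z))) =ᶠ[𝓝 (Q.χ x)] fun z => m z • Q.lam z := by
    filter_upwards [h.opn.mem_nhds hx.2,
      hT.continuousAt.eventually (h'.opn.mem_nhds (mem_of_eq_of_mem e0 hx'.2)),
      (Q.χ.tendsto_symm hx.1).eventually (Q'.χ.open_source.mem_nhds hx'.1),
      l4.continuousAt.eventually_ne hi] with z k1 k2 k3 k4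
    obtain ⟨c, hc⟩ := hδ.cone.inj _ _ (h.lam_in _ k1).1 (h'.lam_in _ k2).1 (by
      rw [(h.lam_in _ k1).2, (h'.lam_in _ k2).2, Q'.χ.left_inv k3])
    rw [← hm']
    simp only [hc, Pi.smul_apply, smul_eq_mul, mul_div_cancel_right₀ c k4]
  have e1 : Q'.lam (Q'.χ x) = m (Q.χ x) • Q.lam (Q.χ x) := e0 ▸ ev.self_of_nhds
  have h0 : m (Q.χ x) ≠ 0 := fun e => (h'.lam_in _ hx'.2).1.1 (by rw [e1, e, zero_smul])
  refine ⟨m (Q.χ x), (m (Q.χ x))⁻¹ • (fderiv ℂ m (Q.χ x) : Cm n →ₗ[ℂ] ℂ), h0, e1, fun u => ?_⟩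
  have e2 := congrArg (fun L : Cm n →L[ℂ] Cm N => L u) ev.fderiv_eq
  rw [fderiv_fun_comp (f := fun z => Q'.χ (Q.χ.symm z)) _ l2.differentiableAt hT.differentiableAt,
    fderiv_fun_smul hm l1.differentiableAt, e0] at e2
  rw [← dfM_id a a', dfM_mulVec, e1, smul_smul, LinearMap.smul_apply, smul_eq_mul, mul_comm,
    mul_inv_cancel_left₀ h0]
  exact e2

end Vale.Agent.P280Z.Tr
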