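import Vale.Agent.P280Z.Tr.Sk
import Vale.Agent.P280Z.Mp.Bf

/-!
# P280Z, block Tr: the differential of a normal form
-/

open scoped Manifold ContDiff Topology Matrix Matrix.Norms.Elementwise
open Set Filter
open Vale.Agent.P272.K Vale.Agent.P281Z Vale.Agent.P280Z.Mp

noncomputable section

namespace Vale.Agent.P280Z.Tr

namespace Nap

section gen

variable {T W : Type} [NormedAddCommGroup T] [NormedSpace ℂ T] [NormedAddCommGroup W]
  [NormedSpace ℂ W] {l : ℕ} (e : Cm l ≃L[ℂ] T) {τ : T}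

theorem ex_cm (T : Type) [NormedAddCommGroup T] [NormedSpace ℂ T] [FiniteDimensional ℂ T] :
    ∃ l, Nonempty (Cm l ≃L[ℂ] T) :=
  ⟨Module.finrank ℂ T, ⟨.ofFinrankEq (Module.finrank_fin_fun ℂ)⟩⟩

theorem an_to {f : T → W} (h : AnalyticAt ℂ f τ) : AnalyticAt ℂ (fun s => f (e s)) (e.symm τ) :=
  h.comp_of_eq (e.analyticAt _) (e.apply_symm_apply τ)

theorem an_of {f : Cm l → W} (h : AnalyticAt ℂ f (e.symm τ)) :
    AnalyticAt ℂ (fun s => f (e.symm s)) τ := h.comp (e.symm.analyticAt _)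

theorem ev_to {R : T → Prop} (h : ∀ᶠ s in 𝓝 τ, R s) : ∀ᶠ s in 𝓝 (e.symm τ), R (e s) :=
  (e.continuous.tendsto' _ _ (e.apply_symm_apply τ)).eventually h

end gen

variable {n N r d D k ν p : ℕ} {V : Mf n} {P : Eqs r N} {pt : Cm N → V.X} {F : Fam V P pt d D k}
  {Mc : Mo ν p} {Q : ND V d N ν} {ξ u : Cm n} {v v' w : Cm ν}

theorem A_an (h : NF0 F Mc Q) {T : Type} [NormedAddCommGroup T] [NormedSpace ℂ T]
    [FiniteDimensional ℂ T] {x : T → Cm n} {γ : T → Cm ν} {τ : T} (hx : AnalyticAt ℂ x τ)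
    (hγ : AnalyticAt ℂ γ τ) (hB : x τ ∈ Q.B) (hC : ∀ᶠ s in 𝓝 τ, γ s ∈ Mc.C) :
    AnalyticAt ℂ (fun s => Q.A (x s) (γ s)) τ := by
  obtain ⟨l, ⟨e⟩⟩ := ex_cm T
  simpa using an_of e (h.A_an l _ _ _ (an_to e hx) (an_to e hγ) (by simpa using hB) (ev_to e hC))

/-- the chart at `v` is valid at `v'` -/
structure Nr (Mc : Mo ν p) (v v' : Cm ν) : Prop where
  ρ : AnalyticAt ℂ (Mc.ρ v) v'
  κ : AnalyticAt ℂ (Mc.κ v) (Mc.ρ v v')
  mem : ∀ᶠ s in 𝓝 (Mc.ρ v v'), Mc.κ v s ∈ Mc.C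
  inv : ∀ᶠ w in 𝓝 v', w ∈ Mc.C → Mc.κ v (Mc.ρ v w) = w

theorem nr (hS : Mc.Sm) (hv : v ∈ Mc.C) : ∀ᶠ v' in 𝓝 v, Nr Mc v v' := by
  have h1 := (hS.ρκ v hv).self_of_nhds.2
  rw [(hS.anκ v hv).2] at h1
  have h2 : Tendsto (Mc.ρ v) (𝓝 v) (𝓝 0) := h1 ▸ (hS.anρ v hv).continuousAt
  filter_upwards [(hS.anρ v hv).eventually_analyticAt,
    h2.eventually (hS.anκ v hv).1.eventually_analyticAt,
    h2.eventually (hS.ρκ v hv).eventually_nhds, (hS.κρ v hv).eventually_nhds] with y a b c e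
  exact ⟨a, b, c.mono fun _ h => h.1, e⟩

theorem G_an (h : NF0 F Mc Q) (hn : Nr Mc v v') (hξ : ξ ∈ Q.B) :
    AnalyticAt ℂ (fun q : Cm n × Cm ν => Q.A q.1 (Mc.κ v (Mc.ρ v q.2))) (ξ, v') :=
  have h1 : AnalyticAt ℂ (fun q : Cm n × Cm ν => Mc.ρ v q.2) (ξ, v') :=
    AnalyticAt.comp (f := Prod.snd) hn.ρ analyticAt_snd
  A_an h analyticAt_fst (AnalyticAt.comp (f := fun q : Cm n × Cm ν => Mc.ρ v q.2) hn.κ h1) hξ
    (h1.continuousAt.eventually hn.mem)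

theorem arc (h : NF0 F Mc Q) {x : ℂ → Cm n} {γ : ℂ → Cm ν} (hn : Nr Mc v (γ 0))
    (hx : HasDerivAt x u 0) (hγ : HasDerivAt γ w 0) (hB : x 0 ∈ Q.B)
    (hC : ∀ᶠ t in 𝓝 (0 : ℂ), γ t ∈ Mc.C) : HasDerivAt (fun t => Q.A (x t) (γ t)) (fderiv ℂ
      (fun q : Cm n × Cm ν => Q.A q.1 (Mc.κ v (Mc.ρ v q.2))) (x 0, γ 0) (u, w)) 0 := by
  refine ((G_an h hn hB).differentiableAt.hasFDerivAt.comp_hasDerivAt
    (f := fun t => (x t, γ t)) 0 (hx.prodMk hγ)).congr_of_eventuallyEq ?_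
  filter_upwards [hC, hγ.continuousAt.eventually hn.inv] with t h1 h2
  rw [Function.comp_apply, h2 h1]

theorem via (H : Hy F Mc) (h : NF0 F Mc Q) (hξ : ξ ∈ Q.B) (hv : v ∈ Mc.C) (u : Cm n)
    (hw : w ∈ Mc.TC v) : ∃ (x : ℂ → Cm n) (γ : ℂ → Cm ν), x 0 = ξ ∧ γ 0 = v ∧ HasDerivAt x u 0 ∧
      HasDerivAt γ w 0 ∧ (∀ᶠ t in 𝓝 (0 : ℂ), x t ∈ Q.B ∧ γ t ∈ Mc.C) ∧
        HasDerivAt (fun t => Q.A (x t) (γ t)) (Q.DA Mc ξ v (u, w)) 0 := by
  obtain ⟨γ, h1, rfl, rfl, h2⟩ := H.cap.ex v hv w hw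
  have h3 : HasDerivAt (fun t : ℂ => ξ + t • u) u 0 := by
    simpa using ((hasDerivAt_id (0 : ℂ)).smul_const u).const_add ξ
  have h4 : ξ + (0 : ℂ) • u = ξ := by rw [zero_smul, add_zero]
  have h6 : ξ + (0 : ℂ) • u ∈ Q.B := by rwa [h4]
  have h5 := arc h (nr H.sm hv).self_of_nhds h3 h1.differentiableAt.hasDerivAt h6 h2
  rw [h4] at h5
  exact ⟨_, γ, h4, rfl, h3, h1.differentiableAt.hasDerivAt,
    (h3.continuousAt.eventually (h.opn.eventually_mem h6)).and h2, h5⟩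

/-- the substitution as a linear map -/
def actL (d N : ℕ) (g : M2) : BF d N →L[ℂ] BF d N :=
  LinearMap.toContinuousLinearMap ⟨⟨fun a => act a g, fun a b => ev_inj fun z => by
    rw [ev_add, ev_act, ev_act, ev_act, ev_add]⟩, fun c a => ev_inj fun z => by
      rw [RingHom.id_apply, ev_smul, ev_act, ev_act, ev_smul]⟩

theorem inf_act (a : BF d N) (g η : M2) (z : Cm 2) :
    ev (inf (act a g) η) z = fderiv ℂ (ev a) (g *ᵥ z) (g *ᵥ η *ᵥ z) := by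
  rw [ev_inf, funext (ev_act a g)]
  exact congrArg (· (η *ᵥ z)) (((an_ev2 a).differentiable (by simp) (g *ᵥ z)).hasFDerivAt.comp z
    (LinearMap.toContinuousLinearMap g.mulVecLin).hasFDerivAt).fderiv

theorem e0_ne : e0 ≠ 0 := fun h => one_ne_zero (congrFun h 0)

theorem det_eq (H : Hy F Mc) (h : NF0 F Mc Q) (hξ : ξ ∈ Q.B) {a : BF d N} {z : Cm 2}
    (ho : Ov F (Q.χ.symm ξ) a z) {g : M2} {c : ℂ} (hg : g.det ≠ 0) (h1 : g *ᵥ e0 = c • z)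
    (h2 : act a g = Q.A ξ (Q.θ a z)) : c ≠ 0 ∧ g.det = c ^ 2 := by
  have h3 : c ≠ 0 := fun h3 => hg (Matrix.exists_mulVec_eq_zero_iff.1
    ⟨e0, e0_ne, by rw [h1, h3, zero_smul]⟩)
  have h4 := h.θ_mem ξ hξ a z ho
  have h5 := h.θ_eq ξ hξ a z e0 g c ho e0_ne hg h1
  rw [h2, (h.A_M ξ hξ _ h4).2.2] at h5
  exact ⟨h3, (div_eq_one_iff_eq (pow_ne_zero 2 h3)).1
    (smul_left_injective ℂ (H.sm.nz _ h4) (h5.symm.trans (one_smul ℂ _).symm))⟩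

end Nap

open Nap in
theorem napx : NAPX := by
  intro n N r d D k ν p V P pt F Mc H Q h
  obtain ⟨δ, hy⟩ := H.hyp
  refine ⟨fun x γ hx hγ hB hC => ⟨A_an h hx hγ hB hC, (arc h (nr H.sm hC.self_of_nhds).self_of_nhds
      hx.differentiableAt.hasDerivAt hγ.differentiableAt.hasDerivAt hB hC).deriv⟩,
    fun ξ hξ v hv => ⟨_, (G_an h (nr H.sm hv).self_of_nhds hξ).fderiv, ?_⟩,
    fun ξ hξ v hv u w hw => ?_, fun ξ hξ v hv u w hw c hc => ⟨?_, ev_inj fun z => ?_⟩,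
    fun ξ hξ a z ho => ?_, fun T _ _ _ a z τ ha hz hM hz0 hD => ?_⟩
  · filter_upwards [continuousAt_fst.eventually (h.opn.eventually_mem hξ),
      continuousAt_snd.eventually (nr H.sm hv)] with q h1 h2 h3 u w hw
    obtain ⟨x, γ, a1, a2, a3, a4, a5, a6⟩ := via H h h1 h3 u hw
    have h4 := arc h (a2.symm ▸ h2) a3 a4 (a1.symm ▸ h1) (a5.mono fun _ h => h.2)
    rw [a1, a2] at h4
    exact a6.unique h4
  · obtain ⟨x, γ, rfl, rfl, a3, -, a5, a6⟩ := via H h hξ hv u hw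
    have h1 := fun z => (evL d N z).hasFDerivAt.comp_hasDerivAt 0 a6
    refine ⟨fun z => (fd_Pv P _ _).symm.trans ((((an_Pv P).differentiable (by simp)
      _).hasFDerivAt.comp_hasDerivAt 0 (h1 z)).unique
        ((hasDerivAt_const (0 : ℂ) (0 : Cm r)).congr_of_eventuallyEq (a5.mono fun t ht => ?_))),
      (h1 e0).unique (((h.lam_an _ hξ).differentiableAt.hasFDerivAt.comp_hasDerivAt 0
        a3).congr_of_eventuallyEq (a5.mono fun t ht => (h.A_M _ ht.1 _ ht.2).2.1))⟩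
    exact (F.cd _ (h.A_M _ ht.1 _ ht.2).1).1.pv hy.cone.hom z
  · obtain ⟨x, γ, rfl, rfl, a3, a4, a5, a6⟩ := via H h hξ hv u hw
    exact (arc h (γ := fun t => c • γ t) (nr H.sm (H.sm.smul _ hv c hc)).self_of_nhds a3
      (a4.const_smul c) hξ (a5.mono fun t ht => H.sm.smul _ ht.2 c hc)).unique
        (((actL d N (dg c)).hasFDerivAt.comp_hasDerivAt 0 a6).congr_of_eventuallyEq
          (a5.mono fun t ht => h.A_hom _ ht.1 _ ht.2 c hc))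
  · rw [h.A_hom ξ hξ v hv c hc, ev_smul, inf_act, ev_act, ev_inf, ← map_smul]
    refine congrArg _ (funext fun i => ?_)
    fin_cases i <;> simp [dg, E01, Matrix.mulVec, dotProduct, Fin.sum_univ_two]
  · obtain ⟨-, -, g, -, h1⟩ := h.θ_an 0 (fun _ => ξ) (fun _ => a) (fun _ => z) 0 analyticAt_const
      analyticAt_const (.of_forall fun _ => ⟨hξ, ho⟩)
    obtain ⟨h2, ⟨c, h3⟩, h4⟩ := h1.self_of_nhds
    exact ⟨g 0, c, (det_eq H h hξ ho h2 h3 h4).1, (det_eq H h hξ ho h2 h3 h4).2, h3, h4⟩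
  · obtain ⟨ρ, -, h1, -, -, h2, -⟩ := hy.cone.loc _ ((F.cd _ hM.self_of_nhds).1 _ hz0) Q.χ
      ⟨h.atl, hD.1⟩
    have h3 := (an_ev' ha.contDiffAt hz.contDiffAt).analyticAt
    have h4 : ∀ᶠ s in 𝓝 τ, pt (ev (a s) (z s)) ∈ Q.χ.source ∧
        Q.χ (pt (ev (a s) (z s))) = ρ (ev (a s) (z s)) := by
      filter_upwards [h3.continuousAt.eventually h2, hM, hz.continuousAt.eventually_ne hz0]
        with s k1 k2 k3 using k1 ((F.cd _ k2).1 _ k3)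
    have h5 : AnalyticAt ℂ (fun s => Q.χ (pt (ev (a s) (z s)))) τ :=
      (AnalyticAt.comp (f := fun s => ev (a s) (z s)) h1 h3).congr (h4.mono fun s hs => hs.2.symm)
    have h6 : ∀ᶠ s in 𝓝 τ, Q.χ (pt (ev (a s) (z s))) ∈ Q.B ∧
        Ov F (Q.χ.symm (Q.χ (pt (ev (a s) (z s))))) (a s) (z s) := by
      filter_upwards [h5.continuousAt.eventually (h.opn.eventually_mem hD.2), h4, hM,
        hz.continuousAt.eventually_ne hz0] with s k1 k2 k3 k4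
      exact ⟨k1, k3, k4, (Q.χ.left_inv k2.1).symm⟩
    obtain ⟨l, ⟨e⟩⟩ := ex_cm T
    obtain ⟨-, h7, g, h8, h9⟩ := h.θ_an l (fun s => Q.χ (pt (ev (a (e s)) (z (e s))))) _ _ _
      (an_to e ha) (an_to e hz) (ev_to e h6)
    obtain ⟨j, hj⟩ := Function.ne_iff.1 hz0
    have k1 := analyticAt_pi_iff.1 hz j
    refine ⟨h5, by simpa using an_of e h7, _, fun s => (g (e.symm s) *ᵥ e0) j / z s j, an_of e h8,
      (analyticAt_pi_iff.1 (an_mv' (an_of e h8).contDiffAt contDiffAt_const).analyticAt j).fun_div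
        k1 hj, ?_⟩
    filter_upwards [e.symm.continuous.continuousAt.eventually h9, h4, h6,
      k1.continuousAt.eventually_ne hj] with s m1 m2 m3 m4
    simp only [e.apply_symm_apply] at m1
    obtain ⟨m5, ⟨c, m6⟩, m7⟩ := m1
    have m8 := det_eq H h m3.1 m3.2 m5 m6 m7
    have m9 : (g (e.symm s) *ᵥ e0) j / z s j = c := by
      rw [m6, Pi.smul_apply, smul_eq_mul, mul_div_cancel_right₀ _ m4]
    rw [m9]
    exact ⟨⟨m2.1, m3.1⟩, m8.1, m8.2, m6, m7⟩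

end Vale.Agent.P280Z.Tr
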