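import Vale.Agent.P280Z.Tr.Sk

/-!
# P280Z, block Tr: the determinant of the transition matrices
-/

open scoped Matrix
open LinearMap
open Vale.Agent.P272.K

noncomputable section

namespace Vale.Agent.P280Z.Tr

theorem Omb.det_tri {X Y : Type} [AddCommGroup X] [Module ℂ X] [FiniteDimensional ℂ X]
    [AddCommGroup Y] [Module ℂ Y] [FiniteDimensional ℂ Y] (ψ : X × Y →ₗ[ℂ] X × Y)
    (h : ∀ y, (ψ (0, y)).1 = 0) : LinearMap.det ψ =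
      LinearMap.det (fst ℂ X Y ∘ₗ ψ ∘ₗ inl ℂ X Y) * LinearMap.det (snd ℂ X Y ∘ₗ ψ ∘ₗ inr ℂ X Y) := by
  have b := Module.finBasis ℂ X
  have b' := Module.finBasis ℂ Y
  rw [← det_toMatrix (b.prod b'), ← det_toMatrix b, ← det_toMatrix b',
    ← Matrix.det_fromBlocks_zero₁₂ _ (toMatrix b b' (snd ℂ X Y ∘ₗ ψ ∘ₗ inl ℂ X Y))]
  congr 1
  ext (a | a) (c | c) <;> simp [toMatrix_apply, h]

/-- **OMB** -/
theorem omb_of (hC : CHG) : OMB := by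
  intro n N r d D k ν p V P pt F Mc hy E Q β hT hN i j x hi hj
  obtain ⟨h, h1, h2⟩ := hC F Mc hy (Q j) (Q i) x (hT.nf j) (hN _ (hT.nf j)) (hT.str j) (hT.nf i)
    (hN _ (hT.nf i)) (hT.str i) ((hT.dom j x).1 hj) ((hT.dom i x).1 hi)
  have hS : ∀ c c', E.b j x c = E.b i x c' → Same F Mc (Q j) (Q i) x (β c) (β c') :=
    fun c c' e => ⟨E.b j x c, hT.fib x ▸ hT.hb.rng j x hj ▸ mem_range_self _ c, fun v hv =>
      ⟨hT.frm j x hj c v hv, e ▸ hT.frm i x hi c' v hv⟩⟩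
  refine ⟨h, h1, fun c c' e => (h2 _ _ (hS c c' e)).1, fun m hm => ?_⟩
  obtain ⟨ψ, k1, k2⟩ : ∃ ψ : Co n Mc →ₗ[ℂ] Co n Mc, LinearMap.det ψ = m.det ∧
      ∀ c, Same F Mc (Q j) (Q i) x c (ψ c) :=
    ⟨β.toLinearMap ∘ₗ Matrix.toLin' m ∘ₗ β.symm.toLinearMap, by rw [det_conj, det_toLin'],
      fun c => by
        have := hS _ _ (hm (β.symm c))
        rwa [β.apply_symm_apply] at this⟩
  have k3 := fun c => h2 c _ (k2 c)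
  have e1 := Omb.det_tri ψ fun y => Prod.ext
    ((k3 (0, y)).1.trans (Matrix.mulVec_zero _)) ((k3 (0, y)).2.1 rfl)
  have e2 := Omb.det_tri (fst ℂ _ _ ∘ₗ ψ ∘ₗ inl ℂ _ _) fun t =>
    (k3 ((0, t), 0)).1.trans (Matrix.mulVec_zero _)
  have e3 := Omb.det_tri (snd ℂ _ _ ∘ₗ ψ ∘ₗ inr ℂ _ _) fun α => Subtype.ext
    (((k3 (0, 0, α)).2.2.1 rfl).trans (by simp))
  have e4 : fst ℂ _ _ ∘ₗ (fst ℂ _ _ ∘ₗ ψ ∘ₗ inl ℂ _ _) ∘ₗ inl ℂ _ _ =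
      Matrix.toLin' (jacM (Q j).χ (Q i).χ x) := LinearMap.ext fun u => (k3 ((u, 0), 0)).1
  have e5 : snd ℂ _ _ ∘ₗ (fst ℂ _ _ ∘ₗ ψ ∘ₗ inl ℂ _ _) ∘ₗ inr ℂ _ _ = LinearMap.id :=
    LinearMap.ext fun t => (k3 ((0, t), 0)).2.1 rfl
  have e6 := hy.cap.ad h h1.aut (fst ℂ _ _ ∘ₗ (snd ℂ _ _ ∘ₗ ψ ∘ₗ inr ℂ _ _) ∘ₗ inl ℂ _ _)
    fun η => (k3 (0, η, 0)).2.2.1 rfl
  have e7 : Matrix.toLin' hᵀ ∘ₗ (snd ℂ _ _ ∘ₗ (snd ℂ _ _ ∘ₗ ψ ∘ₗ inr ℂ _ _) ∘ₗ inr ℂ _ _) =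
      LinearMap.id := LinearMap.ext fun α =>
    (Matrix.mulVec_transpose h _).trans ((k3 (0, 0, α)).2.2.2 rfl rfl)
  have e8 := congrArg LinearMap.det e7
  rw [det_comp, det_toLin', Matrix.det_transpose, det_id] at e8
  rw [e4, e5, det_toLin', det_id, mul_one] at e2
  rw [← k1, e1, e2, e3, mul_assoc, mul_assoc, mul_comm _ h.det, e8, mul_one, mul_pow, e6, mul_one]

end Vale.Agent.P280Z.Tr
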