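import Vale.Agent.P280Z.Tr.Sk
import Vale.Agent.P280Z.Mp.Bf0

/-!
# P280Z, block Tr: the row OMV
-/

open scoped Manifold ContDiff Topology Matrix Matrix.Norms.Elementwise
open Set Filter
open Vale.Agent.P272.K Vale.Agent.P281Z Vale.Agent.P280Z.Mp

noncomputable section

namespace Vale.Agent.P280Z.Tr

namespace Omv

section lin
variable {ν p : ℕ}

theorem li_cons {v : Cm ν} {w : Fin p → Cm ν} :
    LinearIndependent ℂ (Fin.cons v w : Fin (p + 1) → Cm ν) ↔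
      ∀ (c : ℂ) (g : Fin p → ℂ), c • v + ∑ j, g j • w j = 0 → c = 0 ∧ ∀ j, g j = 0 := by
  rw [Fintype.linearIndependent_iff]
  constructor
  · intro h c g e
    have h1 := h (Fin.cons c g) (by rw [Fin.sum_univ_succ]; simpa using e)
    exact ⟨by simpa using h1 0, fun j => by simpa using h1 j.succ⟩
  · intro h g e
    rw [Fin.sum_univ_succ] at e
    have h1 := h (g 0) (fun j => g j.succ) (by simpa using e)
    exact fun i => Fin.cases h1.1 h1.2 i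

theorem ex_cpl {W : Type} [AddCommGroup W] [Module ℂ W] [FiniteDimensional ℂ W]
    (hS : Module.finrank ℂ W = p + 1) {v : W} (h1 : v ≠ 0) : ∃ w : Fin p → W,
      ∀ (c : ℂ) (g : Fin p → ℂ), c • v + ∑ j, g j • w j = 0 → c = 0 ∧ ∀ j, g j = 0 := by
  obtain ⟨T, hT⟩ := (ℂ ∙ v).exists_isCompl
  have h2 : Module.finrank ℂ T = p := by
    have h3 := Submodule.finrank_add_eq_of_isCompl hT
    rw [finrank_span_singleton h1, hS] at h3
    omega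
  let b := Module.finBasisOfFinrankEq ℂ T h2
  refine ⟨fun j => (b j).1, fun c g e => ?_⟩
  have h3 : c • v + ((∑ j, g j • b j : T) : W) = 0 := by simpa using e
  have h4 : c • v ∈ T := by
    rw [eq_neg_of_add_eq_zero_left h3]
    exact T.neg_mem (∑ j, g j • b j : T).2
  have h5 : c • v = 0 := (Submodule.disjoint_def.1 hT.disjoint) _
    (Submodule.smul_mem _ c (Submodule.mem_span_singleton_self v)) h4
  refine ⟨(smul_eq_zero.1 h5).resolve_right h1, ?_⟩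
  rw [h5, zero_add] at h3
  exact Fintype.linearIndependent_iff.1 b.linearIndependent g (Subtype.ext h3)

theorem ex_frame (S : Submodule ℂ (Cm ν)) (hS : Module.finrank ℂ S = p + 1) {v : Cm ν}
    (hv : v ∈ S) (h0 : v ≠ 0) : ∃ w : Fin p → Cm ν, (∀ j, w j ∈ S) ∧
      LinearIndependent ℂ (Fin.cons v w : Fin (p + 1) → Cm ν) := by
  obtain ⟨w, hw⟩ := ex_cpl hS (v := ⟨v, hv⟩) fun e => h0 (congrArg Subtype.val e)
  exact ⟨fun j => (w j).1, fun j => (w j).2, li_cons.2 fun c g e =>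
    hw c g (Subtype.ext (by simpa using e))⟩

theorem ex_lf {y : Cm 2} (hy : y ≠ 0) (c : ℂ) : ∃ u, lf y u = c := by
  by_cases h : y 0 = 0
  · have h1 : y 1 ≠ 0 := fun e => hy (funext fun i => by fin_cases i <;> assumption)
    exact ⟨![-(c / y 1), 0], by simp [lf]; field_simp⟩
  · exact ⟨![0, c / y 0], by simp [lf]; field_simp⟩

theorem fr_smul {M : Mo ν p} (hs : M.Sm) (hc : CAP M) {v : Cm ν} {w : Fin p → Cm ν}
    (h : M.Fr v w) {c : ℂ} (h0 : c ≠ 0) : M.Fr (c • v) w := by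
  refine ⟨hs.smul v h.1 c h0, fun j => by rw [hc.smul v h.1 c h0]; exact h.2.1 j,
    li_cons.2 fun c' g e => ?_⟩
  rw [smul_smul] at e
  have h1 := li_cons.1 h.2.2 _ g e
  exact ⟨(mul_eq_zero.1 h1.1).resolve_right h0, h1.2⟩

theorem g0_smul {M : Mo ν p} (hs : M.Sm) {c : ℂ} (h0 : c ≠ 0) :
    M.G0 (c • (1 : Matrix (Fin ν) (Fin ν) ℂ)) := by
  refine ⟨by simp [h0], fun v => ?_⟩
  rw [Matrix.smul_mulVec, Matrix.one_mulVec]
  refine ⟨fun h => ?_, fun h => hs.smul v h c h0⟩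
  have := hs.smul _ h c⁻¹ (inv_ne_zero h0)
  rwa [smul_smul, inv_mul_cancel₀ h0, one_smul] at this

theorem deriv_lin (A : Cm ν →ₗ[ℂ] Cm ν) {f f' : ℂ → Cm ν} (hf : AnalyticAt ℂ f 0)
    (e : ∀ᶠ t in 𝓝 (0 : ℂ), f' t = A (f t)) : deriv f' 0 = A (deriv f 0) := by
  have h1 := (LinearMap.toContinuousLinearMap A).hasFDerivAt.comp_hasDerivAt (0 : ℂ)
    hf.differentiableAt.hasDerivAt
  rw [EventuallyEq.deriv_eq (f₁ := f') (f := fun t => A (f t)) e]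
  exact h1.deriv

theorem an_der {G : ℂ × Cm 2 → Cm ν} {y₁ : Cm 2} (hG : AnalyticAt ℂ G (0, y₁)) :
    AnalyticAt ℂ (fun y => deriv (fun t => G (t, y)) 0) y₁ := by
  have h0 : AnalyticAt ℂ (fun y : Cm 2 => ((0 : ℂ), y)) y₁ := analyticAt_const.prod analyticAt_id
  have h1 : AnalyticAt ℂ (fun y : Cm 2 => fderiv ℂ G (0, y)) y₁ :=
    AnalyticAt.comp (f := fun y : Cm 2 => ((0 : ℂ), y)) hG.fderiv h0
  have h2 : AnalyticAt ℂ (fun y : Cm 2 => fderiv ℂ G (0, y) (1, 0)) y₁ :=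
    ((ContinuousLinearMap.apply ℂ (Cm ν) ((1 : ℂ), (0 : Cm 2))).analyticAt _).comp h1
  refine h2.congr ?_
  filter_upwards [h0.continuousAt.tendsto.eventually hG.eventually_analyticAt] with y hy
  have h3 : HasDerivAt (fun t : ℂ => (t, y)) ((1 : ℂ), (0 : Cm 2)) 0 :=
    (hasDerivAt_id _).prodMk (hasDerivAt_const _ _)
  exact (hy.differentiableAt.hasFDerivAt.comp_hasDerivAt (0 : ℂ) h3).deriv.symm

end lin

variable {n N r d D k ν p : ℕ} {V : Mf n} {P : Eqs r N} {pt : Cm N → V.X}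
  {F : Fam V P pt d D k} {Mc : Mo ν p} {Q Q' : ND V d N ν} {a : BF d N} {y y' : Cm 2}
  {L L' : BF d N →ₗ[ℂ] Cm ν}

open Classical in
/-- the chosen differential -/
def LL (F : Fam V P pt d D k) (Mc : Mo ν p) (a : BF d N) (Q : ND V d N ν) (y : Cm 2) :
    BF d N →ₗ[ℂ] Cm ν := if h : ∃ L, Dth F Mc Q a y L then h.choose else 0

theorem LL_spec (h : ∃ L, Dth F Mc Q a y L) : Dth F Mc Q a y (LL F Mc a Q y) := by
  rw [LL, dif_pos h]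
  exact h.choose_spec

theorem ov_symm {x : V.X} {b : BF d N} (hx : Q.Dm x) (h : Ov F x b y) :
    Ov F (Q.χ.symm (Q.χ x)) b y := by rwa [Q.χ.left_inv hx.1]

theorem arc_ov {γ : ℂ → BF d N} (h : Arc F a y γ) (hy : y ≠ 0) :
    ∀ᶠ t in 𝓝 (0 : ℂ), Ov F (pt (ev a y)) (γ t) y :=
  h.2.2.mono fun _ ht => ⟨ht.1, hy, by rw [ht.2]⟩

theorem tr (A : Cm ν →ₗ[ℂ] Cm ν) (h : Dth F Mc Q a y L) (h' : Dth F Mc Q' a y' L')
    {γ : ℂ → BF d N} (hγ : Arc F a y γ) (hγ' : Arc F a y' γ)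
    (e : ∀ᶠ t in 𝓝 (0 : ℂ), Q'.θ (γ t) y' = A (Q.θ (γ t) y)) :
    L' (deriv γ 0) = A (L (deriv γ 0)) := by
  rw [← (h.der γ hγ).2, ← (h'.der γ hγ').2]
  exact deriv_lin A (h.der γ hγ).1 e

theorem frame (hD : DIV) (hs : Mc.Sm) (ha : F.M a) (hy : y ≠ 0)
    {μ : Fin p → Cm 2 →ₗ[ℂ] BF d N} (hμ : ∀ j, μ j ∈ H1 P a) (h : Dth F Mc Q a y L)
    (h' : Dth F Mc Q' a y' L') (hv : Q.θ a y ∈ Mc.C)
    (h0 : Mc.Fr (Q'.θ a y') fun j => L' (μ j y')) : Mc.Fr (Q.θ a y) fun j => L (μ j y) := by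
  refine ⟨hv, fun j => h.mem _ (hμ j y), li_cons.2 fun c g e => ?_⟩
  obtain ⟨u, hu⟩ := ex_lf hy c
  obtain ⟨d1, -, -, d4⟩ := hD P a y hy
  obtain ⟨μu, m1, m2⟩ := d4 (F.cd a ha).1 u
  obtain ⟨μy, m3, m4⟩ := d4 (F.cd a ha).1 y
  have m5 : μu + ∑ j, g j • μ j ∈ H1 P a :=
    (H1 P a).add_mem m1 ((H1 P a).sum_mem fun j _ => (H1 P a).smul_mem _ (hμ j))
  have e1 : ∀ z, (μu + ∑ j, g j • μ j) z = inf a (Eu u z) + ∑ j, g j • μ j z := fun z => by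
    simp only [LinearMap.add_apply, LinearMap.sum_apply, LinearMap.smul_apply, m2]
  obtain ⟨c', hc'⟩ := h.ker _ (m5 y) (by
    rw [e1, map_add, h.gl, hu, map_sum]
    simpa only [map_smul] using e)
  have e2 := d1 _ ((H1 P a).sub_mem m5 ((H1 P a).smul_mem c' m3)) (by
    rw [LinearMap.sub_apply, hc', LinearMap.smul_apply, m4, sub_self])
  have e3 := congrArg L' (LinearMap.congr_fun e2 y')
  rw [LinearMap.sub_apply, e1, LinearMap.smul_apply, m4, map_sub, map_add, map_smul, h'.gl, h'.gl,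
    map_sum, LinearMap.zero_apply, map_zero] at e3
  have e4 := (li_cons.1 h0.2.2 (lf y' u - c' * lf y' y) g (by
    rw [← e3, sub_smul, mul_smul]
    simp only [map_smul]
    abel)).2
  refine ⟨?_, e4⟩
  simp only [e4, zero_smul, Finset.sum_const_zero, add_zero] at e
  exact (smul_eq_zero.1 e).resolve_right (hs.nz _ hv)

theorem th_smul (hQ : NF F Mc Q) {x : V.X} {b : BF d N} (hx : Q.Dm x) (h : Ov F x b y) {c : ℂ}
    (hc : c ≠ 0) : Q.θ b (c • y) = (c⁻¹ * c⁻¹) • Q.θ b y := by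
  have h1 := hQ.θ_eq _ hx.2 b y (c • y) 1 c (ov_symm hx h) (smul_ne_zero hc h.2.1) (by simp)
    (Matrix.one_mulVec _)
  rw [act_one, Matrix.det_one] at h1
  rw [h1, one_div, sq, mul_inv]

theorem arc_smul {γ : ℂ → BF d N} (h : Arc F a y γ) (c : ℂ) : Arc F a (c • y) γ :=
  ⟨h.1, h.2.1, h.2.2.mono fun _ ht => ⟨ht.1, by rw [ev_arg, ev_arg, ht.2]⟩⟩

theorem pt_smul (hy : Hy F Mc) (ha : F.M a) (h0 : y ≠ 0) {c : ℂ} (hc : c ≠ 0) :
    pt (ev a (c • y)) = pt (ev a y) := by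
  obtain ⟨e, he⟩ := hy.hyp
  rw [ev_arg]
  exact he.cone.smul _ _ ((F.cd a ha).1 y h0) (pow_ne_zero _ hc)

theorem expo {c X Y : ℂ} (hc : c ≠ 0) (k ν p : ℕ) (δ : ℤ)
    (h : X * (c⁻¹ ^ ν) ^ k = c⁻¹ ^ ((k : ℤ) * ((ν : ℤ) - p - 2 + δ)) * Y) :
    X = c ^ ((k : ℤ) * ((p : ℤ) + 2 - δ)) * Y := by
  have h1 : (c⁻¹ ^ ν) ^ k = c ^ (-((k : ℤ) * ν)) := by
    rw [← pow_mul, inv_pow, zpow_neg, mul_comm ν k]
    norm_cast
  rw [h1, inv_zpow'] at h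
  have h2 : X = X * c ^ (-((k : ℤ) * ν)) * c ^ ((k : ℤ) * ν) := by
    rw [mul_assoc, ← zpow_add₀ hc, neg_add_cancel, zpow_zero, mul_one]
  rw [h2, h, mul_right_comm, ← zpow_add₀ hc]
  congr 2
  ring

end Omv

open Omv in
theorem omv_of (hD : DIV) (hC : CRV) (hT : DTH) : OMV := by
  intro n N r d D k₀ ν p V P pt F Mc hy δ hδ hN hA a ha
  obtain ⟨k, I, Δ, hk, an, d2, d3, d4⟩ := hδ
  have dth : ∀ Q y, NF F Mc Q → y ≠ 0 → Q.Dm (pt (ev a y)) → Dth F Mc Q a y (LL F Mc a Q y) :=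
    fun Q y hQ h0 hx => LL_spec (hT F Mc hy Q _ a y hQ (hA Q hQ) hx ⟨ha, h0, rfl⟩)
  have mem : ∀ Q y, NF F Mc Q → y ≠ 0 → Q.Dm (pt (ev a y)) → Q.θ a y ∈ Mc.C :=
    fun Q y hQ h0 hx => hQ.θ_mem _ hx.2 a y (ov_symm hx ⟨ha, h0, rfl⟩)
  have arc : ∀ Q y, NF F Mc Q → y ≠ 0 → Q.Dm (pt (ev a y)) → ∀ μ ∈ H1 P a,
      ∃ γ, Arc F a y γ ∧ deriv γ 0 = μ y := fun Q y hQ h0 hx μ hμ => by
    obtain ⟨γ, -, -, h⟩ := hC F Mc hy Q a y hQ (hA Q hQ) ha h0 hx μ hμ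
    exact ⟨_, h.self_of_nhds⟩
  have e00 : e0 ≠ 0 := fun e => one_ne_zero (congrFun e 0)
  obtain ⟨Q₀, hQ₀, hx₀⟩ := hN (pt (ev a e0))
  have hL₀ := dth Q₀ e0 hQ₀ e00 hx₀
  have hv₀ := mem Q₀ e0 hQ₀ e00 hx₀
  obtain ⟨w, hw, hli⟩ := ex_frame _ (hy.cap.rk _ hv₀) (hy.cap.rad _ hv₀) (hy.sm.nz _ hv₀)
  have hμ : ∀ j, ∃ μ ∈ H1 P a, LL F Mc a Q₀ e0 (μ e0) = w j := fun j => by
    obtain ⟨γ, g1, g2, g3, g4⟩ := hy.cap.ex _ hv₀ _ (hw j)
    obtain ⟨γ', g5, g6⟩ := hL₀.onto γ g1 g2 g4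
    obtain ⟨μ, m1, m2⟩ := (hD P a e0 e00).2.1 _ (hL₀.kr γ' g5)
    refine ⟨μ, m1, ?_⟩
    rw [m2, ← (hL₀.der γ' g5).2, ← g3]
    exact EventuallyEq.deriv_eq g6
  choose μ hμ hμw using hμ
  have fr₀ : Mc.Fr (Q₀.θ a e0) fun j => LL F Mc a Q₀ e0 (μ j e0) := by
    simp only [hμw]
    exact ⟨hv₀, hw, hli⟩
  have fr : ∀ Q y, NF F Mc Q → y ≠ 0 → Q.Dm (pt (ev a y)) →
      Mc.Fr (Q.θ a y) fun j => LL F Mc a Q y (μ j y) := fun Q y hQ h0 hx =>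
    frame hD hy.sm ha h0 hμ (dth Q y hQ h0 hx) hL₀ (mem Q y hQ h0 hx) fr₀
  obtain ⟨i, hi⟩ := d4 _ _ fr₀
  refine ⟨k, fun Q y => Δ i (Q.θ a y) fun j => LL F Mc a Q y (μ j y), hk,
    fun Q y hQ h0 hx => ⟨?_, fun c hc => ?_, fun Q' h hQ' hx' hh => ?_⟩, Q₀, e0, hQ₀, e00, hx₀, hi⟩
  · obtain ⟨-, a1, g, c, -, -, a2⟩ := (hA Q hQ).fam (Cm 2) (fun _ => a) (fun z => z) y
      analyticAt_const analyticAt_id (Eventually.of_forall fun _ => ha) h0 hx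
    have a3 : ∀ᶠ z in 𝓝 y, z ≠ 0 ∧ Q.Dm (pt (ev a z)) :=
      (eventually_ne_nhds h0).and (a2.mono fun _ hz => hz.1)
    refine an i 2 (fun z => Q.θ a z) (fun z j => LL F Mc a Q z (μ j z)) y a1
      (analyticAt_pi_iff.2 fun j => ?_) (a3.mono fun z hz => fr Q z hQ hz.1 hz.2)
    obtain ⟨γ, g1, g2, g3⟩ := hC F Mc hy Q a y hQ (hA Q hQ) ha h0 hx _ (hμ j)
    have g4 : γ (0, y) = a := g3.self_of_nhds.1.2.1
    have g5 := ((hA Q hQ).fam (ℂ × Cm 2) γ (fun q => q.2) (0, y) g1 analyticAt_snd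
      (g2.mono fun _ hq => hq.1) h0 (by rw [g4]; exact hx)).2.1
    refine (an_der g5).congr ?_
    filter_upwards [a3, g3] with z hz hz'
    rw [← hz'.2]
    exact ((dth Q z hQ hz.1 hz.2).der _ hz'.1).2
  · have hx' : Q.Dm (pt (ev a (c • y))) := by rw [pt_smul hy ha h0 hc]; exact hx
    have hc' := inv_ne_zero hc
    have e1 : ∀ j, LL F Mc a Q (c • y) (μ j (c • y)) =
        (c⁻¹ • (1 : Matrix (Fin ν) (Fin ν) ℂ)) *ᵥ LL F Mc a Q y (μ j y) := fun j => by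
      obtain ⟨γ, g1, g2⟩ := arc Q y hQ h0 hx _ (hμ j)
      have g3 := tr ((c⁻¹ * c⁻¹) • LinearMap.id) (dth Q y hQ h0 hx)
        (dth Q _ hQ (smul_ne_zero hc h0) hx') g1 (arc_smul g1 c)
        ((arc_ov g1 h0).mono fun t ht => th_smul hQ hx ht hc)
      rw [map_smul, map_smul, ← g2, g3, Matrix.smul_mulVec, Matrix.one_mulVec,
        LinearMap.smul_apply, LinearMap.id_apply, smul_smul, ← mul_assoc, mul_inv_cancel₀ hc,
        one_mul]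
    have e2 : Q.θ a (c • y) = (c⁻¹ • (1 : Matrix (Fin ν) (Fin ν) ℂ)) *ᵥ (c⁻¹ • Q.θ a y) := by
      rw [th_smul hQ hx ⟨ha, h0, rfl⟩ hc, Matrix.smul_mulVec, Matrix.one_mulVec, smul_smul]
    have e3 := d2 i _ _ _ (g0_smul hy.sm hc') (fr_smul hy.sm hy.cap (fr Q y hQ h0 hx) hc')
    rw [d3 i _ _ _ (fr Q y hQ h0 hx) hc', Matrix.det_smul, Matrix.det_one, mul_one,
      Fintype.card_fin] at e3
    simp only [e1, e2]
    exact expo hc k ν p δ e3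
  · have e1 : ∀ j, LL F Mc a Q' y (μ j y) = h *ᵥ LL F Mc a Q y (μ j y) := fun j => by
      obtain ⟨γ, g1, g2⟩ := arc Q y hQ h0 hx _ (hμ j)
      have g3 := tr (Matrix.mulVecLin h) (dth Q y hQ h0 hx) (dth Q' y hQ' h0 hx') g1 g1
        ((arc_ov g1 h0).mono fun t ht => hh.θ _ _ ht)
      rw [← g2, g3, Matrix.mulVecLin_apply]
    simp only [e1, hh.θ a y ⟨ha, h0, rfl⟩]
    exact d2 i h _ _ hh.aut (fr Q y hQ h0 hx)

end Vale.Agent.P280Z.Tr
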