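import Vale.Agent.P280Z.Tr.Sk
import Vale.Agent.P280Z.Ma.Gloc

/-!
# P280Z, block Tr: the fields of the standard frame exist
-/

open scoped Manifold ContDiff Topology Matrix Matrix.Norms.Elementwise
open Set Filter
open Vale.Agent.P272.K Vale.Agent.P281Z Vale.Agent.P280Z.Mp Vale.Agent.P280Z.Ma

noncomputable section

namespace Vale.Agent.P280Z.Tr

namespace S1

variable {n N r d D k ν p : ℕ} {V : Mf n} {P : Eqs r N} {pt : Cm N → V.X} {F : Fam V P pt d D k}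
  {Mc : Mo ν p} {Q : ND V d N ν}

theorem act_add (a b : BF d N) (g : M2) : act (a + b) g = act a g + act b g :=
  ev_inj fun z => by rw [ev_add, ev_act, ev_act, ev_act, ev_add]

theorem act_smul' (c : ℂ) (a : BF d N) (g : M2) : act (c • a) g = c • act a g :=
  ev_inj fun z => by rw [ev_smul, ev_act, ev_act, ev_smul]

theorem tg_act {a b : BF d N} (h : b ∈ Tg P a) (g : M2) : act b g ∈ Tg P (act a g) :=
  fun y => by rw [ev_act, ev_act]; exact h _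

/-- the infinitesimal substitution is linear in the form -/
def infA (d N : ℕ) (ξ : M2) : BF d N →ₗ[ℂ] BF d N where
  toFun a := inf a ξ
  map_add' a b := ev_inj fun z => by
    rw [ev_add, ev_inf, ev_inf, ev_inf, show ev (a + b) = ev a + ev b from funext (ev_add a b),
      fderiv_add ((an_ev2 a).differentiable (by simp) z) ((an_ev2 b).differentiable (by simp) z)]
    rfl
  map_smul' c a := ev_inj fun z => by
    rw [ev_smul, ev_inf, ev_inf, show ev (c • a) = c • ev a from funext (ev_smul c a),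
      fderiv_const_smul ((an_ev2 a).differentiable (by simp) z)]
    rfl

theorem self_mem {e : ℕ} (hP : Hom P e) (hd : 0 < d) {a : BF d N} (h : Crv P a) : a ∈ Tg P a := by
  have h1 : inf a 1 = (d : ℂ) • a := ev_inj fun z => by
    rw [ev_inf, Matrix.one_mulVec, euler, ev_smul]
  have h2 := (Tg P a).smul_mem (d : ℂ)⁻¹ (inf_mem (h.pv hP) 1)
  rwa [h1, inv_smul_smul₀ (Nat.cast_ne_zero.2 hd.ne')] at h2

theorem an_inv {T : Type} [NormedAddCommGroup T] [NormedSpace ℂ T] {g : T → M2} {τ : T}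
    (hg : ContDiffAt ℂ ω g τ) (h0 : (g τ).det ≠ 0) : ContDiffAt ℂ ω (fun s => (g s)⁻¹) τ := by
  have h1 : ∀ i j, ContDiffAt ℂ ω (fun s => g s i j) τ := fun i j =>
    (an_ent i j).contDiffAt.comp τ hg
  have h2 : ContDiffAt ℂ ω (fun s => (g s).det⁻¹) τ := by
    refine ContDiffAt.inv ?_ h0
    simp only [Matrix.det_fin_two]
    exact ((h1 0 0).mul (h1 1 1)).sub ((h1 0 1).mul (h1 1 0))
  refine an_mat fun i j => ?_
  simp only [Matrix.inv_def, Ring.inverse_eq_inv', Matrix.smul_apply, smul_eq_mul,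
    Matrix.adjugate_fin_two]
  refine h2.mul ?_
  fin_cases i <;> fin_cases j
  exacts [h1 1 1, (h1 0 1).neg, (h1 1 0).neg, h1 0 0]

variable {ξ w : Cm n} {t : ℂ} {η : Matrix (Fin ν) (Fin ν) ℂ} {α : Cm ν}

theorem fr_mem (hy : Hy F Mc) (h : NF F Mc Q) (h' : NAP F Mc Q) (hξ : ξ ∈ Q.B) (hη : η ∈ Mc.g0)
    {v : Cm ν} (hv : v ∈ Mc.C) : Q.fr Mc ξ w t η α v ∈ Tg P (Q.A ξ v) := by
  obtain ⟨δ, H⟩ := hy.hyp
  have hc := (F.cd _ (h.A_M ξ hξ v hv).1).1
  exact add_mem (add_mem (h'.tg ξ hξ v hv w _ (hη v hv)).1 ((Tg P _).smul_mem _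
    (self_mem H.cone.hom H.pos hc))) ((Tg P _).smul_mem _ (inf_mem (hc.pv H.cone.hom) _))

theorem fr_hom (h : NF F Mc Q) (h' : NAP F Mc Q) (hξ : ξ ∈ Q.B) (hη : η ∈ Mc.g0) {v : Cm ν}
    (hv : v ∈ Mc.C) {c : ℂ} (hc : c ≠ 0) :
    Q.fr Mc ξ w t η α (c • v) = act (Q.fr Mc ξ w t η α v) (dg c) := by
  obtain ⟨h1, h2⟩ := h'.hom ξ hξ v hv w _ (hη v hv) c hc
  rw [ND.fr, ND.fr, act_add, act_add, act_smul', act_smul', ← h1, ← h2, ← h.A_hom ξ hξ v hv c hc,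
    Matrix.mulVec_smul, dotProduct_smul, smul_smul, smul_eq_mul, mul_comm]

theorem fr_an (h : NF F Mc Q) (h' : NAP F Mc Q) (hξ : ξ ∈ Q.B) (hη : η ∈ Mc.g0) {l : ℕ}
    {v : Cm l → Cm ν} {τ : Cm l} (hv : AnalyticAt ℂ v τ) (hC : ∀ᶠ s in 𝓝 τ, v s ∈ Mc.C) :
    ContDiffAt ℂ ω (fun s => Q.fr Mc ξ w t η α (v s)) τ := by
  obtain ⟨L, hL, h1⟩ := h'.loc ξ hξ _ hC.self_of_nhds
  have h2 : AnalyticAt ℂ (fun s => (ξ, v s)) τ := analyticAt_const.prod hv
  have h3 := (h.A_an l (fun _ => ξ) v τ analyticAt_const hv hξ hC).contDiffAt (n := ω)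
  have h4 : ContDiffAt ℂ ω (fun s => L (ξ, v s) (w, η *ᵥ v s)) τ :=
    (hL.comp_of_eq h2 rfl).contDiffAt.clm_apply (contDiffAt_const.prodMk
      ((Matrix.mulVecLin η).toContinuousLinearMap.contDiff.contDiffAt.comp τ hv.contDiffAt))
  have h5 : ContDiffAt ℂ ω (fun s => inf (Q.A ξ (v s)) E01) τ :=
    (infA d N E01).toContinuousLinearMap.contDiff.contDiffAt.comp τ h3
  have h6 : ContDiffAt ℂ ω (fun s => α ⬝ᵥ v s) τ :=
    ContDiffAt.sum fun i _ => contDiffAt_const.mul (contDiffAt_pi.1 hv.contDiffAt i)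
  refine ((h4.congr_of_eventuallyEq ?_).add (h3.const_smul t)).add (h6.smul h5)
  filter_upwards [h2.continuousAt.eventually h1, hC] with s k1 k2 using k1 k2 _ _ (hη _ k2)

theorem dg_det (c : ℂ) : (dg c).det = c := by simp [dg, Matrix.det_fin_two]

theorem e0_ne : e0 ≠ 0 := fun h => one_ne_zero (α := ℂ) (congrFun h 0)

end S1

open S1 in
/-- row STR1 -/
theorem str1 : STR1 := by
  classical
  intro n N r d D k ν p V P pt F Mc hy Q h h' ξ hξ w t η hη α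
  obtain ⟨δ, H⟩ := hy.hyp
  choose G C hC hG using h'.nrm ξ hξ
  have G0 : ∀ a z o, (G a z o).det ≠ 0 := fun a z o =>
    (hG a z o).1.trans_ne (pow_ne_zero 2 (hC a z o))
  set S : Am d N := fun a z => if o : Ov F (Q.χ.symm ξ) a z then
    act (Q.fr Mc ξ w t η α (Q.θ a z)) (G a z o)⁻¹ else 0 with hS
  have key : ∀ a z, Ov F (Q.χ.symm ξ) a z → ∀ g, act a g = Q.A ξ (Q.θ a z) →
      act (S a z) g = Q.fr Mc ξ w t η α (Q.θ a z) := fun a z o g hg => by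
    obtain ⟨ζ, k1, rfl⟩ := Gl.uniq H.pos H.low (F.cd a o.1).1 (G0 a z o)
      (hg.trans (hG a z o).2.2.symm)
    simp only [hS, dif_pos o]
    rw [act_smul, k1, one_smul, Gl.inv_act _ (G0 a z o)]
  refine ⟨S, ⟨fun a z o => dif_neg o, fun a z o => ?_, fun a z z' g c o k1 k2 k3 => ?_,
    fun l a z τ ha hz o => ?_⟩, fun v hv => ?_⟩
  · have k1 := tg_act (fr_mem (w := w) (t := t) (α := α) hy h h' hξ hη (h.θ_mem ξ hξ a z o))
      (G a z o)⁻¹
    rw [← (hG a z o).2.2, Gl.act_inv _ (G0 a z o)] at k1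
    simpa only [hS, dif_pos o] using k1
  · have c0 : c ≠ 0 := fun e => k2 (Matrix.exists_mulVec_eq_zero_iff.1
      ⟨z', k1, by rw [k3, e, zero_smul]⟩)
    have o' : Ov F (Q.χ.symm ξ) (act a g) z' := ⟨F.inv a g o.1 k2, k1, by
      rw [ev_act, k3, ev_arg, H.cone.smul _ _ ((F.cd a o.1).1 z o.2.1) (pow_ne_zero _ c0), o.2.2]⟩
    have l0 : g.det / c ^ 2 ≠ 0 := div_ne_zero k2 (pow_ne_zero _ c0)
    have m := h.θ_mem ξ hξ a z o
    have e1 : ∀ b : BF d N, act (act b g) (g⁻¹ * (G a z o * dg (g.det / c ^ 2))) =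
        act (act b (G a z o)) (dg (g.det / c ^ 2)) := fun b => by
      rw [← act_act, Gl.act_inv _ k2, act_act]
    have e2 := key _ _ o' (g⁻¹ * (G a z o * dg (g.det / c ^ 2))) (by
      rw [e1, (hG a z o).2.2, h.θ_eq ξ hξ a z z' g c o k1 k2 k3, h.A_hom ξ hξ _ m _ l0])
    rw [h.θ_eq ξ hξ a z z' g c o k1 k2 k3, fr_hom h h' hξ hη m l0, ← key a z o _ (hG a z o).2.2,
      ← e1] at e2
    have e3 : (g⁻¹ * (G a z o * dg (g.det / c ^ 2))).det ≠ 0 := by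
      rw [Matrix.det_mul, Matrix.det_mul, dg_det, Matrix.det_nonsing_inv, Ring.inverse_eq_inv']
      exact mul_ne_zero (inv_ne_zero k2) (mul_ne_zero (G0 a z o) l0)
    rw [← Gl.act_inv (S _ _) e3, e2, Gl.act_inv _ e3]
  · have o0 := o.self_of_nhds
    have e1 := Q.χ.right_inv (h.sub hξ)
    obtain ⟨-, k1, g, c, k2, -, k3⟩ := h'.fam _ a z τ ha hz (o.mono fun s o => o.1) o0.2.1
      (by rw [o0.2.2]; exact ⟨Q.χ.map_target (h.sub hξ), e1.symm ▸ hξ⟩)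
    have k4 : ∀ᶠ s in 𝓝 τ, (g s).det ≠ 0 :=
      k3.mono fun s e => e.2.2.1.trans_ne (pow_ne_zero 2 e.2.1)
    refine (an_act' (fr_an (w := w) (t := t) (α := α) h h' hξ hη k1 (o.mono fun s o =>
      h.θ_mem ξ hξ _ _ o)) (an_inv k2.contDiffAt k4.self_of_nhds)).analyticAt.congr ?_
    filter_upwards [o, k3, k4] with s o k3 k4
    rw [← key _ _ o (g s) (by rw [k3.2.2.2.2, o.2.2, e1]), Gl.act_inv _ k4]
  · obtain ⟨k1, k2, k3⟩ := h.A_M ξ hξ v hv
    have k4 := key _ e0 ⟨k1, e0_ne, by rw [k2, (h.lam_in ξ hξ).2]⟩ 1 (by rw [act_one, k3])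
    rwa [act_one, k3] at k4

end Vale.Agent.P280Z.Tr
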