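import Vale.Agent.P280Z.Tr.Sk
import Vale.Agent.P280Z.Mp.Bf

/-!
# P280Z, block Tr: the structure of the fibres
-/

open scoped Manifold ContDiff Topology Matrix Matrix.Norms.Elementwise
open Set Filter
open Vale.Agent.P272.K Vale.Agent.P281Z Vale.Agent.P280Z.Mp

noncomputable section

namespace Vale.Agent.P280Z.Tr

namespace Str2

variable {n N r d D k ν p : ℕ} {V : Mf n} {P : Eqs r N} {pt : Cm N → V.X} {F : Fam V P pt d D k}
  {Mc : Mo ν p} {Q : ND V d N ν} {T : Type} [NormedAddCommGroup T] [NormedSpace ℂ T]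

theorem e0_ne : e0 ≠ 0 := fun h => by simpa [e0] using congrFun h 0

theorem dg_e0 (c : ℂ) : dg c *ᵥ e0 = (1 : ℂ) • e0 := by
  ext i
  fin_cases i <;> simp [dg, e0, Matrix.mulVec, dotProduct]

theorem dg_det {c : ℂ} (hc : c ≠ 0) : (dg c).det ≠ 0 := by simpa [dg, Matrix.det_fin_two] using hc

theorem ev_inf0 (a : BF d N) : ev (inf a E01) e0 = 0 := by
  rw [ev_inf, show E01 *ᵥ e0 = 0 by
    ext i
    fin_cases i <;> simp [E01, e0, Matrix.mulVec, dotProduct], map_zero]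

theorem act_lin (a b : BF d N) (c : ℂ) (g : M2) : act (a + c • b) g = act a g + c • act b g :=
  ev_inj fun z => by simp only [ev_act, ev_add, ev_smul]

theorem act_eq_zero {a : BF d N} {g : M2} (hg : g.det ≠ 0) (h : act a g = 0) : a = 0 := by
  rw [← act_one a, ← Matrix.mul_nonsing_inv g (IsUnit.mk0 _ hg), ← act_act, h]
  exact ev_inj fun z => by rw [ev_act, ev_zero, ev_zero]

theorem an_app {H W : Type} [NormedAddCommGroup H] [NormedSpace ℂ H] [NormedAddCommGroup W]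
    [NormedSpace ℂ W] {L : T → H →L[ℂ] W} {x : T → H} {τ : T} (hL : AnalyticAt ℂ L τ)
    (hx : AnalyticAt ℂ x τ) : AnalyticAt ℂ (fun s => L s (x s)) τ :=
  ((ContinuousLinearMap.id ℂ (H →L[ℂ] W)).analyticAt_bilinear _).fun_comp (hL.prod hx)

theorem an_lin {W W' : Type} [NormedAddCommGroup W] [NormedSpace ℂ W] [FiniteDimensional ℂ W]
    [NormedAddCommGroup W'] [NormedSpace ℂ W'] (L : W →ₗ[ℂ] W') {x : T → W} {τ : T}
    (hx : AnalyticAt ℂ x τ) : AnalyticAt ℂ (fun s => L (x s)) τ :=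
  ((LinearMap.toContinuousLinearMap L).analyticAt _).fun_comp hx

/-- the infinitesimal substitution is linear in the form -/
def infA (d N : ℕ) (ξ : M2) : BF d N →ₗ[ℂ] BF d N where
  toFun a := inf a ξ
  map_add' a b := ev_inj fun z => by
    rw [ev_add, ev_inf, ev_inf, ev_inf, show ev (a + b) = ev a + ev b from funext (ev_add a b),
      fderiv_add ((an_ev2 a).differentiable (by simp) z) ((an_ev2 b).differentiable (by simp) z)]
    rfl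
  map_smul' c a := ev_inj fun z => by
    rw [RingHom.id_apply, ev_smul, ev_inf, ev_inf,
      show ev (c • a) = c • ev a from funext (ev_smul c a),
      fderiv_const_smul ((an_ev2 a).differentiable (by simp) z)]
    rfl

theorem an_inf {a : T → BF d N} {τ : T} (ha : AnalyticAt ℂ a τ) (ξ : M2) :
    AnalyticAt ℂ (fun s => inf (a s) ξ) τ :=
  an_lin (infA d N ξ) ha

theorem ov (hN : NF F Mc Q) {ξ : Cm n} (hξ : ξ ∈ Q.B) {v : Cm ν} (hv : v ∈ Mc.C) :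
    Ov F (Q.χ.symm ξ) (Q.A ξ v) e0 :=
  ⟨(hN.A_M ξ hξ v hv).1, e0_ne, by rw [(hN.A_M ξ hξ v hv).2.1, (hN.lam_in ξ hξ).2]⟩

theorem uq (hN : NF F Mc Q) {ξ : Cm n} (hξ : ξ ∈ Q.B) {v w w' : Cm ν} (hv : v ∈ Mc.C)
    (hw : w ∈ Mc.TC v) (hw' : w' ∈ Mc.TC v) {c c' : ℂ}
    (h : Q.DA Mc ξ v (0, w) + c • inf (Q.A ξ v) E01 =
      Q.DA Mc ξ v (0, w') + c' • inf (Q.A ξ v) E01) : w = w' ∧ c = c' := by
  have := hN.ind ξ hξ v hv (w - w') (sub_mem hw hw') (c - c') (by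
    rw [show ((0 : Cm n), w - w') = (0, w) - (0, w') by simp, map_sub, sub_smul,
      sub_add_sub_comm, h, sub_self])
  exact ⟨sub_eq_zero.1 this.1, sub_eq_zero.1 this.2⟩

theorem val (hN : NF F Mc Q) (hA : NAP F Mc Q) {ξ : Cm n} (hξ : ξ ∈ Q.B) (w : Cm n) (t : ℂ)
    {η : Matrix (Fin ν) (Fin ν) ℂ} (hη : η ∈ Mc.g0) (α : Cm ν) {v : Cm ν} (hv : v ∈ Mc.C) :
    ev (Q.fr Mc ξ w t η α v) e0 = fderiv ℂ Q.lam ξ w + t • Q.lam ξ := by
  rw [ND.fr, ev_add, ev_add, ev_smul, ev_smul, ev_inf0, smul_zero, add_zero,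
    (hA.tg ξ hξ v hv w _ (hη v hv)).2, (hN.A_M ξ hξ v hv).2.1]

theorem anS (hN : NF F Mc Q) {ξ : Cm n} (hξ : ξ ∈ Q.B) {S : Am d N}
    (hS : S ∈ TA F (Q.χ.symm ξ)) : AnC Mc.C fun v => S (Q.A ξ v) e0 := fun l γ τ h1 h2 =>
  hS.2.2.2 l _ _ τ (hN.A_an l _ γ τ analyticAt_const h1 hξ h2) analyticAt_const
    (h2.mono fun _ h => ov hN hξ h)

theorem homS (hN : NF F Mc Q) {ξ : Cm n} (hξ : ξ ∈ Q.B) {S : Am d N}
    (hS : S ∈ TA F (Q.χ.symm ξ)) {v : Cm ν} (hv : v ∈ Mc.C) {c : ℂ} (hc : c ≠ 0) :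
    S (Q.A ξ (c • v)) e0 = act (S (Q.A ξ v) e0) (dg c) := by
  rw [hN.A_hom ξ hξ v hv c hc]
  exact hS.2.2.1 _ _ _ _ 1 (ov hN hξ hv) e0_ne (dg_det hc) (dg_e0 c)

/-- the coefficients of a vertical field are holomorphic on the cone -/
theorem anW (hL : LSOL) (hs : Mc.Sm) (hc : CAP Mc) (hN : NF F Mc Q) (hA : NAP F Mc Q) {ξ : Cm n}
    (hξ : ξ ∈ Q.B) {W : Cm ν → Cm ν} {c : Cm ν → ℂ} (hW : ∀ v ∈ Mc.C, W v ∈ Mc.TC v)
    {b : Cm ν → BF d N} (hb : AnC Mc.C b)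
    (e : ∀ v ∈ Mc.C, b v = Q.DA Mc ξ v (0, W v) + c v • inf (Q.A ξ v) E01) {l : ℕ}
    {γ : Cm l → Cm ν} {τ : Cm l} (h1 : AnalyticAt ℂ γ τ) (h2 : ∀ᶠ s in 𝓝 τ, γ s ∈ Mc.C) :
    AnalyticAt ℂ (fun s => W (γ s)) τ ∧ AnalyticAt ℂ (fun s => c (γ s)) τ := by
  have hv := h2.self_of_nhds
  obtain ⟨L, hL1, hL2⟩ := hA.loc ξ hξ _ hv
  have h3 : Mc.ρ (γ τ) (γ τ) = 0 := by
    have := (hs.ρκ _ hv).self_of_nhds.2
    rwa [(hs.anκ _ hv).2] at this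
  have h4 : AnalyticAt ℂ (fun s => fderiv ℂ (Mc.κ (γ τ)) (Mc.ρ (γ τ) (γ s))) τ :=
    AnalyticAt.fun_comp (g := fderiv ℂ (Mc.κ (γ τ))) (by rw [h3]; exact (hs.anκ _ hv).1.fderiv)
      ((hs.anρ _ hv).fun_comp h1)
  have h5 : AnalyticAt ℂ (fun s => (ξ, γ s)) τ := analyticAt_const.prod h1
  have h8 : AnalyticAt ℂ (fun s => L (ξ, γ s)) τ :=
    AnalyticAt.fun_comp (g := L) (f := fun s => (ξ, γ s)) hL1 h5
  have h6 := (h1.continuousAt.eventually (hc.ret _ hv)).and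
    ((h5.continuousAt.eventually hL2).and h2)
  have h7 := (hL (Cm l) (Cm (p + 1) × ℂ) (BF d N) (fun s =>
    ((L (ξ, γ s)).toLinearMap.comp ((LinearMap.inr ℂ _ _).comp
      (fderiv ℂ (Mc.κ (γ τ)) (Mc.ρ (γ τ) (γ s))).toLinearMap)).coprod
        (LinearMap.toSpanSingleton ℂ _ (inf (Q.A ξ (γ s)) E01)))
    (fun s => (fderiv ℂ (Mc.ρ (γ τ)) (γ s) (W (γ s)), c (γ s))) τ (fun h =>
      (an_app h8 ((analyticAt_const (v := 0)).prod (an_app h4 (analyticAt_const (v := h.1))))).fun_add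
        ((analyticAt_const (v := h.2)).fun_smul
          (an_inf (hN.A_an l _ γ τ analyticAt_const h1 hξ h2) E01)))
    ((injective_iff_map_eq_zero _).2 fun h h0 => by
      obtain ⟨k1, k2, -⟩ := h6.self_of_nhds
      obtain ⟨-, -, k3, k4⟩ := k1 hv
      have k5 := hN.ind ξ hξ _ hv _ (k3 h.1) h.2 (by rw [k2 hv 0 _ (k3 h.1)]; exact h0)
      exact Prod.ext (by rw [← k4 h.1, k5.1, map_zero]; rfl) k5.2)).2
    ((hb l γ τ h1 h2).congr (h6.mono fun s ⟨k1, k2, k3⟩ => by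
      show b (γ s) = L (ξ, γ s) (0, fderiv ℂ (Mc.κ (γ τ)) (Mc.ρ (γ τ) (γ s))
        (fderiv ℂ (Mc.ρ (γ τ)) (γ s) (W (γ s)))) + c (γ s) • inf (Q.A ξ (γ s)) E01
      rw [(k1 k3).2.1 _ (hW _ k3), ← k2 k3 0 _ (hW _ k3), e _ k3]))
  exact ⟨(an_app h4 (analyticAt_fst.fun_comp h7)).congr
    (h6.mono fun s ⟨k1, _, k3⟩ => (k1 k3).2.1 _ (hW _ k3)), analyticAt_snd.fun_comp h7⟩

end Str2

open Str2 in
theorem str2_of (hL : LSOL) : STR2 := by
  intro n N r d D k ν p V P pt F Mc hy Q hN hA hE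
  have hs := hy.sm
  refine ⟨hE, fun ξ hξ S hS h0 => ?_, fun ξ hξ S hS => ?_, fun ξ hξ w t η hη α h0 => ?_,
    fun ξ hξ w t η hη α v hv => val hN hA hξ w t hη α hv, fun w t η hη α l ξ v τ h1 h2 h3 h4 => ?_⟩
  · funext a z
    by_cases h : Ov F (Q.χ.symm ξ) a z
    · obtain ⟨g, c, hc, h1, h2, h3⟩ := hA.nrm ξ hξ a z h
      have h4 : g.det ≠ 0 := h1 ▸ pow_ne_zero 2 hc
      refine act_eq_zero h4 ?_
      rw [← hS.2.2.1 a z e0 g c h e0_ne h4 h2, h3]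
      exact h0 _ (hN.θ_mem ξ hξ a z h)
    · exact hS.1 a z h
  · have h1 : ∀ j, ∃ a, ∀ v ∈ Mc.C, ev (S (Q.A ξ v) e0) e0 j = a := fun j =>
      hs.deg0 _ (fun l γ τ k1 k2 => analyticAt_pi_iff.1
        (((evL d N e0).analyticAt _).fun_comp (anS hN hξ hS l γ τ k1 k2)) j) fun v hv c hc => by
          rw [homS hN hξ hS hv hc, ev_act, dg_e0, one_smul]
    choose a ha using h1
    obtain ⟨v₀, hv₀⟩ := hs.ne
    obtain ⟨w, t, h2⟩ := (hN.lam_tan ξ hξ a).1 (by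
      have := hS.2.1 _ _ (ov hN hξ hv₀) e0
      rwa [(hN.A_M ξ hξ v₀ hv₀).2.1, show ev (S (Q.A ξ v₀) e0) e0 = a from
        funext fun j => ha j v₀ hv₀] at this)
    obtain ⟨S₀, hS₀, h3⟩ := hE ξ hξ w t 0 (zero_mem _) 0
    have hS₁ := sub_mem hS hS₀
    have h4 : ∀ v, ∃ (W : Cm ν) (c : ℂ), v ∈ Mc.C → W ∈ Mc.TC v ∧ (S - S₀) (Q.A ξ v) e0 =
        Q.DA Mc ξ v (0, W) + c • inf (Q.A ξ v) E01 := fun v => by
      by_cases hv : v ∈ Mc.C
      · obtain ⟨W, hW, c, h⟩ := hN.tan ξ hξ v hv _ (hS₁.2.1 _ _ (ov hN hξ hv)) (by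
          rw [Pi.sub_apply, Pi.sub_apply, ev_sub, h3 v hv, val hN hA hξ w t (zero_mem _) 0 hv, ← h2,
            sub_eq_zero]
          exact funext fun j => ha j v hv)
        exact ⟨W, c, fun _ => ⟨hW, h⟩⟩
      · exact ⟨0, 0, fun h => absurd h hv⟩
    choose W c h4 using h4
    have h5 := fun l γ τ => anW hL hs hy.cap hN hA hξ (fun v hv => (h4 v hv).1) (anS hN hξ hS₁)
      (fun v hv => (h4 v hv).2) (l := l) (γ := γ) (τ := τ)
    have h6 : ∀ v ∈ Mc.C, ∀ u : ℂ, u ≠ 0 → W (u • v) = u • W v ∧ c (u • v) = u * c v := by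
      intro v hv u hu
      have hv' := hs.smul v hv u hu
      obtain ⟨k1, k2⟩ := hA.hom ξ hξ v hv 0 _ (h4 v hv).1 u hu
      refine uq hN hξ hv' (h4 _ hv').1 (by
        rw [hy.cap.smul v hv u hu]; exact Submodule.smul_mem _ _ (h4 v hv).1) ?_
      rw [← (h4 _ hv').2, homS hN hξ hS₁ hv hu, (h4 v hv).2, act_lin, k1, ← k2, smul_smul, mul_comm]
    have h7 : ∀ j, ∃ β : Cm ν, ∀ v ∈ Mc.C, W v j = β ⬝ᵥ v := fun j =>
      hs.deg1 _ (fun l γ τ k1 k2 => analyticAt_pi_iff.1 (h5 l γ τ k1 k2).1 j) fun v hv u hu => by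
        rw [(h6 v hv u hu).1]; rfl
    choose η hη using h7
    obtain ⟨α, hα⟩ := hs.deg1 c (fun l γ τ k1 k2 => (h5 l γ τ k1 k2).2) fun v hv u hu =>
      (h6 v hv u hu).2
    have h8 : ∀ v ∈ Mc.C, Matrix.of η *ᵥ v = W v := fun v hv => funext fun j => (hη j v hv).symm
    refine ⟨w, t, Matrix.of η, fun v hv => h8 v hv ▸ (h4 v hv).1, α, fun v hv => ?_⟩
    have h9 := (h4 v hv).2
    rw [Pi.sub_apply, Pi.sub_apply, sub_eq_iff_eq_add, h3 v hv] at h9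
    rw [h9, ND.fr, ND.fr, h8 v hv, ← hα v hv, Matrix.zero_mulVec, zero_dotProduct, zero_smul,
      show (w, W v) = (0, W v) + (w, 0) by simp, map_add]
    abel
  · obtain ⟨v₀, hv₀⟩ := hs.ne
    obtain ⟨rfl, rfl⟩ := hN.lam_ind ξ hξ w t (by
      rw [← val hN hA hξ w t hη α hv₀, h0 v₀ hv₀, ev_zero])
    have h1 : ∀ v ∈ Mc.C, η *ᵥ v = 0 ∧ α ⬝ᵥ v = 0 := fun v hv =>
      hN.ind ξ hξ v hv _ (hη v hv) _ (by simpa only [ND.fr, zero_smul, add_zero] using h0 v hv)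
    exact ⟨rfl, rfl, funext fun i => hs.span (η i) fun v hv => congrFun (h1 v hv).1 i,
      hs.span α fun v hv => (h1 v hv).2⟩
  · obtain ⟨L, hL1, hL2⟩ := hA.loc _ h3 _ h4.self_of_nhds
    have h5 := hN.A_an l ξ v τ h1 h2 h3 h4
    refine AnalyticAt.fun_add (AnalyticAt.fun_add ?_ (analyticAt_const.fun_smul h5))
      ((an_lin (dotProductBilin ℂ ℂ α) h2).fun_smul (an_inf h5 _))
    refine (an_app (AnalyticAt.fun_comp (g := L) (f := fun s => (ξ s, v s)) hL1 (h1.prod h2))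
      ((analyticAt_const (v := w)).prod (an_lin (Matrix.mulVecLin η) h2))).congr ?_
    filter_upwards [(h1.prod h2).continuousAt.eventually hL2, h4] with s k1 k2
    exact (k1 k2 w _ (hη _ k2)).symm

end Vale.Agent.P280Z.Tr
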