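import Vale.Agent.P280Z.Tr.Sk
import Vale.Agent.P280Z.Mp.Bf

/-!
# P280Z, block Tr: the bundle of the fields
-/

open scoped Manifold ContDiff Topology Matrix Matrix.Norms.Elementwise
open Set Filter
open Vale.Agent.P272.K Vale.Agent.P281Z Vale.Agent.P280Z.Mp
open Vale.Agent.P277Z (Hol trans_an)

noncomputable section

namespace Vale.Agent.P280Z.Tr

namespace TbX

theorem fin_ker {I H W : Type} [AddCommGroup H] [Module ℂ H] [FiniteDimensional ℂ H]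
    [AddCommGroup W] [Module ℂ W] (φ : I → H →ₗ[ℂ] W) (h : ∀ x, (∀ i, φ i x = 0) → x = 0) :
    ∃ s : Finset I, ∀ x, (∀ i ∈ s, φ i x = 0) → x = 0 := by
  classical
  obtain ⟨_, ⟨s, rfl⟩, hs⟩ := WellFounded.has_min (wellFounded_lt (α := Submodule ℂ H))
    (range fun s : Finset I => s.inf fun i => LinearMap.ker (φ i)) ⟨_, ∅, rfl⟩
  refine ⟨s, fun x hx => h x fun i => ?_⟩
  have h1 := eq_of_le_of_not_lt (Finset.inf_mono (Finset.subset_insert i s))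
    (hs _ ⟨insert i s, rfl⟩)
  have h2 : x ∈ s.inf fun i => LinearMap.ker (φ i) := Submodule.mem_finsetInf.2 hx
  rw [← h1] at h2
  exact Submodule.mem_finsetInf.1 h2 i (Finset.mem_insert_self i s)

theorem an_lin {T W : Type} [NormedAddCommGroup T] [NormedSpace ℂ T] [NormedAddCommGroup W]
    [NormedSpace ℂ W] {q : ℕ} {L : T → Cm q →ₗ[ℂ] W} {c : T → Cm q} {τ : T}
    (hL : ∀ h, AnalyticAt ℂ (fun t => L t h) τ) (hc : AnalyticAt ℂ c τ) :
    AnalyticAt ℂ (fun t => L t (c t)) τ := by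
  simp only [fun t => LinearMap.pi_apply_eq_sum_univ (L t) (c t)]
  exact Finset.analyticAt_fun_sum _ fun i _ => (analyticAt_pi_iff.1 hc i).fun_smul (hL _)

variable {n N r d D k ν p : ℕ} {V : Mf n} {P : Eqs r N} {pt : Cm N → V.X} {F : Fam V P pt d D k}
  {Mc : Mo ν p} {Q : ND V d N ν} {x : V.X}

/-- substitution as a linear map -/
def actL (g : M2) : BF d N →ₗ[ℂ] BF d N where
  toFun a := act a g
  map_add' a b := ev_inj fun z => by rw [ev_add, ev_act, ev_act, ev_act, ev_add]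
  map_smul' c a := ev_inj fun z => by rw [RingHom.id_apply, ev_smul, ev_act, ev_act, ev_smul]

/-- the standard frame as a linear map -/
def frL (Q : ND V d N ν) (Mc : Mo ν p) (ξ : Cm n) (v : Cm ν) : Co n Mc →ₗ[ℂ] BF d N where
  toFun c := Q.fr Mc ξ c.1.1 c.1.2 c.2.1 c.2.2 v
  map_add' c c' := by
    simp only [ND.fr, Prod.fst_add, Prod.snd_add, Submodule.coe_add, Matrix.add_mulVec,
      ← Prod.mk_add_mk, map_add, add_smul, add_dotProduct]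
    abel
  map_smul' t c := by
    simp only [ND.fr, Prod.smul_fst, Prod.smul_snd, Submodule.coe_smul, Matrix.smul_mulVec,
      ← Prod.smul_mk, map_smul, smul_dotProduct, smul_eq_mul, mul_smul, RingHom.id_apply, smul_add]

/-- `S` is the field with the coordinates `c` -/
def Is (F : Fam V P pt d D k) (Q : ND V d N ν) (x : V.X) (c : Co n Mc) (S : Am d N) : Prop :=
  S ∈ TA F x ∧ ∀ v ∈ Mc.C, S (Q.A (Q.χ x) v) e0 = frL Q Mc (Q.χ x) v c

theorem Is.ext (hS : Str F Mc Q) (hx : Q.Dm x) {c : Co n Mc} {S S' : Am d N} (h : Is F Q x c S)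
    (h' : Is F Q x c S') : S = S' :=
  sub_eq_zero.1 (hS.ext _ hx.2 _ (by rw [Q.χ.left_inv hx.1]; exact (TA F x).sub_mem h.1 h'.1)
    fun v hv => by rw [Pi.sub_apply, Pi.sub_apply, h.2 v hv, h'.2 v hv, sub_self])

theorem ex_b (hS : Str F Mc Q) (hx : Q.Dm x) :
    ∃ b : Co n Mc →ₗ[ℂ] Am d N, ∀ c, Is F Q x c (b c) := by
  choose f h1 h2 using fun c : Co n Mc => hS.ex _ hx.2 c.1.1 c.1.2 _ c.2.1.2 c.2.2
  rw [Q.χ.left_inv hx.1] at h1
  have h3 : ∀ c, Is F Q x c (f c) := fun c => ⟨h1 c, h2 c⟩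
  refine ⟨⟨⟨f, fun c c' => (h3 _).ext hS hx ⟨(TA F x).add_mem (h1 c) (h1 c'), fun v hv => ?_⟩⟩,
    fun t c => (h3 _).ext hS hx ⟨(TA F x).smul_mem t (h1 c), fun v hv => ?_⟩⟩, h3⟩
  · rw [Pi.add_apply, Pi.add_apply, (h3 c).2 v hv, (h3 c').2 v hv, map_add]
  · rw [map_smul, ← (h3 c).2 v hv]
    rfl

theorem ex_c (hS : Str F Mc Q) (hx : Q.Dm x) {S : Am d N} (h : S ∈ TA F x) :
    ∃ c : Co n Mc, Is F Q x c S := by
  obtain ⟨w, t, η, hη, α, h1⟩ := hS.span _ hx.2 S (by rwa [Q.χ.left_inv hx.1])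
  exact ⟨((w, t), ⟨η, hη⟩, α), h, h1⟩

theorem fr_inj (hS : Str F Mc Q) {ξ : Cm n} (hξ : ξ ∈ Q.B) (c : Co n Mc)
    (h : ∀ v : Mc.C, frL Q Mc ξ v c = 0) : c = 0 := by
  obtain ⟨h1, h2, h3, h4⟩ := hS.uniq _ hξ c.1.1 c.1.2 _ c.2.1.2 c.2.2 fun v hv => h ⟨v, hv⟩
  exact Prod.ext (Prod.ext h1 h2) (Prod.ext (Subtype.ext h3) h4)

theorem e0_ne : e0 ≠ 0 := fun h => one_ne_zero (congrFun h 0)

theorem jnt (hL : LSOL) (hN : NF F Mc Q) (hA : NAP F Mc Q) (hS : Str F Mc Q) {l q : ℕ}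
    (β : Cm q →ₗ[ℂ] Co n Mc) {a : Cm l → BF d N} {z : Cm l → Cm 2} {c : Cm l → Cm q}
    {s : Cm l → Am d N} {τ : Cm l} (ha : AnalyticAt ℂ a τ) (hz : AnalyticAt ℂ z τ)
    (hc : AnalyticAt ℂ c τ) (hM : ∀ᶠ t in 𝓝 τ, F.M (a t) ∧ z t ≠ 0)
    (hD : Q.Dm (pt (ev (a τ) (z τ))))
    (hs : ∀ᶠ t in 𝓝 τ, Q.Dm (pt (ev (a t) (z t))) → Is F Q (pt (ev (a t) (z t))) (β (c t)) (s t)) :
    AnalyticAt ℂ (fun t => s t (a t) (z t)) τ := by
  obtain ⟨h1, h2, g, c', h3, -, h4⟩ := hA.fam _ a z τ ha hz (hM.mono fun _ h => h.1)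
    hM.self_of_nhds.2 hD
  have h5 : ∀ᶠ t in 𝓝 τ, Q.θ (a t) (z t) ∈ Mc.C := by
    filter_upwards [hM, h4] with t k1 k2
    exact hN.θ_mem _ k2.1.2 _ _ ⟨k1.1, k1.2, (Q.χ.left_inv k2.1.1).symm⟩
  have h6 : ∀ᶠ t in 𝓝 τ, (g t).det ≠ 0 := h4.mono fun t k => k.2.2.1 ▸ pow_ne_zero 2 k.2.1
  refine (hL _ _ _ (fun t => actL (g t)) _ τ
    (fun h => (an_act' contDiffAt_const h3.contDiffAt).analyticAt) fun b b' e => ?_).2 ?_
  · have k := congrArg (act · (g τ)⁻¹) e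
    simpa only [actL, LinearMap.coe_mk, AddHom.coe_mk, act_act, act_one,
      Matrix.mul_nonsing_inv _ h6.self_of_nhds.isUnit] using k
  · refine (an_lin (L := fun t => (frL Q Mc (Q.χ (pt (ev (a t) (z t)))) (Q.θ (a t) (z t))).comp β)
      (fun h => hS.an _ _ _ (β h).2.1.2 _ l _ _ τ h1 h2 hD.2 h5) hc).congr ?_
    filter_upwards [hM, h4, h5, h6, hs] with t k1 k2 k3 k4 k5
    rw [LinearMap.comp_apply, ← (k5 k2.1).2 _ k3, ← k2.2.2.2.2]
    exact (k5 k2.1).1.2.2.1 _ _ _ _ _ ⟨k1.1, k1.2, rfl⟩ e0_ne k4 k2.2.2.2.1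

theorem dm_open (hN : NF F Mc Q) : IsOpen {x | Q.Dm x} := Q.χ.isOpen_inter_preimage hN.opn

theorem hol (hL : LSOL) (hN : NF F Mc Q) (hS : Str F Mc Q) {Q' : ND V d N ν} (hN' : NF F Mc Q')
    (hA' : NAP F Mc Q') (hS' : Str F Mc Q') {q : ℕ} (β : Cm q ≃ₗ[ℂ] Co n Mc) (hx : Q.Dm x)
    (hx' : Q'.Dm x) {c : V.X → Cm q} {c' : Cm q} {S : V.X → Am d N}
    (h : ∀ y, Q.Dm y → Q'.Dm y → Is F Q y (β (c y)) (S y) ∧ Is F Q' y (β c') (S y)) (i : Fin q) :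
    Hol n (fun y => c y i) x := by
  intro e he
  obtain ⟨s, hs⟩ := fin_ker (fun v : Mc.C => frL Q Mc (Q.χ x) v) (fr_inj hS hx.2)
  have e1 := e.left_inv he.2
  have h1 : AnalyticAt ℂ (fun t => Q.χ (e.symm t)) (e x) := trans_an ⟨hN.atl, hx.1⟩ he
  have h2 : ∀ᶠ t in 𝓝 (e x), Q.Dm (e.symm t) ∧ Q'.Dm (e.symm t) :=
    (e.continuousAt_symm (e.map_source he.2)).eventually (by
      rw [e1]
      exact ((dm_open hN).inter (dm_open hN')).mem_nhds ⟨hx, hx'⟩)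
  have h3 : Q.χ (e.symm (e x)) ∈ Q.B := h2.self_of_nhds.1.2
  refine analyticAt_pi_iff.1 ((hL _ _ (s → BF d N) (fun t => LinearMap.pi fun v =>
    (frL Q Mc (Q.χ (e.symm t)) v.1).comp β.toLinearMap) (fun t => c (e.symm t)) (e x)
    (fun b => analyticAt_pi_iff.2 fun v => hS.an _ _ _ (β b).2.1.2 _ n _ (fun _ => v.1) _ h1
      analyticAt_const h3 (.of_forall fun _ => v.1.2))
    ((injective_iff_map_eq_zero _).2 fun b hb => β.map_eq_zero_iff.1 (hs _ fun v hv => ?_))).2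
    (analyticAt_pi_iff.2 fun v => ?_)) i
  · rw [← e1]
    exact congrFun hb ⟨v, hv⟩
  have h4 : ∀ᶠ t in 𝓝 (e x), F.M (Q.A (Q.χ (e.symm t)) v.1) ∧
      pt (ev (Q.A (Q.χ (e.symm t)) v.1) e0) = e.symm t := h2.mono fun t k => by
    obtain ⟨k1, k2, -⟩ := hN.A_M _ k.1.2 _ v.1.2
    exact ⟨k1, by rw [k2, (hN.lam_in _ k.1.2).2, Q.χ.left_inv k.1.1]⟩
  refine (jnt hL hN' hA' hS' β.toLinearMap (a := fun t => Q.A (Q.χ (e.symm t)) v.1)
    (z := fun _ => e0) (c := fun _ => c') (s := fun t => S (e.symm t))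
    (hN.A_an n _ (fun _ => v.1) _ h1 analyticAt_const h3 (.of_forall fun _ => v.1.2))
    analyticAt_const analyticAt_const (h4.mono fun _ k => ⟨k.1, e0_ne⟩)
    (h4.self_of_nhds.2.symm ▸ h2.self_of_nhds.2) ?_).congr ?_
  · filter_upwards [h2, h4] with t k1 k2 _
    rw [k2.2]
    exact (h _ k1.1 k1.2).2
  · filter_upwards [h2] with t k
    exact (h _ k.1 k.2).1.2 _ v.1.2

end TbX

open TbX in
theorem tbx_of (hL : LSOL) : TBX := by
  intro n N r d D k ν p V P pt F Mc _ h0 h1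
  classical
  let β : Cm (Module.finrank ℂ (Co n Mc)) ≃ₗ[ℂ] Co n Mc := (Module.finBasis ℂ _).equivFun.symm
  choose! b hb using fun (i : {Q // NF F Mc Q}) x (hx : i.1.Dm x) => ex_b (h1 _ i.2).2 hx
  have hr : ∀ i x, i.1.Dm x → ∀ S ∈ TA F x, ∃ c, b i x (β c) = S := fun i x hx S hS => by
    obtain ⟨c, hc⟩ := ex_c (h1 _ i.2).2 hx hS
    exact ⟨β.symm c, by rw [β.apply_symm_apply]; exact (hb i x hx c).ext (h1 _ i.2).2 hx hc⟩
  refine ⟨⟨TA F, _, {Q // NF F Mc Q}, fun i => {x | i.1.Dm x},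
    fun i x => (b i x).comp β.toLinearMap⟩, fun i => i.1, β,
    ⟨fun i => dm_open i.2, fun x => ?_, fun i x hx => ?_, fun i x hx => ?_, fun i j x hi hj => ?_⟩,
    fun _ => rfl, fun i => i.2, fun i => (h1 _ i.2).2, fun _ _ => Iff.rfl,
    fun i x hx c => (hb i x hx _).2, ?_⟩
  · obtain ⟨Q, k1, k2⟩ := h0 x
    exact ⟨⟨Q, k1⟩, k2⟩
  · refine (injective_iff_map_eq_zero _).2 fun c hc => β.map_eq_zero_iff.1
      (fr_inj (h1 _ i.2).2 hx.2 _ fun v => ?_)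
    rw [← (hb i x hx _).2 _ v.2, show b i x (β c) = 0 from hc]
    rfl
  · exact le_antisymm (by rintro _ ⟨c, rfl⟩; exact (hb i x hx _).1) (hr i x hx)
  · choose! col hc using fun y (hy : i.1.Dm y ∧ j.1.Dm y) l =>
      hr i y hy.1 _ (hb j y hy.2 (β fun l' => if l = l' then 1 else 0)).1
    refine ⟨fun y => Matrix.of fun a l => col y l a, fun a l =>
      hol hL i.2 (h1 _ i.2).2 j.2 (h1 _ j.2).1 (h1 _ j.2).2 β hi hj (c := fun y => col y l)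
        (c' := fun l' => if l = l' then 1 else 0)
        (S := fun y => b i y (β (col y l))) (fun y k1 k2 => ⟨hb i y k1 _, ?_⟩) a, ?_⟩
    · rw [hc y ⟨k1, k2⟩]
      exact hb j y k2 _
    · filter_upwards [((dm_open i.2).inter (dm_open j.2)).mem_nhds ⟨hi, hj⟩] with y hy c
      have e : (Matrix.of fun a l => col y l a) *ᵥ c = ∑ l, c l • col y l := by
        funext a
        simp [Matrix.mulVec, dotProduct, mul_comm]
      rw [e, map_sum, LinearMap.pi_apply_eq_sum_univ]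
      exact Finset.sum_congr rfl fun l _ => by
        rw [map_smul]
        exact congrArg _ (hc y hy l).symm
  · rintro l a z s τ ha hz hM ⟨i, hi, c, hc, hs⟩
    exact jnt hL i.2 (h1 _ i.2).1 (h1 _ i.2).2 β.toLinearMap ha hz hc hM hi
      (hs.mono fun t e hd => e ▸ hb i _ hd _)

end Vale.Agent.P280Z.Tr
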