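import Vale.Agent.P280Z.Tr.Top
import Vale.Agent.P280Z.Tr.Cap
import Vale.Agent.P280Z.Tr.Chg
import Vale.Agent.P280Z.Tr.Crv
import Vale.Agent.P280Z.Tr.Div
import Vale.Agent.P280Z.Tr.Dth
import Vale.Agent.P280Z.Tr.Fld
import Vale.Agent.P280Z.Tr.Hom
import Vale.Agent.P280Z.Tr.Inj
import Vale.Agent.P280Z.Tr.Jet
import Vale.Agent.P280Z.Tr.Lam
import Vale.Agent.P280Z.Tr.Nap
import Vale.Agent.P280Z.Tr.Nf
import Vale.Agent.P280Z.Tr.Omb
import Vale.Agent.P280Z.Tr.Omt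
import Vale.Agent.P280Z.Tr.Omv
import Vale.Agent.P280Z.Tr.Str1
import Vale.Agent.P280Z.Tr.Str2
import Vale.Agent.P280Z.Tr.Tbx
import Vale.Agent.P280Z.Tr.VerD
import Vale.Agent.P280Z.Tr.AllA

/-!
# P280Z, block Tr: the output
-/

namespace Vale.Agent.P280Z.Tr

theorem nfx' : NFX := fun F Mc H h => by
  obtain ⟨δ, hy⟩ := H.hyp
  exact nfx F Mc hy H.sm H.dimD H.dim fun x => (h x).imp fun _ k => k.imp fun _ q => q.symm

theorem trc_ha (h : HA) : TRC :=
  trc_of h capx nfx' napx str1 (str2_of lsol) (tbx_of lsol) fld dth jet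
    (inj_of lsol hom div (crv_of lsol) dth) (omt_of lsol div lch) (omv_of div (crv_of lsol) dth)
    (omb_of (chg_of lch dth)) (chg_of lch dth)

/-- **block Tr** -/
theorem trc : TRC := trc_ha ha

end Vale.Agent.P280Z.Tr
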