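import Vale.Agent.P280Z.Tr.Sk
import Vale.Agent.P280Z.Ma.Gloc
import Vale.Agent.P280Z.Mp.Bf
import Vale.Agent.P280Z.Mp.Free
import Vale.Agent.P280Z.Mp.Tub

/-!
# P280Z, block Tr: shared lemmas
-/

open scoped Manifold ContDiff Topology Matrix Matrix.Norms.Elementwise
open Set Filter
open Vale.Agent.P272.K Vale.Agent.P281Z Vale.Agent.P280Z.Mp

noncomputable section

namespace Vale.Agent.P280Z.Tr

section an
variable {T W : Type} [NormedAddCommGroup T] [NormedSpace ℂ T] [NormedAddCommGroup W]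
  [NormedSpace ℂ W]

/-- a linear chart of a finite dimensional space -/
theorem ex_cm (T : Type) [NormedAddCommGroup T] [NormedSpace ℂ T] [FiniteDimensional ℂ T] :
    ∃ l, Nonempty (Cm l ≃L[ℂ] T) :=
  ⟨Module.finrank ℂ T, ⟨ContinuousLinearEquiv.ofFinrankEq (by simp)⟩⟩

theorem an_comp {l : ℕ} (φ : Cm l ≃L[ℂ] T) {f : T → W} {τ : T} (h : AnalyticAt ℂ f τ) :
    AnalyticAt ℂ (fun s => f (φ s)) (φ.symm τ) :=
  AnalyticAt.comp_of_eq h (φ.toContinuousLinearMap.analyticAt _) (φ.apply_symm_apply τ)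

theorem ana_of_cm {l : ℕ} (φ : Cm l ≃L[ℂ] T) {f : T → W} {τ : T}
    (h : AnalyticAt ℂ (fun s => f (φ s)) (φ.symm τ)) : AnalyticAt ℂ f τ := by
  have := h.comp (φ.symm.toContinuousLinearMap.analyticAt τ)
  refine this.congr (Eventually.of_forall fun t => ?_)
  show f (φ (φ.symm t)) = f t
  rw [φ.apply_symm_apply]

theorem ev_comp {l : ℕ} (φ : Cm l ≃L[ℂ] T) {p : T → Prop} {τ : T} (h : ∀ᶠ t in 𝓝 τ, p t) :
    ∀ᶠ s in 𝓝 (φ.symm τ), p (φ s) := by
  have c : Tendsto φ (𝓝 (φ.symm τ)) (𝓝 τ) := by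
    have := φ.continuous.tendsto (φ.symm τ)
    rwa [φ.apply_symm_apply] at this
  exact c.eventually h

theorem ev_of_cm {l : ℕ} (φ : Cm l ≃L[ℂ] T) {p : T → Prop} {τ : T}
    (h : ∀ᶠ s in 𝓝 (φ.symm τ), p (φ s)) : ∀ᶠ t in 𝓝 τ, p t :=
  ((φ.symm.continuous.tendsto τ).eventually h).mono fun t k => by
    rwa [φ.apply_symm_apply] at k

theorem AnC.an [FiniteDimensional ℂ T] {ν : ℕ} {C : Set (Cm ν)} {f : Cm ν → W} (h : AnC C f)
    {γ : T → Cm ν} {τ : T} (hγ : AnalyticAt ℂ γ τ) (hC : ∀ᶠ s in 𝓝 τ, γ s ∈ C) :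
    AnalyticAt ℂ (fun s => f (γ s)) τ := by
  obtain ⟨l, ⟨φ⟩⟩ := ex_cm T
  exact ana_of_cm φ (h l (fun s => γ (φ s)) _ (an_comp φ hγ) (ev_comp φ hC))

theorem an_iff {f : T → W} {τ : T} [CompleteSpace W] :
    ContDiffAt ℂ ω f τ ↔ AnalyticAt ℂ f τ := ⟨fun h => h.analyticAt, fun h => h.contDiffAt⟩

theorem an_pi {ι : Type} [Fintype ι] {f : T → ι → W} {τ : T}
    (h : ∀ i, AnalyticAt ℂ (fun t => f t i) τ) : AnalyticAt ℂ f τ := AnalyticAt.pi h

theorem an_app {ι : Type} [Fintype ι] {f : T → ι → W} {τ : T} (h : AnalyticAt ℂ f τ) (i : ι) :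
    AnalyticAt ℂ (fun t => f t i) τ := analyticAt_pi_iff.1 h i

variable {m m' m'' : Type} [Fintype m] [Fintype m'] [Fintype m''] {τ : T}

theorem an_ent {A : T → Matrix m m' ℂ} (h : AnalyticAt ℂ A τ) (i : m) (j : m') :
    AnalyticAt ℂ (fun t => A t i j) τ := an_app (an_app (f := A) h i) j

theorem an_mat {A : T → Matrix m m' ℂ} (h : ∀ i j, AnalyticAt ℂ (fun t => A t i j) τ) :
    AnalyticAt ℂ A τ := an_pi (f := A) fun i => an_pi (h i)

theorem an_mulVec {A : T → Matrix m m' ℂ} {x : T → m' → ℂ} (hA : AnalyticAt ℂ A τ)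
    (hx : AnalyticAt ℂ x τ) : AnalyticAt ℂ (fun t => A t *ᵥ x t) τ :=
  an_pi fun i => Finset.analyticAt_fun_sum _ fun j _ => (an_ent hA i j).mul (an_app hx j)

theorem an_dot {A x : T → m → ℂ} (hA : AnalyticAt ℂ A τ) (hx : AnalyticAt ℂ x τ) :
    AnalyticAt ℂ (fun t => A t ⬝ᵥ x t) τ :=
  Finset.analyticAt_fun_sum _ fun j _ => (an_app hA j).mul (an_app hx j)

theorem an_mul {A : T → Matrix m m' ℂ} {B : T → Matrix m' m'' ℂ} (hA : AnalyticAt ℂ A τ)
    (hB : AnalyticAt ℂ B τ) : AnalyticAt ℂ (fun t => A t * B t) τ :=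
  an_mat fun i k => Finset.analyticAt_fun_sum _ fun j _ => (an_ent hA i j).mul (an_ent hB j k)

theorem an_det [DecidableEq m] {A : T → Matrix m m ℂ} (hA : AnalyticAt ℂ A τ) :
    AnalyticAt ℂ (fun t => (A t).det) τ := by
  simp only [Matrix.det_apply']
  exact Finset.analyticAt_fun_sum _ fun σ _ => analyticAt_const.mul
    (Finset.analyticAt_fun_prod _ fun i _ => an_ent hA _ _)

theorem an_inv [DecidableEq m] {A : T → Matrix m m ℂ} (hA : AnalyticAt ℂ A τ)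
    (h : (A τ).det ≠ 0) : AnalyticAt ℂ (fun t => (A t)⁻¹) τ := by
  simp only [Matrix.inv_def, Ring.inverse_eq_inv']
  refine ((an_det hA).inv h).smul (an_mat fun i j => ?_)
  simp only [Matrix.adjugate_apply]
  refine an_det (an_mat fun a b => ?_)
  simp only [Matrix.updateRow_apply]
  split_ifs
  exacts [analyticAt_const, an_ent hA _ _]

/-- a family of linear maps applied to a family of vectors -/
theorem an_lin {H : Type} [NormedAddCommGroup H] [NormedSpace ℂ H] [FiniteDimensional ℂ H]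
    {L : T → H →ₗ[ℂ] W} {x : T → H} (hL : ∀ h, AnalyticAt ℂ (fun t => L t h) τ)
    (hx : AnalyticAt ℂ x τ) : AnalyticAt ℂ (fun t => L t (x t)) τ := by
  let b := Module.finBasis ℂ H
  have e : (fun t => L t (x t)) = fun t => ∑ i, b.repr (x t) i • L t (b i) := funext fun t => by
    conv_lhs => rw [← b.sum_repr (x t)]
    simp only [map_sum, map_smul]
  rw [e]
  exact Finset.analyticAt_fun_sum _ fun i _ =>
    (((b.coord i).toContinuousLinearMap.analyticAt _).comp hx).smul (hL _)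

end an

theorem lsol : LSOL := by
  intro T H W _ _ _ _ _ _ _ _ L x τ hL hi
  obtain ⟨l, hl⟩ := (L τ).exists_leftInverse_of_injective (LinearMap.ker_eq_bot.2 hi)
  let b := Module.finBasis ℂ H
  let A : T → Matrix _ _ ℂ := fun t => LinearMap.toMatrix b b (l.comp (L t))
  have hA : AnalyticAt ℂ A τ := an_mat fun i j => by
    simp only [A, LinearMap.toMatrix_apply]
    exact (((b.coord i).comp l).toContinuousLinearMap.analyticAt _).comp (hL (b j))
  have h1 : (A τ).det ≠ 0 := by simp only [A, hl, LinearMap.toMatrix_id, Matrix.det_one]; simp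
  have h2 : ∀ᶠ t in 𝓝 τ, (A t).det ≠ 0 := (an_det hA).continuousAt.eventually_ne h1
  have key : ∀ t, (A t).det ≠ 0 → ∀ h, (A t)⁻¹ *ᵥ b.repr (l (L t h)) = b.repr h := fun t k h => by
    have e : ⇑(b.repr (l (L t h))) = A t *ᵥ b.repr h :=
      (LinearMap.toMatrix_mulVec_repr b b (l.comp (L t)) h).symm
    rw [e, Matrix.mulVec_mulVec, Matrix.nonsing_inv_mul _ k.isUnit, Matrix.one_mulVec]
  refine ⟨h2.mono fun t k h h' e => ?_, fun hx => ?_⟩
  · apply b.repr.injective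
    apply DFunLike.coe_injective
    show ⇑(b.repr h) = ⇑(b.repr h')
    rw [← key t k h, ← key t k h', e]
  · have h3 : AnalyticAt ℂ (fun t => (A t)⁻¹ *ᵥ b.repr (l (L t (x t)))) τ :=
      an_mulVec (an_inv hA h1) (an_pi fun i =>
        (((b.coord i).comp l).toContinuousLinearMap.analyticAt _).comp hx)
    have h4 : AnalyticAt ℂ (fun t => ∑ i, ((A t)⁻¹ *ᵥ b.repr (l (L t (x t)))) i • b i) τ :=
      Finset.analyticAt_fun_sum _ fun i _ => (an_app h3 i).smul analyticAt_const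
    refine h4.congr (h2.mono fun t k => ?_)
    show ∑ i, ((A t)⁻¹ *ᵥ b.repr (l (L t (x t)))) i • b i = x t
    rw [key t k, b.sum_repr]

section forms
variable {d N r : ℕ} {T : Type} [NormedAddCommGroup T] [NormedSpace ℂ T] {τ : T} {P : Eqs r N}

theorem e0_ne : e0 ≠ 0 := fun h => one_ne_zero (congrFun h 0)

theorem a_ev {a : T → BF d N} {z : T → Cm 2} (ha : AnalyticAt ℂ a τ) (hz : AnalyticAt ℂ z τ) :
    AnalyticAt ℂ (fun t => ev (a t) (z t)) τ := an_iff.1 (an_ev' (an_iff.2 ha) (an_iff.2 hz))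

theorem a_act {a : T → BF d N} {g : T → M2} (ha : AnalyticAt ℂ a τ) (hg : AnalyticAt ℂ g τ) :
    AnalyticAt ℂ (fun t => act (a t) (g t)) τ := an_iff.1 (an_act' (an_iff.2 ha) (an_iff.2 hg))

/-- substitution, as a linear map -/
def actL (g : M2) : BF d N →ₗ[ℂ] BF d N where
  toFun a := act a g
  map_add' a b := ev_inj fun z => by rw [ev_add, ev_act, ev_act, ev_act, ev_add]
  map_smul' c a := ev_inj fun z => by rw [RingHom.id_apply, ev_smul, ev_act, ev_act, ev_smul]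

theorem act_add (a b : BF d N) (g : M2) : act (a + b) g = act a g + act b g := (actL g).map_add a b

theorem smul_act (c : ℂ) (a : BF d N) (g : M2) : act (c • a) g = c • act a g :=
  (actL g).map_smul c a

theorem act_zero (g : M2) : act (0 : BF d N) g = 0 := (actL g).map_zero

theorem act_tg {a b : BF d N} (h : b ∈ Tg P a) (g : M2) : act b g ∈ Tg P (act a g) := fun z => by
  rw [ev_act, ev_act]; exact h _

theorem fd_ev_add (a b : BF d N) (z v : Cm 2) :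
    fderiv ℂ (ev (a + b)) z v = fderiv ℂ (ev a) z v + fderiv ℂ (ev b) z v := by
  rw [show ev (a + b) = fun z => ev a z + ev b z from funext (ev_add a b),
    fderiv_fun_add (Free.diff_ev a z) (Free.diff_ev b z)]; rfl

theorem fd_ev_smul (c : ℂ) (a : BF d N) (z v : Cm 2) :
    fderiv ℂ (ev (c • a)) z v = c • fderiv ℂ (ev a) z v := by
  rw [show ev (c • a) = fun z => c • ev a z from funext (ev_smul c a),
    fderiv_fun_const_smul (Free.diff_ev a z)]; rfl

/-- the infinitesimal substitution, as a linear map in the form -/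
def infR (ξ : M2) : BF d N →ₗ[ℂ] BF d N where
  toFun a := inf a ξ
  map_add' a b := ev_inj fun z => by rw [ev_add, ev_inf, ev_inf, ev_inf, fd_ev_add]
  map_smul' c a := ev_inj fun z => by rw [RingHom.id_apply, ev_smul, ev_inf, ev_inf, fd_ev_smul]

theorem a_inf {a : T → BF d N} {ξ : T → M2} (ha : AnalyticAt ℂ a τ) (hξ : AnalyticAt ℂ ξ τ) :
    AnalyticAt ℂ (fun t => inf (a t) (ξ t)) τ :=
  an_lin (L := fun t => infL (a t)) (fun η =>
    ((infR η).toContinuousLinearMap.analyticAt _).comp ha) hξ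

theorem inf_smul (a : BF d N) (c : ℂ) (ξ : M2) : inf a (c • ξ) = c • inf a ξ :=
  (infL a).map_smul c ξ

theorem inf_add (a : BF d N) (ξ η : M2) : inf a (ξ + η) = inf a ξ + inf a η :=
  (infL a).map_add ξ η

theorem inf_one (a : BF d N) : inf a 1 = (d : ℂ) • a :=
  ev_inj fun z => by rw [ev_inf, Matrix.one_mulVec, euler, ev_smul]

theorem fd_ev_act (a : BF d N) (g : M2) (z v : Cm 2) :
    fderiv ℂ (ev (act a g)) z v = fderiv ℂ (ev a) (g *ᵥ z) (g *ᵥ v) := by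
  let G : Cm 2 →L[ℂ] Cm 2 := LinearMap.toContinuousLinearMap g.mulVecLin
  rw [show ev (act a g) = ev a ∘ G from funext (ev_act a g),
    fderiv_comp z (Free.diff_ev a _) G.differentiableAt, G.fderiv]; rfl

/-- `inf (act a g) ξ = act (inf a η) g` if `g ξ = η g` -/
theorem inf_act (a : BF d N) {g ξ η : M2} (h : g * ξ = η * g) :
    inf (act a g) ξ = act (inf a η) g := ev_inj fun z => by
  rw [ev_inf, ev_act, ev_inf, fd_ev_act, Matrix.mulVec_mulVec, Matrix.mulVec_mulVec, h]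

/-- the derivative of a substitution -/
theorem hd_act {a : ℂ → BF d N} {g : ℂ → M2} {a' : BF d N} {ξ : M2} {t : ℂ}
    (ha : HasDerivAt a a' t) (hg : HasDerivAt g (g t * ξ) t) (h0 : (g t).det ≠ 0) :
    HasDerivAt (fun s => act (a s) (g s)) (act a' (g t) + inf (act (a t) (g t)) ξ) t := by
  have u := h0.isUnit
  let L : M2 →L[ℂ] M2 := LinearMap.toContinuousLinearMap (LinearMap.mulLeft ℂ (g t)⁻¹)
  have h1 : HasDerivAt (fun s => act (a s) (g t)) (act a' (g t)) t :=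
    (actL (g t)).toContinuousLinearMap.hasFDerivAt.comp_hasDerivAt t ha
  have h2 : HasDerivAt (fun s => (g t)⁻¹ * g s) ξ t := by
    exact (L.hasFDerivAt.comp_hasDerivAt t hg).congr_deriv
      (Matrix.nonsing_inv_mul_cancel_left _ _ u)
  have h3 := ((an_act (d := d) (N := N)).differentiable (by simp)
    (act (a t) (g t), (g t)⁻¹ * g t)).hasFDerivAt.comp_hasDerivAt t (h1.prodMk h2)
  rw [Matrix.nonsing_inv_mul _ u] at h3
  refine (h3.congr_deriv (fd_act _ _ _)).congr_of_eventuallyEq (Eventually.of_forall fun s => ?_)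
  show act (a s) (g s) = act (act (a s) (g t)) ((g t)⁻¹ * g s)
  rw [act_act, Matrix.mul_nonsing_inv_cancel_left _ _ u]

theorem Eu_mv (u y z : Cm 2) : Eu u y *ᵥ z = lf y z • u := by
  funext i
  simp only [Eu, lf, Matrix.mulVec, dotProduct, Fin.sum_univ_two, Matrix.vecMulVec_apply,
    Matrix.cons_val_zero, Matrix.cons_val_one, Pi.smul_apply, smul_eq_mul]
  ring

theorem Eu_e0 : Eu e0 e0 = E01 := by
  ext i j; fin_cases i <;> fin_cases j <;> simp [Eu, e0, E01, Matrix.vecMulVec_apply]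

theorem E01_e0 : E01 *ᵥ e0 = 0 := by
  rw [← Eu_e0, Eu_mv]; simp [lf, e0]

theorem dg_e0 (c : ℂ) : dg c *ᵥ e0 = (1 : ℂ) • e0 := by
  funext i; fin_cases i <;> simp [dg, e0, Matrix.mulVec, dotProduct]

theorem dg_det (c : ℂ) : (dg c).det = c := by simp [dg, Matrix.det_fin_two]

theorem ev_inf_E01 (a : BF d N) : ev (inf a E01) e0 = 0 := by rw [ev_inf, E01_e0, map_zero]

/-- a normaliser conjugates `E01` to `Eu z z` -/
theorem nrm_E01 {g : M2} {c : ℂ} {z : Cm 2} (hc : c ≠ 0) (h1 : g.det = c ^ 2)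
    (h2 : g *ᵥ e0 = c • z) : g * E01 = Eu z z * g := by
  have a0 : g 0 0 = c * z 0 := by simpa [e0, Matrix.mulVec, dotProduct] using congrFun h2 0
  have a1 : g 1 0 = c * z 1 := by simpa [e0, Matrix.mulVec, dotProduct] using congrFun h2 1
  rw [Matrix.det_fin_two, a0, a1] at h1
  have h3 : z 0 * g 1 1 - g 0 1 * z 1 = c := mul_left_cancel₀ hc (by linear_combination h1)
  ext i j
  fin_cases i <;> fin_cases j <;>
    simp [E01, Eu, Matrix.mul_apply, Fin.sum_univ_two, a0, a1]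
  · ring
  · linear_combination (-z 0) * h3
  · ring
  · linear_combination (-z 1) * h3

/-- the velocity of a family of curves -/
theorem tg_of_deriv {e : ℕ} (hP : Hom P e) {a : ℂ → BF d N} {a' : BF d N} {t : ℂ}
    (ha : HasDerivAt a a' t) (h : ∀ᶠ s in 𝓝 t, Crv P (a s)) : a' ∈ Tg P (a t) := fun z => by
  have h1 : HasDerivAt (fun s => ev (a s) z) (ev a' z) t :=
    (evL d N z).hasFDerivAt.comp_hasDerivAt t ha
  have h2 := ((an_Pv P).differentiable (by simp) (ev (a t) z)).hasFDerivAt.comp_hasDerivAt t h1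
  rw [fd_Pv] at h2
  exact h2.unique ((hasDerivAt_const t (0 : Cm r)).congr_of_eventuallyEq
    (h.mono fun s k => k.pv hP z))

end forms

section fam
variable {n N r d D k ν p : ℕ} {V : Mf n} {P : Eqs r N} {pt : Cm N → V.X} {F : Fam V P pt d D k}
  {T : Type} [NormedAddCommGroup T] [NormedSpace ℂ T] [FiniteDimensional ℂ T] {τ : T}
  {Mc : Mo ν p}

theorem TA.an {x : V.X} {S : Am d N} (h : S ∈ TA F x) {a : T → BF d N} {z : T → Cm 2}
    (ha : AnalyticAt ℂ a τ) (hz : AnalyticAt ℂ z τ) (k : ∀ᶠ s in 𝓝 τ, Ov F x (a s) (z s)) :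
    AnalyticAt ℂ (fun s => S (a s) (z s)) τ := by
  obtain ⟨l, ⟨φ⟩⟩ := ex_cm T
  exact ana_of_cm φ (h.2.2.2 l (fun s => a (φ s)) (fun s => z (φ s)) _ (an_comp φ ha)
    (an_comp φ hz) (ev_comp φ k))

theorem NF0.an {Q : ND V d N ν} (h : NF0 F Mc Q) {ξ : T → Cm n} {v : T → Cm ν}
    (hξ : AnalyticAt ℂ ξ τ) (hv : AnalyticAt ℂ v τ) (k : ξ τ ∈ Q.B) (k' : ∀ᶠ s in 𝓝 τ, v s ∈ Mc.C) :
    AnalyticAt ℂ (fun s => Q.A (ξ s) (v s)) τ := by
  obtain ⟨l, ⟨φ⟩⟩ := ex_cm T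
  exact ana_of_cm φ (h.A_an l (fun s => ξ (φ s)) (fun s => v (φ s)) _ (an_comp φ hξ)
    (an_comp φ hv) (by rwa [φ.apply_symm_apply]) (ev_comp φ k'))

theorem AnS.comp {Ω T' : Type} [AddCommGroup Ω] [Module ℂ Ω] [NormedAddCommGroup T']
    [NormedSpace ℂ T'] {T : Type} [NormedAddCommGroup T] [NormedSpace ℂ T] {E : HB V.X Ω}
    {f : T → V.X} {s : T → Ω} {ψ : T' → T} {f' : T' → V.X} {s' : T' → Ω} {σ : T'}
    (h : AnS E f s (ψ σ)) (hψ : AnalyticAt ℂ ψ σ)
    (e : ∀ᶠ t in 𝓝 σ, f' t = f (ψ t) ∧ s' t = s (ψ t)) : AnS E f' s' σ := by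
  obtain ⟨i, hi, c, hc, k⟩ := h
  refine ⟨i, e.self_of_nhds.1 ▸ hi, fun t => c (ψ t), hc.comp hψ, ?_⟩
  filter_upwards [e, hψ.continuousAt.eventually k] with t k1 k2
  rw [k1.1, k1.2, k2]

theorem AnS.mem {Ω : Type} [AddCommGroup Ω] [Module ℂ Ω] {T : Type} [NormedAddCommGroup T]
    [NormedSpace ℂ T] {E : HB V.X Ω} (hE : IsHB E) {f : T → V.X} {s : T → Ω} {τ : T}
    (h : AnS E f s τ) : s τ ∈ E.A (f τ) := by
  obtain ⟨i, hi, c, -, k⟩ := h
  rw [← hE.rng i _ hi, k.self_of_nhds]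
  exact ⟨_, rfl⟩

theorem TB.an {E : HB V.X (Am d N)} {Q : E.ι → ND V d N ν} {β : Cm E.r ≃ₗ[ℂ] Co n Mc}
    (h : TB F Mc E Q β) {a : T → BF d N} {z : T → Cm 2} {s : T → Am d N}
    (ha : AnalyticAt ℂ a τ) (hz : AnalyticAt ℂ z τ) (k : ∀ᶠ t in 𝓝 τ, F.M (a t) ∧ z t ≠ 0)
    (hs : AnS E (fun t => pt (ev (a t) (z t))) s τ) :
    AnalyticAt ℂ (fun t => s t (a t) (z t)) τ := by
  obtain ⟨l, ⟨φ⟩⟩ := ex_cm T
  refine ana_of_cm φ (h.jnt l (fun s => a (φ s)) (fun s => z (φ s)) (fun t => s (φ t)) _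
    (an_comp φ ha) (an_comp φ hz) (ev_comp φ k) ?_)
  exact AnS.comp (ψ := φ) (by rwa [φ.apply_symm_apply]) (φ.toContinuousLinearMap.analyticAt _)
    (Eventually.of_forall fun _ => ⟨rfl, rfl⟩)

/-- analytic families of points of the cone give holomorphic maps -/
theorem anM_pt {δ : ℕ} (h : Cone V P δ pt) {T : Type} [NormedAddCommGroup T] [NormedSpace ℂ T]
    {y : T → Cm N} {τ : T} (hy : AnalyticAt ℂ y τ) (k : ∀ᶠ t in 𝓝 τ, In P (y t)) :
    AnM (fun t => pt (y t)) τ := by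
  have key : ∀ χ : Chart n V.X, At χ (pt (y τ)) → ∃ ρ : Cm N → Cm n, AnalyticAt ℂ ρ (y τ) ∧
      ∀ᶠ t in 𝓝 τ, pt (y t) ∈ χ.source ∧ χ (pt (y t)) = ρ (y t) := fun χ hχ => by
    obtain ⟨ρ, -, h1, -, -, h2, -⟩ := h.loc _ k.self_of_nhds χ hχ
    exact ⟨ρ, h1, (k.and (hy.continuousAt.eventually h2)).mono fun t q => q.2 q.1⟩
  refine ⟨?_, fun χ hχ => ?_⟩
  · have hχ : At (chartAt (Cm n) (pt (y τ))) (pt (y τ)) :=
      ⟨chart_mem_atlas _ _, mem_chart_source _ _⟩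
    obtain ⟨ρ, h1, h2⟩ := key _ hχ
    have c : ContinuousAt (fun t => (chartAt (Cm n) (pt (y τ))).symm (ρ (y t))) τ :=
      ContinuousAt.comp (f := fun t => ρ (y t)) (OpenPartialHomeomorph.continuousAt_symm _ (by
        rw [← h2.self_of_nhds.2]; exact OpenPartialHomeomorph.map_source _ hχ.2))
        (h1.comp hy).continuousAt
    refine c.congr (h2.mono fun t q => ?_)
    show (chartAt (Cm n) (pt (y τ))).symm (ρ (y t)) = pt (y t)
    rw [← q.2, OpenPartialHomeomorph.left_inv _ q.1]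
  · obtain ⟨ρ, h1, h2⟩ := key χ hχ
    exact (h1.comp hy).congr (h2.mono fun t q => q.2.symm)

theorem ln_crv {δ : ℕ} (h : Cone V P δ pt) {a : BF d N} (ha : Crv P a) :
    Ln fun y => pt (ev a y) := fun y hy =>
  ⟨anM_pt h (a_ev analyticAt_const analyticAt_id)
    ((eventually_ne_nhds hy).mono fun z k => ha z k), fun c hc => by
      show pt (ev a (c • y)) = pt (ev a y)
      rw [ev_arg, h.smul _ _ (ha y hy) (pow_ne_zero _ hc)]⟩

theorem ND.Dm.symm {Q : ND V d N ν} {x : V.X} (h : Q.Dm x) : Q.χ.symm (Q.χ x) = x :=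
  Q.χ.left_inv h.1

theorem NF0.ov {Q : ND V d N ν} (h : NF0 F Mc Q) {ξ : Cm n} (hξ : ξ ∈ Q.B) {v : Cm ν}
    (hv : v ∈ Mc.C) : Ov F (Q.χ.symm ξ) (Q.A ξ v) e0 :=
  ⟨(h.A_M ξ hξ v hv).1, e0_ne, by rw [(h.A_M ξ hξ v hv).2.1, (h.lam_in ξ hξ).2]⟩

end fam

end Vale.Agent.P280Z.Tr
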