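import Vale.Agent.P280Z.Tr.SkA
import Vale.Agent.P272.DA.Div
import Vale.Agent.P272.CT.Calc

/-!
# P280Z, block Tr, row BGA: sections with a pole at infinity
-/

open scoped Manifold ContDiff Topology Matrix Matrix.Norms.Elementwise Polynomial
open Set Filter Asymptotics Metric Bornology
open Vale.Agent.P272.CT Vale.Agent.P272.DA

noncomputable section

namespace Vale.Agent.P280Z.Tr

namespace BgaH

theorem sol {σ : Type} [Fintype σ] [DecidableEq σ] {A : ℂ → Matrix σ σ ℂ}
    (hc : ∀ p q, Continuous fun z => A z p q) (h0 : ∀ z ∉ ball (0 : ℂ) 1, A z = 0) (j : σ) :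
    ∃ (q : ℂ[X]) (v : ℂ → σ → ℂ), q ≠ 0 ∧ (∀ p, Continuous fun z => v z p) ∧
      (∀ p, WDb univ (fun z => v z p) fun z => -(A z *ᵥ v z) p) ∧
      ∀ p, Tendsto (fun z => v z p - (Pi.single j (q.eval z) : σ → ℂ) p) (cobounded ℂ) (𝓝 0) := by
  let e := Fintype.equivFin σ
  have hA : Adm fun z => (A z).submatrix e.symm e.symm :=
    ⟨continuous_matrix fun _ _ => hc _ _, fun z hz => by rw [h0 z hz]; rfl⟩
  obtain ⟨q, g, h1, h2, h3⟩ := exists_poly hA (e j)
  have h4 := Sol.wdb hA ⟨h2, _, differentiable_pi.2 fun i => by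
    by_cases h : i = e j
    · simpa only [h, Pi.single_eq_same] using q.differentiable
    · simpa only [Pi.single_eq_of_ne h] using differentiable_const _, h3⟩
  refine ⟨q, fun z p => g z (e p), h1, fun p => continuous_pi_iff.1 h2 _, fun p => ?_, fun p => ?_⟩
  · refine (h4.apply isOpen_univ h2.continuousOn (hA.continuous_mv h2).neg.continuousOn
      (e p)).congr (fun _ _ => rfl) fun z _ => ?_
    simp only [mv, Matrix.submatrix_mulVec_equiv, Pi.neg_apply, Function.comp_apply,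
      e.symm_apply_apply]
    rfl
  · have h5 := (tendsto_pi_nhds.1 (cauT_tendsto (integrableOn_mv hA h2)) (e p)).neg
    rw [Pi.zero_apply, neg_zero] at h5
    refine h5.congr fun z => ?_
    have h6 := congrFun (h3 z) (e p)
    simp only [Pi.add_apply, Pi.single_apply, e.apply_eq_iff_eq] at h6
    simp only [Pi.single_apply, ← h6, sub_add_cancel_left]

theorem pou {κ : Type} [Fintype κ] {W : κ → Set ℂ} (ho : ∀ a, IsOpen (W a))
    (hc : univ ⊆ ⋃ a, W a) : ∃ (ψ : κ → ℂ → ℂ) (s : ℂ → ℂ), (∀ a, ContDiff ℝ ∞ (ψ a)) ∧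
      Continuous s ∧ (∀ a, tsupport (ψ a) ⊆ W a) ∧ (∀ z, ∑ a, ψ a z = 1) ∧
      ∀ z, ∑ a, ψ a z * (ψ a z * s z) = 1 := by
  obtain ⟨f, hf⟩ := SmoothPartitionOfUnity.exists_isSubordinate 𝓘(ℝ, ℂ) isClosed_univ W ho hc
  have h1 : ∀ a, ContDiff ℝ ∞ fun z => (f a z : ℂ) := fun a =>
    Complex.ofRealCLM.contDiff.comp (contMDiff_iff_contDiff.1 (f a).contMDiff)
  have h2 : ∀ z, ∑ a, f a z = 1 := fun z =>
    (finsum_eq_sum_of_fintype _).symm.trans (f.sum_eq_one (mem_univ z))
  have h3 : ∀ z, ∑ a, (f a z : ℂ) * f a z ≠ 0 := fun z h => by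
    have h4 : ∑ a, f a z * f a z = 0 := by exact_mod_cast h
    have h5 := (Finset.sum_eq_zero_iff_of_nonneg fun a _ => mul_self_nonneg (f a z)).1 h4
    have h6 := h2 z
    rw [Finset.sum_eq_zero fun a ha => mul_self_eq_zero.1 (h5 a ha)] at h6
    exact zero_ne_one h6
  refine ⟨_, fun z => (∑ a, (f a z : ℂ) * f a z)⁻¹, h1,
    (continuous_finsetSum _ fun a _ => (h1 a).continuous.mul (h1 a).continuous).inv₀ h3,
    fun a => (tsupport_comp_subset Complex.ofReal_zero (f a)).trans (hf a),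
    fun z => by exact_mod_cast h2 z, fun z => ?_⟩
  simp only [← mul_assoc, ← Finset.sum_mul]
  exact mul_inv_cancel₀ (h3 z)

theorem dbar_ev {η : ℂ → ℂ} {z c : ℂ} (h : η =ᶠ[𝓝 z] fun _ => c) : dbar η z = 0 := by
  simp [dbar, h.fderiv_eq]

theorem cut {η u : ℂ → ℂ} {Ω W : Set ℂ} (hη : ContDiff ℝ 1 η) (hs : tsupport η ⊆ W)
    (hu : ∀ z ∈ Ω, z ∈ W → AnalyticAt ℂ u z) : ContDiffOn ℝ 1 (fun z => η z * u z) Ω ∧
      ∀ z ∈ Ω, dbar (fun z => η z * u z) z = dbar η z * u z := by
  have h1 : ∀ z ∉ tsupport η, (fun z => η z * u z) =ᶠ[𝓝 z] fun _ => 0 := fun z hz =>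
    (notMem_tsupport_iff_eventuallyEq.1 hz).mono fun y hy => by simp [hy]
  refine ⟨fun z hz => ContDiffAt.contDiffWithinAt ?_, fun z hz => ?_⟩ <;>
    by_cases h : z ∈ tsupport η
  · exact hη.contDiffAt.mul ((hu z hz (hs h)).contDiffAt.restrict_scalars ℝ)
  · exact contDiffAt_const.congr_of_eventuallyEq (h1 z h)
  · have h2 := (hu z hz (hs h)).differentiableAt
    have h3 := dbarV_smul (hη.differentiable one_ne_zero z) (h2.restrictScalars ℝ)
    rwa [(dbarV_eq_zero_iff (h2.restrictScalars ℝ)).2 h2, smul_zero, add_zero] at h3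
  · rw [dbar_ev (h1 z h), dbar_ev (notMem_tsupport_iff_eventuallyEq.1 h), zero_mul]

variable {r : ℕ} {ι : Type} {O : ι → Set ℂ} {g : ι → ι → ℂ → Matrix (Fin r) (Fin r) ℂ} {o : ι}

theorem ent {c : ℂ → Matrix (Fin r) (Fin r) ℂ} {z : ℂ} :
    AnalyticAt ℂ c z ↔ ∀ i j, AnalyticAt ℂ (fun z => c z i j) z :=
  (analyticAt_pi_iff (f := fun i z j => c z i j)).trans (forall_congr' fun _ => analyticAt_pi_iff)

theorem core (h : Cc r ι O g o) (ho : ∀ z ∉ ball (0 : ℂ) 1, z ∈ O o) :
    ∃ (c : ι → ℂ → Matrix (Fin r) (Fin r) ℂ) (q : Fin r → ℂ[X]), Sc O g c ∧ (∀ j, q j ≠ 0) ∧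
      ∀ i j, Tendsto (fun z => c o z i j - Matrix.diagonal (fun j => (q j).eval z) i j)
        (cobounded ℂ) (𝓝 0) := by
  classical
  have hb : (O o)ᶜ ⊆ ball 0 1 := fun z hz => not_not.1 fun k => hz (ho z k)
  obtain ⟨t, ht⟩ := (Metric.isCompact_of_isClosed_isBounded (h.opn o).isClosed_compl
    (isBounded_ball.subset hb)).elim_finite_subcover O h.opn fun z _ => mem_iUnion.2 (h.cov z)
  let k : Option t → ι := fun a => a.elim o Subtype.val
  obtain ⟨ψ, s, p1, p2, p3, p4, p5⟩ := pou (W := fun a : Option t =>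
      a.elim (O o) fun i => O i ∩ ball 0 1)
    (fun a => by
      cases a with
      | none => exact h.opn o
      | some i => exact (h.opn i).inter isOpen_ball) fun z _ => by
    by_cases hz : z ∈ O o
    · exact mem_iUnion.2 ⟨none, hz⟩
    · obtain ⟨i, hi, k⟩ := mem_iUnion₂.1 (ht hz)
      exact mem_iUnion.2 ⟨some ⟨i, hi⟩, k, hb hz⟩
  have p6 : ∀ a, tsupport (ψ a) ⊆ O (k a) := fun a => (p3 a).trans (by
    cases a with
    | none => exact subset_rfl
    | some i => exact inter_subset_left)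
  have p7 : ∀ a, tsupport (dbar (ψ a)) ⊆ O (k a) := fun a => (tsupport_dbar _).trans (p6 a)
  have p8 : ∀ z ∉ ball (0 : ℂ) 1, ∀ᶠ y in 𝓝 z, ∀ a, ψ a y = if a = none then 1 else 0 :=
    fun z hz => (eventually_all.2 fun i : t => notMem_tsupport_iff_eventuallyEq.1
      fun k => hz (p3 (some i) k).2).mono fun y hy a => by
      have k1 := p4 y
      rw [Fintype.sum_option, Finset.sum_eq_zero fun i _ => hy i, add_zero] at k1
      cases a with
      | none => exact k1
      | some i => exact hy i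
  let A : ℂ → Matrix (Option t × Fin r) (Option t × Fin r) ℂ := fun z => Matrix.of fun a b =>
    (ψ a.1 z * (s z * dbar (ψ b.1) z)) * g (k a.1) (k b.1) z a.2 b.2
  have hA : ∀ a b, Continuous fun z => A z a b := fun a b =>
    continuous_smul_of_tsupport ((h.opn (k a.1)).inter (h.opn (k b.1)))
      ((p1 _).continuous.mul (p2.mul (contDiff_dbar (p1 _)).continuous))
      (fun z hz => (ent.1 (h.an _ _ z hz.1 hz.2) _ _).continuousAt.continuousWithinAt)
      (subset_inter (tsupport_mul_subset_left.trans (p6 _))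
        (tsupport_mul_subset_right.trans (tsupport_mul_subset_right.trans (p7 _))))
  choose q v q0 v1 v2 v3 using fun j : Fin r => sol hA (fun z hz => Matrix.ext fun a b => by
    simp [A, dbar_ev ((p8 z hz).mono fun _ k => k b.1)]) (none, j)
  let G : ℂ → Matrix (Option t × Fin r) (Fin r) ℂ := fun z => Matrix.of fun a j => v j z a
  let B : (Option t → ℂ → ℂ) → ι → ℂ → Matrix (Fin r) (Option t × Fin r) ℂ := fun η l z =>
    Matrix.of fun i a => η a.1 z * g l (k a.1) z i a.2
  have b1 : ∀ (η : Option t → ℂ → ℂ) l l' z, (∀ a, tsupport (η a) ⊆ O (k a)) → z ∈ O l →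
      z ∈ O l' → B η l z = g l l' z * B η l' z := fun η l l' z k1 k2 k3 => by
    ext i a
    by_cases k4 : η a.1 z = 0
    · simp [B, Matrix.mul_apply, k4]
    · simp only [B, Matrix.mul_apply, Matrix.of_apply, mul_left_comm _ (η a.1 z),
        ← h.mul l l' _ z k2 k3 (k1 _ (subset_tsupport _ k4)), Finset.mul_sum]
  have b2 : ∀ l, ∀ z ∈ O l, B ψ l z * A z = B (fun a => dbar (ψ a)) l z := fun l z hz => by
    ext i b
    refine Eq.trans ?_ (one_mul _)
    rw [Matrix.mul_apply, Fintype.sum_prod_type, ← p5 z, Finset.sum_mul]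
    refine Finset.sum_congr rfl fun a _ => ?_
    by_cases k1 : ψ a z = 0
    · simp [B, k1]
    by_cases k2 : dbar (ψ b.1) z = 0
    · simp [A, B, k2]
    simp only [A, B, Matrix.of_apply, ← h.mul l _ _ z hz (p6 _ (subset_tsupport _ k1))
      (p7 _ (subset_tsupport _ k2)), Matrix.mul_apply, Finset.mul_sum]
    exact Finset.sum_congr rfl fun _ _ => by ring
  refine ⟨fun l z => B ψ l z * G z, q, ⟨fun l z hz => ent.2 fun i j => ?_, fun l l' z k1 k2 => by
    simp only [b1 ψ l l' z p6 k1 k2, Matrix.mul_assoc]⟩, q0, fun i j => (v3 j (none, i)).congr' ?_⟩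
  · have c1 := fun i (a : Option t × Fin r) => cut ((p1 a.1).of_le (by simp)) (p6 _)
      fun z k1 k2 => ent.1 (h.an l _ z k1 k2) i a.2
    have c2 := fun i (a : Option t × Fin r) => (cut ((contDiff_dbar (p1 a.1)).of_le (by simp))
      (p7 _) fun z k1 k2 => ent.1 (h.an l _ z k1 k2) i a.2).1.continuousOn
    have c3 := WDb.matMul (h.opn l) (A := B ψ l) (A' := B (fun a => dbar (ψ a)) l) (B := G)
      (B' := fun z => -(A z * G z)) (fun i a => (c1 i a).1.continuousOn) c2
      (fun a j => (v1 j a).continuousOn)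
      (fun a j => (continuous_finsetSum _ fun b _ => (hA a b).mul (v1 j b)).neg.continuousOn)
      (fun i a => (WDb.of_contDiffOn (h.opn l) (c1 i a).1).congr (fun _ _ => rfl) (c1 i a).2)
      (fun a j => (v2 j a).mono (subset_univ _)) i j
    refine ((c3.congr (fun _ _ => rfl) fun y hy => ?_).holo (h.opn l)
      (continuousOn_finsetSum _ fun a _ =>
        (c1 i a).1.continuousOn.mul (v1 j a).continuousOn)).analyticAt ((h.opn l).mem_nhds hz)
    simp only [Matrix.mul_neg, ← Matrix.mul_assoc, b2 l y hy, add_neg_cancel, Matrix.zero_apply]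
  · filter_upwards [(isBounded_ball (x := (0 : ℂ)) (r := 1)).compl] with z hz
    have k1 := (p8 z hz).self_of_nhds
    have k2 : g o o z = 1 := h.one o z (ho z hz)
    simp [B, G, k, k1, k2, Matrix.mul_apply, Fintype.sum_prod_type, Matrix.one_apply,
      Matrix.diagonal_apply, Pi.single_apply]
    split_ifs with k3
    · rw [k3]
    · rfl

theorem unit (h : Cc r ι O g o) (ho : ∀ z ∉ ball (0 : ℂ) 1, z ∈ O o) :
    ∃ (c : ι → ℂ → Matrix (Fin r) (Fin r) ℂ) (m : ℕ), Sc O g c ∧
      (c o =O[cobounded ℂ] fun z => z ^ m) ∧ ∃ z ∈ O o, (c o z).det ≠ 0 := by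
  obtain ⟨c, q, h1, h2, h3⟩ := core h ho
  refine ⟨c, ∑ j, (q j).natDegree, h1, ?_, ?_⟩
  · refine (isBigO_pi (f := fun z => (c o z : Fin r → Fin r → ℂ))).2 fun i =>
      isBigO_pi.2 fun j => ?_
    have k1 : ∀ p : ℂ[X], p.natDegree ≤ ∑ j, (q j).natDegree →
        p.eval =O[cobounded ℂ] fun z => z ^ ∑ j, (q j).natDegree := fun p hp =>
      (Polynomial.isBigO_cobounded_of_degree_le (Q := Polynomial.X ^ _)
        (by rw [Polynomial.degree_X_pow]; exact Polynomial.degree_le_of_natDegree_le hp)).congr_right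
        fun z => by simp
    have k2 : (fun z => Matrix.diagonal (fun j => (q j).eval z) i j) =O[cobounded ℂ]
        fun z => z ^ ∑ j, (q j).natDegree := by
      by_cases hij : i = j
      · simpa only [hij, Matrix.diagonal_apply_eq] using k1 _
          (Finset.single_le_sum (f := fun j => (q j).natDegree) (fun _ _ => Nat.zero_le _)
            (Finset.mem_univ j))
      · simpa only [Matrix.diagonal_apply_ne _ hij] using isBigO_zero _ _
    exact ((((h3 i j).isBigO_one ℂ).trans ((k1 1 (by simp)).congr_left fun z => by simp)).add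
      k2).congr_left fun z => sub_add_cancel _ _
  · have k1 : Tendsto (fun z => c o z * Matrix.diagonal fun j => ((q j).eval z)⁻¹) (cobounded ℂ)
        (𝓝 1) := tendsto_pi_nhds.2 fun i => tendsto_pi_nhds.2 fun j => by
      obtain ⟨a, ha, k2⟩ := poly_lower (h2 j)
      have k3 := ((h3 i j).zero_mul_isBoundedUnder_le (g := fun z => ((q j).eval z)⁻¹)
        ⟨a⁻¹, eventually_map.2 (k2.mono fun z hz => by
          simpa using inv_anti₀ ha hz)⟩).add_const ((1 : Matrix (Fin r) (Fin r) ℂ) i j)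
      rw [zero_add] at k3
      refine k3.congr' (k2.mono fun z hz => ?_)
      have k4 : (q j).eval z ≠ 0 := norm_pos_iff.1 (ha.trans_le hz)
      by_cases hij : i = j
      · subst hij
        simp [sub_mul, k4]
      · simp [hij]
    have k2 := ((continuous_id.matrix_det.tendsto 1).comp k1).eventually
      (isOpen_ne.mem_nhds (by simp : (id (1 : Matrix (Fin r) (Fin r) ℂ)).det ≠ 0))
    obtain ⟨z, k3, k4⟩ := (h.inf.and k2).exists
    exact ⟨z, k3, left_ne_zero_of_mul ((Matrix.det_mul _ _).symm.trans_ne k4)⟩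

end BgaH

open BgaH in
/-- row BGA -/
theorem bga : BGA := fun r ι O g o h => by
  obtain ⟨R, hR, h1⟩ := (isBounded_compl_iff.2 (isCobounded_def.2 h.inf)).subset_ball_lt 0 0
  have h2 : (R : ℂ) ≠ 0 := Complex.ofReal_ne_zero.2 hR.ne'
  have h3 : ∀ (a z : ℂ), AnalyticAt ℂ (fun z => a * z) z := fun _ _ => by fun_prop
  have h4 : ∀ i z, z ∈ O i → (R : ℂ) * ((R : ℂ)⁻¹ * z) ∈ O i := fun i z hz => by
    rwa [mul_inv_cancel_left₀ h2]
  obtain ⟨c, m, ⟨k1, k2⟩, k3, z, k4, k5⟩ := unit (O := fun i => (fun z => (R : ℂ) * z) ⁻¹' O i)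
    (g := fun i j z => g i j (R * z)) (o := o)
    ⟨fun i => (h.opn i).preimage (by fun_prop), fun z => h.cov _,
      (tendsto_mul_left_cobounded h2).eventually h.inf,
      fun i j z hi hj => (h.an i j _ hi hj).comp (h3 _ z), fun i z hi => h.one i _ hi,
      fun i j k z hi hj hk => h.mul i j k _ hi hj hk⟩ fun z hz => not_not.1 fun k => hz (by
      have k1 := h1 k
      rw [mem_ball_zero_iff] at k1 ⊢
      rwa [norm_mul, Complex.norm_real, Real.norm_of_nonneg hR.le, mul_lt_iff_lt_one_right hR] at k1)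
  refine ⟨fun i z => c i ((R : ℂ)⁻¹ * z), m, ⟨fun i z hz => (k1 i _ (h4 i z hz)).comp (h3 _ z),
    fun i j z hi hj => ?_⟩, ?_, o, R * z, k4, by simpa only [inv_mul_cancel_left₀ h2] using k5⟩
  · simpa only [mul_inv_cancel_left₀ h2] using k2 i j _ (h4 i z hi) (h4 j z hj)
  · exact (k3.comp_tendsto (tendsto_mul_left_cobounded (inv_ne_zero h2))).trans
      (((isBigO_refl (fun z : ℂ => z ^ m) _).const_mul_left ((R : ℂ)⁻¹ ^ m)).congr_left
        fun z => (mul_pow _ _ _).symm)

end Vale.Agent.P280Z.Tr
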