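import Vale.Agent.P280Z.Ma.Defs
import Vale.Agent.P280Z.Gp.Defs
import Vale.Agent.P281Z.Mf.Api

/-!
# P280Z, block Tr: vector fields from the bundle of the fields along the cones of curves
-/

open scoped Manifold ContDiff Topology Matrix Matrix.Norms.Elementwise
open Set Filter Asymptotics
open Vale.Agent.P272.K Vale.Agent.P281Z Vale.Agent.P280Z.Mp
open Vale.Agent.P277Z (Hol)
open Vale.Agent.P277Z.Slc (dd)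

noncomputable section

namespace Vale.Agent.P280Z.Tr

/-! ### Cocycles on the line -/

/-- a cocycle on `ℂ`; the frame `o` is a frame at infinity -/
structure Cc (r : ℕ) (ι : Type) (O : ι → Set ℂ) (g : ι → ι → ℂ → Matrix (Fin r) (Fin r) ℂ)
    (o : ι) : Prop where
  opn : ∀ i, IsOpen (O i)
  cov : ∀ z, ∃ i, z ∈ O i
  inf : ∀ᶠ z in Bornology.cobounded ℂ, z ∈ O o
  an : ∀ i j, ∀ z ∈ O i, z ∈ O j → AnalyticAt ℂ (g i j) z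
  one : ∀ i, ∀ z ∈ O i, g i i z = 1
  mul : ∀ i j k, ∀ z ∈ O i, z ∈ O j → z ∈ O k → g i j z * g j k z = g i k z

/-- `q` sections over `ℂ`, as the columns of a matrix -/
def Sc {r q : ℕ} {ι : Type} (O : ι → Set ℂ) (g : ι → ι → ℂ → Matrix (Fin r) (Fin r) ℂ)
    (c : ι → ℂ → Matrix (Fin r) (Fin q) ℂ) : Prop :=
  (∀ i, ∀ z ∈ O i, AnalyticAt ℂ (c i) z) ∧ ∀ i j, ∀ z ∈ O i, z ∈ O j → c i z = g i j z * c j z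

/-! ### Holomorphic vector bundles inside a fixed vector space -/

/-- subspaces with local frames -/
structure HB (X Ω : Type) [AddCommGroup Ω] [Module ℂ Ω] : Type 1 where
  A : X → Submodule ℂ Ω
  r : ℕ
  ι : Type
  U : ι → Set X
  b : ι → X → Cm r →ₗ[ℂ] Ω

section hb
variable {n : ℕ} {V : Mf n} {Ω : Type} [AddCommGroup Ω] [Module ℂ Ω]
  {T : Type} [NormedAddCommGroup T] [NormedSpace ℂ T]

/-- `f` is holomorphic at `τ` -/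
def AnM (f : T → V.X) (τ : T) : Prop :=
  ContinuousAt f τ ∧ ∀ χ : Chart n V.X, At χ (f τ) → AnalyticAt ℂ (fun t => χ (f t)) τ

/-- `s` is a holomorphic section along `f` at `τ` -/
def AnS (E : HB V.X Ω) (f : T → V.X) (s : T → Ω) (τ : T) : Prop :=
  ∃ i, f τ ∈ E.U i ∧ ∃ c : T → Cm E.r, AnalyticAt ℂ c τ ∧ ∀ᶠ t in 𝓝 τ, s t = E.b i (f t) (c t)

/-- the same on a manifold -/
def HolS {l : ℕ} {Z : Mf l} (E : HB V.X Ω) (f : Z.X → V.X) (s : Z.X → Ω) (z : Z.X) : Prop :=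
  ∀ χ : Chart l Z.X, At χ z → AnS E (fun t => f (χ.symm t)) (fun t => s (χ.symm t)) (χ z)

/-- holomorphic vector bundles -/
structure IsHB (E : HB V.X Ω) : Prop where
  opn : ∀ i, IsOpen (E.U i)
  cov : ∀ x, ∃ i, x ∈ E.U i
  inj : ∀ i, ∀ x ∈ E.U i, Function.Injective (E.b i x)
  rng : ∀ i, ∀ x ∈ E.U i, LinearMap.range (E.b i x) = E.A x
  hol : ∀ i j, ∀ x ∈ E.U i, x ∈ E.U j → ∃ m : V.X → Matrix (Fin E.r) (Fin E.r) ℂ,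
    (∀ a b, Hol n (fun y => m y a b) x) ∧ ∀ᶠ y in 𝓝 x, ∀ c, E.b j y c = E.b i y (m y *ᵥ c)

/-- holomorphic maps from the projective line -/
def Ln (f : Cm 2 → V.X) : Prop := ∀ y, y ≠ 0 → AnM f y ∧ ∀ c : ℂ, c ≠ 0 → f (c • y) = f y

/-- sections of `f^* E ⊗ 𝒪(m)` -/
def Sec (E : HB V.X Ω) (f : Cm 2 → V.X) (m : ℤ) (s : Cm 2 → Ω) : Prop :=
  ∀ y, y ≠ 0 → AnS E f s y ∧ ∀ c : ℂ, c ≠ 0 → s (c • y) = c ^ m • s y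

/-- `f^* E ⊗ 𝒪(-1)` has no sections -/
def Inj (E : HB V.X Ω) (f : Cm 2 → V.X) : Prop :=
  ∀ s y₀, Sec E f 0 s → y₀ ≠ 0 → s y₀ = 0 → ∀ y, y ≠ 0 → s y = 0

/-- a power of `det f^* E ⊗ 𝒪(-δ)` has a section -/
def Om (E : HB V.X Ω) (f : Cm 2 → V.X) (δ : ℤ) : Prop :=
  ∃ (k : ℕ) (w : E.ι → Cm 2 → ℂ), 0 < k ∧
    (∀ i y, y ≠ 0 → f y ∈ E.U i → AnalyticAt ℂ (w i) y ∧
      ∀ c : ℂ, c ≠ 0 → w i (c • y) = c ^ (-(k * δ)) * w i y) ∧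
    (∀ i j y, y ≠ 0 → f y ∈ E.U i → f y ∈ E.U j → ∀ m : Matrix (Fin E.r) (Fin E.r) ℂ,
      (∀ c, E.b j (f y) c = E.b i (f y) (m *ᵥ c)) → w i y = m.det ^ k * w j y) ∧
    ∃ i y, y ≠ 0 ∧ f y ∈ E.U i ∧ w i y ≠ 0

/-- `f^* E` is trivial -/
def Tv (E : HB V.X Ω) (f : Cm 2 → V.X) : Prop :=
  Inj E f ∧ ∀ y₀, y₀ ≠ 0 → ∀ v ∈ E.A (f y₀), ∃ s, Sec E f 0 s ∧ s y₀ = v

/-- transport along the fibres of `p` -/
structure Tp {u k : ℕ} {U : Mf u} {K : Mf k} (p : U.X → K.X) (e : U.X → V.X) (E : HB V.X Ω)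
    (Φ : U.X → U.X → Ω →ₗ[ℂ] Ω) : Prop where
  map : ∀ x x', p x = p x' → ∀ v ∈ E.A (e x), Φ x x' v ∈ E.A (e x')
  refl : ∀ x, ∀ v ∈ E.A (e x), Φ x x v = v
  symm : ∀ x x', p x = p x' → ∀ v ∈ E.A (e x), Φ x' x (Φ x x' v) = v
  hol : ∀ (l : ℕ) (x x' : Cm l → U.X) (s : Cm l → Ω) (τ : Cm l), AnM x τ → AnM x' τ →
    (∀ᶠ t in 𝓝 τ, p (x t) = p (x' t)) → AnS E (fun t => e (x t)) s τ →
    AnS E (fun t => e (x' t)) (fun t => Φ (x t) (x' t) (s t)) τ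

/-- chains of length `N` from `x`, with their transport -/
inductive Rch {U K X : Type} (p : U → K) (e : U → X) (Φ : U → U → Ω →ₗ[ℂ] Ω) (x : X) :
    ℕ → X → (Ω →ₗ[ℂ] Ω) → Prop
  | zero : Rch p e Φ x 0 x LinearMap.id
  | step {N : ℕ} {φ : Ω →ₗ[ℂ] Ω} (u u' : U) : Rch p e Φ x N (e u) φ → p u = p u' →
      Rch p e Φ x (N + 1) (e u') ((Φ u u').comp φ)

end hb

/-- any two points are joined by a chain -/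
def CC {U K X : Type} (p : U → K) (e : U → X) : Prop :=
  ∀ x y, Relation.ReflTransGen (fun x y => ∃ u u', p u = p u' ∧ e u = x ∧ e u' = y) x y

/-- there is no connected unramified covering -/
def SC {n : ℕ} (V : Mf n) : Prop :=
  ∀ (Y : Mf n) (ε : Y.X → V.X), Sub n n ε → ConnectedSpace Y.X → Function.Injective ε

/-! ### Model cones -/

/-- `f` is holomorphic on `C` -/
def AnC {ν : ℕ} {W : Type} [NormedAddCommGroup W] [NormedSpace ℂ W] (C : Set (Cm ν))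
    (f : Cm ν → W) : Prop :=
  ∀ (l : ℕ) (γ : Cm l → Cm ν) (τ : Cm l), AnalyticAt ℂ γ τ → (∀ᶠ s in 𝓝 τ, γ s ∈ C) →
    AnalyticAt ℂ (fun s => f (γ s)) τ

/-- a cone without its vertex, its tangent spaces and its charts -/
structure Mo (ν p : ℕ) where
  C : Set (Cm ν)
  TC : Cm ν → Submodule ℂ (Cm ν)
  κ : Cm ν → Cm (p + 1) → Cm ν
  ρ : Cm ν → Cm ν → Cm (p + 1)

namespace Mo
variable {ν p : ℕ} (M : Mo ν p)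

/-- the infinitesimal automorphisms -/
def g0 : Submodule ℂ (Matrix (Fin ν) (Fin ν) ℂ) where
  carrier := {η | ∀ v ∈ M.C, η *ᵥ v ∈ M.TC v}
  add_mem' h h' v hv := by rw [Matrix.add_mulVec]; exact (M.TC v).add_mem (h v hv) (h' v hv)
  zero_mem' v _ := by rw [Matrix.zero_mulVec]; exact (M.TC v).zero_mem
  smul_mem' c _ h v hv := by rw [Matrix.smul_mulVec]; exact (M.TC v).smul_mem c (h v hv)

/-- the automorphisms -/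
def G0 (h : Matrix (Fin ν) (Fin ν) ℂ) : Prop := h.det ≠ 0 ∧ ∀ v, h *ᵥ v ∈ M.C ↔ v ∈ M.C

/-- frames of the tangent space which begin with `v` -/
def Fr (v : Cm ν) (w : Fin p → Cm ν) : Prop :=
  v ∈ M.C ∧ (∀ j, w j ∈ M.TC v) ∧ LinearIndependent ℂ (Fin.cons v w : Fin (p + 1) → Cm ν)

/-- the cone is a manifold -/
structure Sm : Prop where
  ne : M.C.Nonempty
  nz : ∀ v ∈ M.C, v ≠ 0
  smul : ∀ v ∈ M.C, ∀ c : ℂ, c ≠ 0 → c • v ∈ M.C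
  anκ : ∀ v ∈ M.C, AnalyticAt ℂ (M.κ v) 0 ∧ M.κ v 0 = v
  anρ : ∀ v ∈ M.C, AnalyticAt ℂ (M.ρ v) v
  ρκ : ∀ v ∈ M.C, ∀ᶠ s in 𝓝 (0 : Cm (p + 1)), M.κ v s ∈ M.C ∧ M.ρ v (M.κ v s) = s
  κρ : ∀ v ∈ M.C, ∀ᶠ w in 𝓝 v, w ∈ M.C → M.κ v (M.ρ v w) = w
  tan : ∀ v ∈ M.C, ∀ w, w ∈ M.TC v ↔ ∃ s, fderiv ℂ (M.κ v) 0 s = w
  deg0 : ∀ f : Cm ν → ℂ, AnC M.C f → (∀ v ∈ M.C, ∀ c : ℂ, c ≠ 0 → f (c • v) = f v) →
    ∃ a, ∀ v ∈ M.C, f v = a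
  deg1 : ∀ f : Cm ν → ℂ, AnC M.C f → (∀ v ∈ M.C, ∀ c : ℂ, c ≠ 0 → f (c • v) = c * f v) →
    ∃ α : Cm ν, ∀ v ∈ M.C, f v = α ⬝ᵥ v
  span : ∀ α : Cm ν, (∀ v ∈ M.C, α ⬝ᵥ v = 0) → α = 0
  rig : ∀ v ∈ M.C, ∀ η ∈ M.g0, (∀ w ∈ M.TC v, η *ᵥ w = 0) → η = 0
  red : ∀ η ∈ M.g0, (∀ η' ∈ M.g0, (η * η').trace = 0) → η = 0

/-- the second osculating spaces are the whole space -/
def Osc : Prop := ∀ v ∈ M.C, ∀ α : Cm ν, (∀ γ : ℂ → Cm ν, AnalyticAt ℂ γ 0 → γ 0 = v →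
  (∀ᶠ s in 𝓝 (0 : ℂ), γ s ∈ M.C) → (fun s => α ⬝ᵥ γ s) =o[𝓝 0] fun s => s ^ 2) → α = 0

/-- semi-invariant functions of the frames -/
def Dl (δ : ℤ) : Prop := ∃ (k : ℕ) (I : Type) (Δ : I → Cm ν → (Fin p → Cm ν) → ℂ), 0 < k ∧
  (∀ i (l : ℕ) (v : Cm l → Cm ν) (w : Cm l → Fin p → Cm ν) (τ : Cm l), AnalyticAt ℂ v τ →
    AnalyticAt ℂ w τ → (∀ᶠ s in 𝓝 τ, M.Fr (v s) (w s)) →
    AnalyticAt ℂ (fun s => Δ i (v s) (w s)) τ) ∧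
  (∀ i h v w, M.G0 h → M.Fr v w → Δ i (h *ᵥ v) (fun j => h *ᵥ w j) * h.det ^ k = Δ i v w) ∧
  (∀ i v w (c : ℂ), M.Fr v w → c ≠ 0 →
    Δ i (c • v) w = c ^ ((k : ℤ) * ((ν : ℤ) - p - 2 + δ)) * Δ i v w) ∧
  ∀ v w, M.Fr v w → ∃ i, Δ i v w ≠ 0

end Mo

/-! ### The fields along the cones of curves -/

/-- the first basis vector -/
def e0 : Cm 2 := ![1, 0]

/-- the infinitesimal translation -/
def E01 : M2 := !![0, 1; 0, 0]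

/-- the homothety -/
def dg (c : ℂ) : M2 := !![1, 0; 0, c]

section fam
variable {n N r d D k ν p : ℕ} {V : Mf n} {P : Eqs r N} {pt : Cm N → V.X} (F : Fam V P pt d D k)

/-- the pointed parametrised curves over `x` -/
def Ov (x : V.X) (a : BF d N) (z : Cm 2) : Prop := F.M a ∧ z ≠ 0 ∧ pt (ev a z) = x

/-- the ambient space -/
abbrev Am (d N : ℕ) : Type := BF d N → Cm 2 → BF d N

/-- the holomorphic fields along the cone of the curves through `x` -/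
def TA (x : V.X) : Submodule ℂ (Am d N) where
  carrier := {S | (∀ a z, ¬ Ov F x a z → S a z = 0) ∧ (∀ a z, Ov F x a z → S a z ∈ Tg P a) ∧
    (∀ a z z' (g : M2) (c : ℂ), Ov F x a z → z' ≠ 0 → g.det ≠ 0 → g *ᵥ z' = c • z →
      S (act a g) z' = act (S a z) g) ∧
    ∀ (l : ℕ) (a : Cm l → BF d N) (z : Cm l → Cm 2) (τ : Cm l), AnalyticAt ℂ a τ →
      AnalyticAt ℂ z τ → (∀ᶠ s in 𝓝 τ, Ov F x (a s) (z s)) →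
      AnalyticAt ℂ (fun s => S (a s) (z s)) τ}
  add_mem' := fun {S S'} h h' => ⟨fun a z k => by simp only [Pi.add_apply, h.1 a z k, h'.1 a z k,
      add_zero], fun a z k => (Tg P a).add_mem (h.2.1 a z k) (h'.2.1 a z k),
    fun a z z' g c k1 k2 k3 k4 => by
      rw [Pi.add_apply, Pi.add_apply, h.2.2.1 a z z' g c k1 k2 k3 k4,
        h'.2.2.1 a z z' g c k1 k2 k3 k4]
      funext i
      simp only [act, co, ev, Pi.add_apply, smul_add, Finset.sum_add_distrib],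
    fun l a z τ k1 k2 k3 => (h.2.2.2 l a z τ k1 k2 k3).add (h'.2.2.2 l a z τ k1 k2 k3)⟩
  zero_mem' := ⟨fun _ _ _ => rfl, fun a _ _ => (Tg P a).zero_mem, fun a z z' g c _ _ _ _ => by
      funext i
      simp only [act, co, ev, Pi.zero_apply, smul_zero, Finset.sum_const_zero],
    fun _ _ _ _ _ _ _ => analyticAt_const⟩
  smul_mem' := fun t S h => ⟨fun a z k => by simp only [Pi.smul_apply, h.1 a z k, smul_zero],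
    fun a z k => (Tg P a).smul_mem t (h.2.1 a z k), fun a z z' g c k1 k2 k3 k4 => by
      rw [Pi.smul_apply, Pi.smul_apply, h.2.2.1 a z z' g c k1 k2 k3 k4]
      funext i
      simp only [act, co, ev, Pi.smul_apply, Finset.smul_sum, smul_comm t],
    fun l a z τ k1 k2 k3 => (h.2.2.2 l a z τ k1 k2 k3).const_smul (c := t)⟩

/-- **the input**: over `O`, the sections `θ` of the dual of the relative tangent bundle of `p`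
identify the fibres of `e` with the projectivised model cone -/
structure MF (Mc : Mo ν p) (O : Set V.X) (θ : (Tb F).ι → F.U.X → Cm ν) : Prop where
  opn : IsOpen O
  hol : ∀ i, ∀ u ∈ (Tb F).U i, F.e u ∈ O → ∀ j, Hol (k + 1) (fun u => θ i u j) u
  chg : ∀ i i', ∀ u ∈ (Tb F).U i, u ∈ (Tb F).U i' → F.e u ∈ O → θ i' u = (Tb F).g i i' u • θ i u
  mem : ∀ i, ∀ u ∈ (Tb F).U i, F.e u ∈ O → θ i u ∈ Mc.C
  onto : ∀ x ∈ O, ∀ v ∈ Mc.C, ∃ i, ∃ u ∈ (Tb F).U i, F.e u = x ∧ ∃ c : ℂ, v = c • θ i u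
  inj : ∀ i i', ∀ u ∈ (Tb F).U i, ∀ u' ∈ (Tb F).U i', F.e u ∈ O → F.e u' = F.e u → ∀ c : ℂ,
    θ i' u' = c • θ i u → u' = u
  imm : ∀ i, ∀ u ∈ (Tb F).U i, F.e u ∈ O → ∀ (χ : Chart (k + 1) F.U.X) (χ' : Chart n V.X),
    At χ u → At χ' (F.e u) → ∀ w (c : ℂ), df F.e χ χ' u w = 0 →
    (∀ j, dd (fun u => θ i u j) χ u w = c * θ i u j) → w = 0

/-- the data of a normal form -/
structure ND (V : Mf n) (d N ν : ℕ) where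
  χ : Chart n V.X
  B : Set (Cm n)
  lam : Cm n → Cm N
  A : Cm n → Cm ν → BF d N
  θ : BF d N → Cm 2 → Cm ν

/-- the differential of `A` along the cone -/
def ND.DA (Q : ND V d N ν) (Mc : Mo ν p) (ξ : Cm n) (v : Cm ν) : Cm n × Cm ν →L[ℂ] BF d N :=
  fderiv ℂ (fun q : Cm n × Cm ν => Q.A q.1 (Mc.κ v (Mc.ρ v q.2))) (ξ, v)

/-- the fields of the standard frame -/
def ND.fr (Q : ND V d N ν) (Mc : Mo ν p) (ξ w : Cm n) (t : ℂ) (η : Matrix (Fin ν) (Fin ν) ℂ)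
    (α v : Cm ν) : BF d N :=
  Q.DA Mc ξ v (w, η *ᵥ v) + t • Q.A ξ v + (α ⬝ᵥ v) • inf (Q.A ξ v) E01

/-- normal forms of the curves through the points of `B` -/
structure NF (Mc : Mo ν p) (Q : ND V d N ν) : Prop where
  atl : Q.χ ∈ atlas (Cm n) V.X
  opn : IsOpen Q.B
  sub : Q.B ⊆ Q.χ.target
  lam_an : ∀ ξ ∈ Q.B, AnalyticAt ℂ Q.lam ξ
  lam_in : ∀ ξ ∈ Q.B, In P (Q.lam ξ) ∧ pt (Q.lam ξ) = Q.χ.symm ξ
  lam_tan : ∀ ξ ∈ Q.B, ∀ w, Jm P (Q.lam ξ) *ᵥ w = 0 ↔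
    ∃ (u : Cm n) (c : ℂ), w = fderiv ℂ Q.lam ξ u + c • Q.lam ξ
  lam_ind : ∀ ξ ∈ Q.B, ∀ (u : Cm n) (c : ℂ), fderiv ℂ Q.lam ξ u + c • Q.lam ξ = 0 → u = 0 ∧ c = 0
  A_an : ∀ (l : ℕ) (ξ : Cm l → Cm n) (v : Cm l → Cm ν) (τ : Cm l), AnalyticAt ℂ ξ τ →
    AnalyticAt ℂ v τ → ξ τ ∈ Q.B → (∀ᶠ s in 𝓝 τ, v s ∈ Mc.C) →
    AnalyticAt ℂ (fun s => Q.A (ξ s) (v s)) τ
  A_M : ∀ ξ ∈ Q.B, ∀ v ∈ Mc.C, F.M (Q.A ξ v) ∧ ev (Q.A ξ v) e0 = Q.lam ξ ∧ Q.θ (Q.A ξ v) e0 = v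
  A_hom : ∀ ξ ∈ Q.B, ∀ v ∈ Mc.C, ∀ c : ℂ, c ≠ 0 → Q.A ξ (c • v) = act (Q.A ξ v) (dg c)
  θ_mem : ∀ ξ ∈ Q.B, ∀ a z, Ov F (Q.χ.symm ξ) a z → Q.θ a z ∈ Mc.C
  θ_eq : ∀ ξ ∈ Q.B, ∀ a z z' (g : M2) (c : ℂ), Ov F (Q.χ.symm ξ) a z → z' ≠ 0 → g.det ≠ 0 →
    g *ᵥ z' = c • z → Q.θ (act a g) z' = (g.det / c ^ 2) • Q.θ a z
  θ_an : ∀ (l : ℕ) (ξ : Cm l → Cm n) (a : Cm l → BF d N) (z : Cm l → Cm 2) (τ : Cm l),
    AnalyticAt ℂ a τ → AnalyticAt ℂ z τ →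
    (∀ᶠ s in 𝓝 τ, ξ s ∈ Q.B ∧ Ov F (Q.χ.symm (ξ s)) (a s) (z s)) →
    AnalyticAt ℂ ξ τ ∧ AnalyticAt ℂ (fun s => Q.θ (a s) (z s)) τ ∧ ∃ g : Cm l → M2,
      AnalyticAt ℂ g τ ∧ ∀ᶠ s in 𝓝 τ, (g s).det ≠ 0 ∧ (∃ c : ℂ, g s *ᵥ e0 = c • z s) ∧
        act (a s) (g s) = Q.A (ξ s) (Q.θ (a s) (z s))
  tan : ∀ ξ ∈ Q.B, ∀ v ∈ Mc.C, ∀ b ∈ Tg P (Q.A ξ v), ev b e0 = 0 →
    ∃ w ∈ Mc.TC v, ∃ c : ℂ, b = Q.DA Mc ξ v (0, w) + c • inf (Q.A ξ v) E01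
  ind : ∀ ξ ∈ Q.B, ∀ v ∈ Mc.C, ∀ w ∈ Mc.TC v, ∀ c : ℂ,
    Q.DA Mc ξ v (0, w) + c • inf (Q.A ξ v) E01 = 0 → w = 0 ∧ c = 0

/-- normal forms exist everywhere -/
def NFs (Mc : Mo ν p) : Prop := ∀ x, ∃ Q, NF F Mc Q ∧ x ∈ Q.χ.source ∧ Q.χ x ∈ Q.B

/-- the structure of the fibres: the fields are the fields of the standard frame -/
structure Str (Mc : Mo ν p) (Q : ND V d N ν) : Prop where
  ex : ∀ ξ ∈ Q.B, ∀ w t, ∀ η ∈ Mc.g0, ∀ α, ∃ S ∈ TA F (Q.χ.symm ξ), ∀ v ∈ Mc.C,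
    S (Q.A ξ v) e0 = Q.fr Mc ξ w t η α v
  ext : ∀ ξ ∈ Q.B, ∀ S ∈ TA F (Q.χ.symm ξ), (∀ v ∈ Mc.C, S (Q.A ξ v) e0 = 0) → S = 0
  span : ∀ ξ ∈ Q.B, ∀ S ∈ TA F (Q.χ.symm ξ), ∃ w t, ∃ η ∈ Mc.g0, ∃ α, ∀ v ∈ Mc.C,
    S (Q.A ξ v) e0 = Q.fr Mc ξ w t η α v
  uniq : ∀ ξ ∈ Q.B, ∀ w t, ∀ η ∈ Mc.g0, ∀ α, (∀ v ∈ Mc.C, Q.fr Mc ξ w t η α v = 0) →
    w = 0 ∧ t = 0 ∧ η = 0 ∧ α = 0
  val : ∀ ξ ∈ Q.B, ∀ w t, ∀ η ∈ Mc.g0, ∀ α, ∀ v ∈ Mc.C,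
    ev (Q.fr Mc ξ w t η α v) e0 = fderiv ℂ Q.lam ξ w + t • Q.lam ξ
  an : ∀ w t, ∀ η ∈ Mc.g0, ∀ α (l : ℕ) (ξ : Cm l → Cm n) (v : Cm l → Cm ν) (τ : Cm l),
    AnalyticAt ℂ ξ τ → AnalyticAt ℂ v τ → ξ τ ∈ Q.B → (∀ᶠ s in 𝓝 τ, v s ∈ Mc.C) →
    AnalyticAt ℂ (fun s => Q.fr Mc (ξ s) w t η α (v s)) τ

/-- the coordinates in the standard frame -/
abbrev Co (n : ℕ) (Mc : Mo ν p) : Type := (Cm n × ℂ) × Mc.g0 × Cm ν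

/-- the bundle of the fields, with the standard frames -/
structure TB (Mc : Mo ν p) (E : HB V.X (Am d N)) (Q : E.ι → ND V d N ν)
    (β : Cm E.r ≃ₗ[ℂ] Co n Mc) : Prop where
  hb : IsHB E
  fib : ∀ x, E.A x = TA F x
  nf : ∀ i, NF F Mc (Q i)
  str : ∀ i, Str F Mc (Q i)
  dom : ∀ i x, x ∈ E.U i ↔ x ∈ (Q i).χ.source ∧ (Q i).χ x ∈ (Q i).B
  frm : ∀ i, ∀ x ∈ E.U i, ∀ c, ∀ v ∈ Mc.C, E.b i x c ((Q i).A ((Q i).χ x) v) e0 =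
    (Q i).fr Mc ((Q i).χ x) (β c).1.1 (β c).1.2 (β c).2.1 (β c).2.2 v
  jnt : ∀ (l : ℕ) (a : Cm l → BF d N) (z : Cm l → Cm 2) (s : Cm l → Am d N) (τ : Cm l),
    AnalyticAt ℂ a τ → AnalyticAt ℂ z τ → (∀ᶠ t in 𝓝 τ, F.M (a t) ∧ z t ≠ 0) →
    AnS E (fun t => pt (ev (a t) (z t))) s τ → AnalyticAt ℂ (fun t => s t (a t) (z t)) τ

end fam

end Vale.Agent.P280Z.Tr
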