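import Vale.Agent.P280Z.Tr.SkA
import Vale.Agent.P280Z.Tr.Api
import Vale.Agent.P281Z.Mf.Loc

/-!
# P280Z, block Tr: coordinates and transition matrices of the bundles
-/

open scoped Manifold ContDiff Topology Matrix Matrix.Norms.Elementwise
open Set Filter
open Vale.Agent.P272.K Vale.Agent.P281Z
open Vale.Agent.P277Z (Hol at_chart trans_an)

noncomputable section

namespace Vale.Agent.P280Z.Tr

variable {n l q : ℕ} {V : Mf n} {Z : Mf l} {W : Mf q} {Ω : Type} [AddCommGroup Ω] [Module ℂ Ω]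
  {T T' : Type} [NormedAddCommGroup T] [NormedSpace ℂ T] [NormedAddCommGroup T'] [NormedSpace ℂ T']
  {E : HB V.X Ω} {f f' : T → V.X} {s s' : T → Ω} {τ : T} {i j k : E.ι} {x : V.X}

/-! ### maps -/

theorem AnM.of_chart (hc : ContinuousAt f τ) {χ : Chart n V.X} (hχ : At χ (f τ))
    (h : AnalyticAt ℂ (fun t => χ (f t)) τ) : AnM f τ := by
  refine ⟨hc, fun χ' hχ' => ?_⟩
  have k := (trans_an hχ' hχ).comp_of_eq h rfl
  refine k.congr ?_
  filter_upwards [hc.eventually (χ.open_source.mem_nhds hχ.2)] with t ht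
  exact congrArg χ' (χ.left_inv ht)

theorem AnM.cng (h : AnM f τ) (k : ∀ᶠ t in 𝓝 τ, f t = f' t) : AnM f' τ :=
  ⟨h.1.congr k, fun χ hχ => (h.2 χ (k.self_of_nhds ▸ hχ)).congr (k.mono fun _ e => congrArg χ e)⟩

theorem anM_const (x : V.X) (τ : T) : AnM (fun _ : T => x) τ :=
  ⟨continuousAt_const, fun _ _ => analyticAt_const⟩

theorem AnM.hol (h : AnM f τ) {a : V.X → ℂ} (ha : Hol n a (f τ)) :
    AnalyticAt ℂ (fun t => a (f t)) τ := by
  have hχ := at_chart (n := n) (f τ)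
  refine ((ha _ hχ).comp_of_eq (h.2 _ hχ) rfl).congr ?_
  filter_upwards [h.1.eventually ((chartAt (Cm n) (f τ)).open_source.mem_nhds hχ.2)] with t ht
  exact congrArg a ((chartAt (Cm n) (f τ)).left_inv ht)

theorem AnM.comp {g : T' → T} {σ : T'} (h : AnM f (g σ)) (hg : AnalyticAt ℂ g σ) :
    AnM (fun t => f (g t)) σ :=
  ⟨ContinuousAt.comp (g := f) h.1 hg.continuousAt,
    fun χ hχ => AnalyticAt.comp (g := fun t => χ (f t)) (h.2 χ hχ) hg⟩

theorem AnM.map (h : AnM f τ) {g : V.X → W.X} (hg : HolA n q g (f τ)) :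
    AnM (fun t => g (f t)) τ := by
  have hχ := at_chart (n := n) (f τ)
  refine ⟨ContinuousAt.comp (g := g) hg.cont h.1, fun χ' hχ' => ?_⟩
  refine ((hg.an hχ hχ').comp_of_eq (h.2 _ hχ) rfl).congr ?_
  filter_upwards [h.1.eventually ((chartAt (Cm n) (f τ)).open_source.mem_nhds hχ.2)] with t ht
  exact congrArg (fun y => χ' (g y)) ((chartAt (Cm n) (f τ)).left_inv ht)

theorem anM_symm {χ : Chart n V.X} (hχ : At χ x) : AnM χ.symm (χ x) :=
  ⟨χ.continuousAt_symm (χ.map_source hχ.2), fun _ h => trans_an (χ.left_inv hχ.2 ▸ h) hχ⟩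

/-- a holomorphic map, read in a chart of the source -/
theorem anM_chart {g : Z.X → V.X} {z : Z.X} (hg : HolA l n g z) {χ : Chart l Z.X} (hχ : At χ z) :
    AnM (fun t => g (χ.symm t)) (χ z) :=
  (anM_symm hχ).map (by rw [χ.left_inv hχ.2]; exact hg)

theorem AnM.near [CompleteSpace T] (h : AnM f τ) : ∀ᶠ t in 𝓝 τ, AnM f t := by
  have hχ := at_chart (n := n) (f τ)
  filter_upwards [(h.2 _ hχ).eventually_analyticAt,
    (h.1.eventually ((chartAt (Cm n) (f τ)).open_source.mem_nhds hχ.2)).eventually_nhds] with t a b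
  refine AnM.of_chart ?_ ⟨hχ.1, b.self_of_nhds⟩ a
  exact (ContinuousAt.comp (f := fun t => chartAt (Cm n) (f τ) (f t))
    ((chartAt (Cm n) (f τ)).continuousAt_symm ((chartAt (Cm n) (f τ)).map_source b.self_of_nhds))
    a.continuousAt).congr (b.mono fun _ k => (chartAt (Cm n) (f τ)).left_inv k)

/-! ### coordinates -/

open Classical in
/-- the coordinates in the frame `i` -/
def HB.κ {X : Type} (E : HB X Ω) (i : E.ι) (x : X) : Ω →ₗ[ℂ] Cm E.r :=
  if h : LinearMap.ker (E.b i x) = ⊥ then (LinearMap.exists_leftInverse_of_injective _ h).choose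
  else 0

/-- the transition matrices -/
def HB.tm {X : Type} (E : HB X Ω) (i j : E.ι) (x : X) : Matrix (Fin E.r) (Fin E.r) ℂ :=
  LinearMap.toMatrix' ((E.κ i x).comp (E.b j x))

namespace IsHB
variable (hE : IsHB E)
include hE

theorem κ_b (hi : x ∈ E.U i) (c : Cm E.r) : E.κ i x (E.b i x c) = c := by
  have h := LinearMap.ker_eq_bot.2 (hE.inj i x hi)
  rw [HB.κ, dif_pos h]
  exact LinearMap.congr_fun (LinearMap.exists_leftInverse_of_injective _ h).choose_spec c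

theorem b_mem (hi : x ∈ E.U i) (c : Cm E.r) : E.b i x c ∈ E.A x := hE.rng i x hi ▸ ⟨c, rfl⟩

theorem b_κ (hi : x ∈ E.U i) {v : Ω} (hv : v ∈ E.A x) : E.b i x (E.κ i x v) = v := by
  obtain ⟨c, rfl⟩ : v ∈ LinearMap.range (E.b i x) := hE.rng i x hi ▸ hv
  rw [hE.κ_b hi]

theorem κ_inj (hi : x ∈ E.U i) {v w : Ω} (hv : v ∈ E.A x) (hw : w ∈ E.A x)
    (h : E.κ i x v = E.κ i x w) : v = w := by
  rw [← hE.b_κ hi hv, h, hE.b_κ hi hw]

omit hE in
theorem tm_mulVec (c : Cm E.r) : E.tm i j x *ᵥ c = E.κ i x (E.b j x c) := by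
  rw [HB.tm, ← Matrix.toLin'_apply, Matrix.toLin'_toMatrix']
  rfl

theorem b_tm (hi : x ∈ E.U i) (hj : x ∈ E.U j) (c : Cm E.r) :
    E.b j x c = E.b i x (E.tm i j x *ᵥ c) := by
  rw [tm_mulVec, hE.b_κ hi (hE.b_mem hj c)]

theorem κ_tm (hj : x ∈ E.U j) {v : Ω} (hv : v ∈ E.A x) :
    E.κ i x v = E.tm i j x *ᵥ E.κ j x v := by
  rw [tm_mulVec, hE.b_κ hj hv]

theorem tm_eq (hi : x ∈ E.U i) {m : Matrix (Fin E.r) (Fin E.r) ℂ}
    (h : ∀ c, E.b j x c = E.b i x (m *ᵥ c)) : E.tm i j x = m :=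
  Matrix.toLin'.injective (LinearMap.ext fun c => by
    rw [Matrix.toLin'_apply, Matrix.toLin'_apply, tm_mulVec, h, hE.κ_b hi])

theorem tm_self (hi : x ∈ E.U i) : E.tm i i x = 1 := hE.tm_eq hi fun c => by rw [Matrix.one_mulVec]

theorem tm_mul (hi : x ∈ E.U i) (hj : x ∈ E.U j) (hk : x ∈ E.U k) :
    E.tm i j x * E.tm j k x = E.tm i k x :=
  (hE.tm_eq hi fun c => by rw [← Matrix.mulVec_mulVec, ← hE.b_tm hi hj, ← hE.b_tm hj hk]).symm

theorem tm_det (hi : x ∈ E.U i) (hj : x ∈ E.U j) : (E.tm i j x).det ≠ 0 := fun h => by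
  have k := congrArg Matrix.det (hE.tm_mul hi hj hi)
  rw [Matrix.det_mul, h, zero_mul, hE.tm_self hi, Matrix.det_one] at k
  exact zero_ne_one k

theorem tm_hol (hi : x ∈ E.U i) (hj : x ∈ E.U j) (a b : Fin E.r) :
    Hol n (fun y => E.tm i j y a b) x := by
  obtain ⟨m, h1, h2⟩ := hE.hol i j x hi hj
  refine (h1 a b).congr ?_
  filter_upwards [h2, (hE.opn i).mem_nhds hi] with y k1 k2
  rw [hE.tm_eq k2 k1]

theorem tm_an (hf : AnM f τ) (hi : f τ ∈ E.U i) (hj : f τ ∈ E.U j) :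
    AnalyticAt ℂ (fun t => E.tm i j (f t)) τ :=
  analyticAt_pi_iff.2 fun a => analyticAt_pi_iff.2 fun b => hf.hol (hE.tm_hol hi hj a b)

theorem finrank (x : V.X) : Module.finrank ℂ (E.A x) = E.r := by
  obtain ⟨i, hi⟩ := hE.cov x
  rw [← hE.rng i x hi, LinearMap.finrank_range_of_inj (hE.inj i x hi)]
  simp

/-- independence is read off the determinant of the coordinates -/
theorem li_iff (hi : x ∈ E.U i) {v : Fin E.r → Ω} (hv : ∀ a, v a ∈ E.A x) :
    LinearIndependent ℂ v ↔ (Matrix.of fun a b => E.κ i x (v b) a).det ≠ 0 := by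
  have e : v = E.b i x ∘ fun b => E.κ i x (v b) := funext fun b => (hE.b_κ hi (hv b)).symm
  have k : LinearIndependent ℂ v ↔ LinearIndependent ℂ fun b => E.κ i x (v b) := by
    conv_lhs => rw [e]
    exact (E.b i x).linearIndependent_iff (LinearMap.ker_eq_bot.2 (hE.inj i x hi))
  rw [k, ← isUnit_iff_ne_zero, ← Matrix.isUnit_iff_isUnit_det,
    ← Matrix.linearIndependent_cols_iff_isUnit]
  rfl

end IsHB

/-! ### sections -/

theorem AnS.evm (hE : IsHB E) (hf : ContinuousAt f τ) (h : AnS E f s τ) :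
    ∀ᶠ t in 𝓝 τ, s t ∈ E.A (f t) := by
  obtain ⟨i, hi, c, -, h2⟩ := h
  filter_upwards [h2, hf.eventually ((hE.opn i).mem_nhds hi)] with t k1 k2
  exact k1 ▸ hE.b_mem k2 _

/-- the coordinates of a section are analytic in every frame -/
theorem AnS.κ (hE : IsHB E) (hf : AnM f τ) (h : AnS E f s τ) (hj : f τ ∈ E.U j) :
    AnalyticAt ℂ (fun t => E.κ j (f t) (s t)) τ := by
  obtain ⟨i, hi, c, h1, h2⟩ := h
  refine (an_mulVec (hE.tm_an hf hj hi) h1).congr ?_
  filter_upwards [h2] with t k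
  rw [k, IsHB.tm_mulVec]

theorem anS_of_κ (hE : IsHB E) (hf : ContinuousAt f τ) (hj : f τ ∈ E.U j)
    (h1 : ∀ᶠ t in 𝓝 τ, s t ∈ E.A (f t)) (h2 : AnalyticAt ℂ (fun t => E.κ j (f t) (s t)) τ) :
    AnS E f s τ := by
  refine ⟨j, hj, _, h2, ?_⟩
  filter_upwards [h1, hf.eventually ((hE.opn j).mem_nhds hj)] with t k1 k2
  exact (hE.b_κ k2 k1).symm

theorem AnS.cng (h : AnS E f s τ) (k : ∀ᶠ t in 𝓝 τ, f t = f' t) (k' : ∀ᶠ t in 𝓝 τ, s t = s' t) :
    AnS E f' s' τ := by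
  obtain ⟨i, hi, c, h1, h2⟩ := h
  refine ⟨i, k.self_of_nhds ▸ hi, c, h1, ?_⟩
  filter_upwards [h2, k, k'] with t a b c
  rw [← b, ← c, a]

theorem AnS.cmp {g : T' → T} {σ : T'} (h : AnS E f s (g σ)) (hg : AnalyticAt ℂ g σ) :
    AnS E (fun t => f (g t)) (fun t => s (g t)) σ := by
  obtain ⟨i, hi, c, h1, h2⟩ := h
  exact ⟨i, hi, fun t => c (g t), AnalyticAt.comp (g := c) h1 hg, hg.continuousAt.eventually h2⟩

theorem anS_zero (hE : IsHB E) (f : T → V.X) (τ : T) : AnS E f (fun _ => 0) τ := by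
  obtain ⟨i, hi⟩ := hE.cov (f τ)
  exact ⟨i, hi, fun _ => 0, analyticAt_const, Eventually.of_forall fun _ => (map_zero _).symm⟩

theorem anS_const (hE : IsHB E) {v : Ω} (hv : v ∈ E.A x) (τ : T) :
    AnS E (fun _ : T => x) (fun _ => v) τ := by
  obtain ⟨i, hi⟩ := hE.cov x
  exact ⟨i, hi, fun _ => E.κ i x v, analyticAt_const,
    Eventually.of_forall fun _ => (hE.b_κ hi hv).symm⟩

theorem AnS.smul {a : T → ℂ} (ha : AnalyticAt ℂ a τ) (h : AnS E f s τ) :
    AnS E f (fun t => a t • s t) τ := by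
  obtain ⟨i, hi, c, h1, h2⟩ := h
  exact ⟨i, hi, fun t => a t • c t, ha.smul h1, h2.mono fun t k => by simp only [k, map_smul]⟩

theorem AnS.add (hE : IsHB E) (hf : AnM f τ) (h : AnS E f s τ) (h' : AnS E f s' τ) :
    AnS E f (fun t => s t + s' t) τ := by
  obtain ⟨i, hi⟩ := hE.cov (f τ)
  refine anS_of_κ hE hf.1 hi (((h.evm hE hf.1).and (h'.evm hE hf.1)).mono
    fun t k => add_mem k.1 k.2) ?_
  simp only [map_add]
  exact (h.κ hE hf hi).add (h'.κ hE hf hi)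

theorem AnS.sum (hE : IsHB E) (hf : AnM f τ) {J : Type} (S : Finset J) {s : J → T → Ω}
    (h : ∀ a ∈ S, AnS E f (s a) τ) : AnS E f (fun t => ∑ a ∈ S, s a t) τ := by
  classical
  induction S using Finset.induction_on with
  | empty => simpa using anS_zero hE f τ
  | insert a S ha ih =>
    simp only [Finset.sum_insert ha]
    exact (h a (Finset.mem_insert_self _ _)).add hE hf
      (ih fun b hb => h b (Finset.mem_insert_of_mem hb))

theorem AnS.near [CompleteSpace T] (hE : IsHB E) (hf : ContinuousAt f τ) (h : AnS E f s τ) :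
    ∀ᶠ t in 𝓝 τ, AnS E f s t := by
  obtain ⟨i, hi, c, h1, h2⟩ := h
  filter_upwards [h1.eventually_analyticAt, h2.eventually_nhds,
    hf.eventually ((hE.opn i).mem_nhds hi)] with t a b d
  exact ⟨i, d, c, a, b⟩

section man
variable {g g' : Z.X → V.X} {σ σ' : Z.X → Ω} {z : Z.X}

theorem HolS.anS {y : T → Z.X} (h : HolS E g σ (y τ)) (hy : AnM y τ) :
    AnS E (fun t => g (y t)) (fun t => σ (y t)) τ := by
  have hχ := at_chart (n := l) (y τ)
  have k := hy.1.eventually ((chartAt (Cm l) (y τ)).open_source.mem_nhds hχ.2)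
  refine (AnS.cmp (g := fun t => chartAt (Cm l) (y τ) (y t)) (h _ hχ) (hy.2 _ hχ)).cng
    (k.mono fun t ht => ?_) (k.mono fun t ht => ?_) <;>
  simp only [(chartAt (Cm l) (y τ)).left_inv ht]

theorem holS_of_chart {χ : Chart l Z.X} (hχ : At χ z)
    (h : AnS E (fun t => g (χ.symm t)) (fun t => σ (χ.symm t)) (χ z)) : HolS E g σ z := by
  intro χ' hχ'
  have e : χ (χ'.symm (χ' z)) = χ z := by rw [χ'.left_inv hχ'.2]
  have k := at_ev hχ' (χ.open_source.mem_nhds hχ.2)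
  refine (AnS.cmp (g := fun t => χ (χ'.symm t)) (e ▸ h) (trans_an hχ hχ')).cng
    (k.mono fun t ht => ?_) (k.mono fun t ht => ?_) <;>
  simp only [χ.left_inv ht]

theorem HolS.comp {h : W.X → Z.X} {w : W.X} (hs : HolS E g σ (h w)) (hh : HolA q l h w) :
    HolS E (fun w => g (h w)) (fun w => σ (h w)) w := fun χ hχ =>
  HolS.anS (y := fun t => h (χ.symm t)) (by simpa only [χ.left_inv hχ.2] using hs) (anM_chart hh hχ)

theorem HolS.cng (h : HolS E g σ z) (k : ∀ᶠ t in 𝓝 z, g t = g' t) (k' : ∀ᶠ t in 𝓝 z, σ t = σ' t) :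
    HolS E g' σ' z := fun χ hχ => (h χ hχ).cng (at_ev hχ k) (at_ev hχ k')

theorem ev_of_chart {χ : Chart l Z.X} (hχ : At χ z) {P : Z.X → Prop}
    (h : ∀ᶠ t in 𝓝 (χ z), P (χ.symm t)) : ∀ᶠ w in 𝓝 z, P w := by
  filter_upwards [(χ.continuousAt hχ.2).eventually h, χ.open_source.mem_nhds hχ.2] with w a b
  rwa [χ.left_inv b] at a

theorem HolS.mem (hE : IsHB E) (hg : HolA l n g z) (h : HolS E g σ z) :
    ∀ᶠ w in 𝓝 z, σ w ∈ E.A (g w) :=
  ev_of_chart (at_chart z) ((h _ (at_chart z)).evm hE (anM_chart hg (at_chart z)).1)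

theorem HolS.κ (hE : IsHB E) (hg : HolA l n g z) (h : HolS E g σ z) (hj : g z ∈ E.U j)
    (a : Fin E.r) : Hol l (fun w => E.κ j (g w) (σ w) a) z := fun χ hχ =>
  analyticAt_pi_iff.1 ((h χ hχ).κ hE (anM_chart hg hχ) (by rw [χ.left_inv hχ.2]; exact hj)) a

theorem HolS.near (hE : IsHB E) (hg : HolA l n g z) (h : HolS E g σ z) :
    ∀ᶠ w in 𝓝 z, HolS E g σ w := by
  have hχ := at_chart (n := l) z
  filter_upwards [((chartAt (Cm l) z).continuousAt hχ.2).eventually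
    ((h _ hχ).near hE (anM_chart hg hχ).1), at_near hχ] with w a b
  exact holS_of_chart b a

theorem holS_const (hE : IsHB E) {v : Ω} (hv : v ∈ E.A x) (z : Z.X) :
    HolS E (fun _ => x) (fun _ => v) z := fun _ _ => anS_const hE hv _

end man

/-! ### sections on the line -/

section line
variable {f : Cm 2 → V.X} {s s' : Cm 2 → Ω} {m : ℤ} {y : Cm 2}

theorem Sec.mem (hE : IsHB E) (hf : Ln f) (h : Sec E f m s) (hy : y ≠ 0) : s y ∈ E.A (f y) :=
  ((h y hy).1.evm hE (hf y hy).1.1).self_of_nhds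

theorem sec_zero (hE : IsHB E) : Sec E f m fun _ => 0 := fun y _ =>
  ⟨anS_zero hE f y, fun _ _ => (smul_zero _).symm⟩

theorem Sec.add (hE : IsHB E) (hf : Ln f) (h : Sec E f m s) (h' : Sec E f m s') :
    Sec E f m fun y => s y + s' y := fun y hy =>
  ⟨(h y hy).1.add hE (hf y hy).1 (h' y hy).1, fun c hc => by
    simp only [(h y hy).2 c hc, (h' y hy).2 c hc, smul_add]⟩

theorem Sec.sum (hE : IsHB E) (hf : Ln f) {J : Type} (S : Finset J) {s : J → Cm 2 → Ω}
    (h : ∀ a ∈ S, Sec E f m (s a)) : Sec E f m fun y => ∑ a ∈ S, s a y := fun y hy =>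
  ⟨AnS.sum hE (hf y hy).1 S fun a ha => (h a ha y hy).1, fun c hc => by
    rw [Finset.smul_sum]
    exact Finset.sum_congr rfl fun a ha => (h a ha y hy).2 c hc⟩

/-- the product with a homogeneous function -/
theorem Sec.smul {a : Cm 2 → ℂ} {m' : ℤ} (ha : ∀ y, y ≠ 0 → AnalyticAt ℂ a y ∧
    ∀ c : ℂ, c ≠ 0 → a (c • y) = c ^ m' * a y) (h : Sec E f m s) :
    Sec E f (m' + m) fun y => a y • s y := fun y hy =>
  ⟨(h y hy).1.smul (ha y hy).1, fun c hc => by
    simp only [(h y hy).2 c hc, (ha y hy).2 c hc, smul_smul, zpow_add₀ hc]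
    congr 1
    ring⟩

theorem Sec.const_smul (a : ℂ) (h : Sec E f m s) : Sec E f m fun y => a • s y := fun y hy =>
  ⟨(h y hy).1.smul analyticAt_const, fun c hc => by simp only [(h y hy).2 c hc, smul_comm a]⟩

end line

theorem lna : LNA := fun h => ⟨fun _ _ _ _ _ a b => anM_pt h a b, fun _ ha => ln_crv h ha⟩

end Vale.Agent.P280Z.Tr
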