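import Vale.Agent.P280Z.Tr.Hb

/-!
# P280Z, block Tr: chains and local families of chains
-/

open scoped Manifold ContDiff Topology Matrix Matrix.Norms.Elementwise
open Set Filter
open Vale.Agent.P272.K Vale.Agent.P281Z
open Vale.Agent.P277Z (Hol at_chart)

noncomputable section

namespace Vale.Agent.P280Z.Tr

variable {n u k : ℕ} {V : Mf n} {U : Mf u} {K : Mf k} {p : U.X → K.X} {e : U.X → V.X}
  {Ω : Type} [AddCommGroup Ω] [Module ℂ Ω] {E : HB V.X Ω} {Φ : U.X → U.X → Ω →ₗ[ℂ] Ω}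
  {x y z : V.X} {φ φ' : Ω →ₗ[ℂ] Ω} {N : ℕ} {v w : Ω}

variable (p e Φ) in
/-- chains of any length -/
def Ch (x y : V.X) (φ : Ω →ₗ[ℂ] Ω) : Prop := ∃ N, Rch p e Φ x N y φ

theorem Ch.refl (x : V.X) : Ch p e Φ x x LinearMap.id := ⟨0, .zero⟩

theorem Ch.step {a a' : U.X} (h : Ch p e Φ x (e a) φ) (k : p a = p a') :
    Ch p e Φ x (e a') ((Φ a a').comp φ) := h.elim fun _ h => ⟨_, h.step a a' k⟩

theorem Ch.trans (h : Ch p e Φ x y φ) (h' : Ch p e Φ y z φ') : Ch p e Φ x z (φ'.comp φ) := by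
  obtain ⟨N, h'⟩ := h'
  induction h' with
  | zero => exact h
  | step a a' _ k ih => exact ih.step k

theorem Ch.map (hT : Tp p e E Φ) (h : Ch p e Φ x y φ) (hw : w ∈ E.A x) : φ w ∈ E.A y := by
  obtain ⟨N, h⟩ := h
  induction h with
  | zero => exact hw
  | step a a' _ k ih => exact hT.map a a' k _ ih

theorem Ch.rev (hT : Tp p e E Φ) (h : Ch p e Φ x y φ) : ∃ φ', Ch p e Φ y x φ' ∧
    (∀ w ∈ E.A x, φ' (φ w) = w) ∧ ∀ w ∈ E.A y, φ (φ' w) = w := by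
  obtain ⟨N, h⟩ := h
  induction h with
  | zero => exact ⟨_, .refl x, fun _ _ => rfl, fun _ _ => rfl⟩
  | step a a' h k ih =>
    obtain ⟨φ', h1, h2, h3⟩ := ih
    refine ⟨_, ((Ch.refl _).step k.symm).trans h1, fun w hw => ?_, fun w hw => ?_⟩
    · exact (congrArg φ' (hT.symm a a' k _ (Ch.map hT ⟨_, h⟩ hw))).trans (h2 w hw)
    · exact (congrArg (Φ a a') (h3 _ (hT.map a' a k.symm w hw))).trans (hT.symm a' a k.symm w hw)

theorem Ch.inj (hT : Tp p e E Φ) (h : Ch p e Φ x y φ) (hv : v ∈ E.A x) (hw : w ∈ E.A x)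
    (k : φ v = φ w) : v = w := by
  obtain ⟨φ', -, h2, -⟩ := h.rev hT
  rw [← h2 v hv, k, h2 w hw]

theorem CC.ch (h : CC p e) (Φ : U.X → U.X → Ω →ₗ[ℂ] Ω) (x y : V.X) : ∃ φ, Ch p e Φ x y φ := by
  induction h x y with
  | refl => exact ⟨_, .refl x⟩
  | tail _ k ih =>
    obtain ⟨a, a', k, rfl, rfl⟩ := k
    exact ih.elim fun _ h => ⟨_, h.step k⟩

theorem rch_const (hT : Tp p e E Φ) (a : U.X) (hv : v ∈ E.A (e a)) (N : ℕ) :
    ∃ φ, Rch p e Φ (e a) N (e a) φ ∧ φ v = v := by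
  induction N with
  | zero => exact ⟨_, .zero, rfl⟩
  | succ N ih =>
    obtain ⟨φ, h1, h2⟩ := ih
    exact ⟨_, h1.step a a rfl, (congrArg (Φ a a) h2).trans (hT.refl a v hv)⟩

variable (p e Φ) in
/-- the orbit of `v` -/
def Orb (x : V.X) (v : Ω) (y : V.X) (w : Ω) : Prop := ∃ φ, Ch p e Φ x y φ ∧ φ v = w

theorem Orb.ch (h : Orb p e Φ x v y w) (k : Ch p e Φ y z φ) : Orb p e Φ x v z (φ w) := by
  obtain ⟨φ', h1, rfl⟩ := h
  exact ⟨_, h1.trans k, rfl⟩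

theorem Orb.mem (hT : Tp p e E Φ) (hv : v ∈ E.A x) (h : Orb p e Φ x v y w) : w ∈ E.A y := by
  obtain ⟨φ', h1, rfl⟩ := h
  exact h1.map hT hv

theorem Orb.ex (hT : Tp p e E Φ) (hv : v ∈ E.A x) (h : Orb p e Φ x v y w) (k : Ch p e Φ x y φ) :
    ∃ w', Orb p e Φ x v x w' ∧ w = φ w' := by
  obtain ⟨φ', h1, -, h3⟩ := k.rev hT
  exact ⟨_, h.ch h1, (h3 w (h.mem hT hv)).symm⟩

variable (p e Φ E) in
/-- a holomorphic family of chains with the end near `z` -/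
def Gd (x : V.X) (ψ : V.X → Ω →ₗ[ℂ] Ω) (z : V.X) : Prop :=
  (∀ᶠ y in 𝓝 z, Ch p e Φ x y (ψ y)) ∧ ∀ w ∈ E.A x, HolS E (fun y => y) (fun y => ψ y w) z

variable {ψ : V.X → Ω →ₗ[ℂ] Ω}

theorem Gd.near (hE : IsHB E) (h : Gd p e E Φ x ψ z) : ∀ᶠ y in 𝓝 z, Gd p e E Φ x ψ y := by
  obtain ⟨i, hi⟩ := hE.cov x
  filter_upwards [h.1.eventually_nhds, eventually_all.2 fun b : Fin E.r =>
    (h.2 _ (hE.b_mem hi (Pi.single b 1))).near hE (holM_id.at z)] with y h1 h2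
  refine ⟨h1, fun w hw χ hχ => ?_⟩
  refine (AnS.sum hE (anM_chart (holM_id.at y) hχ) Finset.univ fun b _ =>
    (h2 b χ hχ).smul (a := fun _ => E.κ i x w b) analyticAt_const).cng
    (Eventually.of_forall fun _ => rfl) (Eventually.of_forall fun t => ?_)
  simp only [← map_smul, ← map_sum]
  congr 1
  rw [← pi_eq_sum_univ', hE.b_κ hi hw]

theorem Gd.step (hT : Tp p e E Φ) (hp : Sub u k p) (he : Sub u n e) {a a' : U.X}
    (h : Gd p e E Φ x ψ (e a)) (hk : p a = p a') : ∃ ψ', Gd p e E Φ x ψ' (e a') := by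
  obtain ⟨σ, s0, s1, s2⟩ := (he.sbm a').sec (he.hol.at a')
  obtain ⟨τ, t0, t1, t2⟩ := (hp.sbm a).sec (hp.hol.at a)
  have e1 : p (σ (e a')) = p a := by rw [s0, hk]
  have h1 : HolA n k (fun y => p (σ y)) (e a') := (hp.hol.at _).cmp s1
  have h2 : HolA n u (fun y => τ (p (σ y))) (e a') :=
    HolA.cmp (g := τ) (f := fun y => p (σ y)) (e1 ▸ t1) h1
  have h3 : HolA n n (fun y => e (τ (p (σ y)))) (e a') := (he.hol.at _).cmp h2
  have e2 : e (τ (p (σ (e a')))) = e a := by rw [e1, t0]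
  have h4 : ∀ᶠ y in 𝓝 (e a'), p (τ (p (σ y))) = p (σ y) := h1.cont.eventually (e1 ▸ t2)
  refine ⟨fun y => (Φ (τ (p (σ y))) (σ y)).comp (ψ (e (τ (p (σ y))))), ?_, fun w hw χ hχ => ?_⟩
  · filter_upwards [h3.cont.eventually (e2 ▸ h.1), h4, s2] with y k1 k2 k3
    have k4 := k1.step k2
    rwa [k3] at k4
  · exact (hT.hol n _ _ _ _ (anM_chart h2 hχ) (anM_chart s1 hχ) (at_ev hχ h4)
      (HolS.comp (h := fun y => e (τ (p (σ y)))) (e2 ▸ h.2 w hw) h3 χ hχ)).cng (at_ev hχ s2)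
      (Eventually.of_forall fun _ => rfl)

theorem Gd.all (hT : Tp p e E Φ) (hp : Sub u k p) (he : Sub u n e) (hC : CC p e)
    (h : Gd p e E Φ x ψ z) (y : V.X) : ∃ ψ', Gd p e E Φ x ψ' y := by
  induction hC z y with
  | refl => exact ⟨_, h⟩
  | tail _ k ih =>
    obtain ⟨a, a', k, rfl, rfl⟩ := k
    exact ih.elim fun _ h => h.step hT hp he k

/-- a section with values in a countable orbit is locally constant -/
theorem Gd.lc (hE : IsHB E) (hT : Tp p e E Φ) (hv : v ∈ E.A x)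
    (hG : {w | Orb p e Φ x v x w}.Countable) {l : ℕ} {Z : Mf l} {g : Z.X → V.X} {σ : Z.X → Ω}
    {c : Z.X} (hg : HolA l n g c) (hσ : HolS E g σ c) (ho : ∀ c, Orb p e Φ x v (g c) (σ c))
    (h : Gd p e E Φ x ψ (g c)) :
    ∃ w, Orb p e Φ x v x w ∧ ∀ᶠ c' in 𝓝 c, σ c' = ψ (g c') w := by
  obtain ⟨i, hi⟩ := hE.cov x
  obtain ⟨j, hj⟩ := hE.cov (g c)
  have hχ := at_chart (n := l) c
  generalize chartAt (Cm l) c = χ at hχ
  have ec := χ.left_inv hχ.2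
  have hf := anM_chart hg hχ
  let m : V.X → Matrix (Fin E.r) (Fin E.r) ℂ := fun y =>
    LinearMap.toMatrix' ((E.κ j y).comp ((ψ y).comp (E.b i x)))
  have mv : ∀ y a, m y *ᵥ a = E.κ j y (ψ y (E.b i x a)) := fun y a => by
    rw [← Matrix.toLin'_apply, Matrix.toLin'_toMatrix']
    rfl
  have md : ∀ y ∈ E.U j, Ch p e Φ x y (ψ y) → IsUnit (m y).det := fun y hy k =>
    (Matrix.isUnit_iff_isUnit_det _).1 (Matrix.mulVec_injective_iff_isUnit.1 fun a b t => by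
      rw [mv, mv] at t
      exact hE.inj i x hi (k.inj hT (hE.b_mem hi a) (hE.b_mem hi b)
        (hE.κ_inj hy (k.map hT (hE.b_mem hi a)) (k.map hT (hE.b_mem hi b)) t)))
  have ma : AnalyticAt ℂ (fun t => m (g (χ.symm t))) (χ c) := an_mat fun a b =>
    an_app (((h.2 _ (hE.b_mem hi (Pi.single b 1))).comp hg χ hχ).κ hE hf (ec.symm ▸ hj)) a
  have ta := an_mulVec (an_inv ma (by rw [ec]; exact (md _ hj h.1.self_of_nhds).ne_zero))
    ((hσ χ hχ).κ hE hf (ec.symm ▸ hj))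
  have key : ∀ᶠ c' in 𝓝 c, ∃ w, Orb p e Φ x v x w ∧ σ c' = ψ (g c') w ∧
      (m (g c'))⁻¹ *ᵥ E.κ j (g c') (σ c') = E.κ i x w := by
    filter_upwards [hg.cont.eventually h.1, hg.cont.eventually ((hE.opn j).mem_nhds hj)]
      with c' k1 k2
    obtain ⟨w, k3, k4⟩ := (ho c').ex hT hv k1
    refine ⟨w, k3, k4, ?_⟩
    rw [k4, ← hE.b_κ hi (k3.mem hT hv), ← mv, Matrix.mulVec_mulVec,
      Matrix.nonsing_inv_mul _ (md _ k2 k1), Matrix.one_mulVec, hE.κ_b hi]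
  obtain ⟨r, hr, hb⟩ := Metric.eventually_nhds_iff_ball.1
    (ta.eventually_analyticAt.and (at_ev hχ key))
  have hs := (hG.image (E.κ i x)).isTotallyDisconnected _ (by
      rintro _ ⟨t, ht, rfl⟩
      obtain ⟨w, k1, -, k2⟩ := (hb t ht).2
      exact ⟨w, k1, k2.symm⟩)
    ((convex_ball (χ c) r).isPreconnected.image _
      fun t ht => (hb t ht).1.continuousAt.continuousWithinAt)
  obtain ⟨w, k1, -, k2⟩ := (hb _ (Metric.mem_ball_self hr)).2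
  refine ⟨w, k1, ev_of_chart hχ (P := fun c' => σ c' = ψ (g c') w) ?_⟩
  filter_upwards [Metric.ball_mem_nhds _ hr] with t ht
  obtain ⟨w', k3, k4, k5⟩ := (hb t ht).2
  rw [k4, hE.κ_inj hi (k3.mem hT hv) (k1.mem hT hv)
    (k5.symm.trans ((hs ⟨t, ht, rfl⟩ ⟨_, Metric.mem_ball_self hr, rfl⟩).trans k2))]

end Vale.Agent.P280Z.Tr
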