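import Vale.Agent.P280Z.Tr.Defs
import Vale.Agent.P280Z.Ma.Gloc
import Vale.Agent.P280Z.Mp.All

/-!
# P280Z, block Tr: the tangent map on pointed parametrised curves
-/

open scoped Manifold ContDiff Topology Matrix Matrix.Norms.Elementwise
open Set Filter Function
open Vale.Agent.P272.K Vale.Agent.P281Z Vale.Agent.P280Z.Mp Vale.Agent.P280Z.Ma
open Vale.Agent.P280Z.Pu (ap p1 p2)
open Vale.Agent.P280Z.Mp.Asm (c_ne mv_inv inv_mv inv_ne key0 zz_rev zz_div)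

noncomputable section

namespace Vale.Agent.P280Z.Tr.Nf

variable {n N r e d D k ν p : ℕ} {V : Mf n} {P : Eqs r N} {pt : Cm N → V.X}
  {F : Fam V P pt d D k} {Mc : Mo ν p} {O : Set V.X} {θ : (Tb F).ι → F.U.X → Cm ν}

/-- comparison of a pointed curve with a slice -/
def Dt (F : Fam V P pt d D k) (a : BF d N) (z : Cm 2) (i : Ix F × Fin 2) (g : M2) (c : ℂ) : Prop :=
  F.pu a z ∈ (cu F i.1 i.2).source ∧ ra F i.1 (F.p (F.pu a z)) = act a g ∧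
    g *ᵥ rz F i.1 i.2 (F.pu a z) = c • z

/-- the tangent map -/
def th (θ : (Tb F).ι → F.U.X → Cm ν) (a : BF d N) (z : Cm 2) : Cm ν :=
  Classical.epsilon fun v => ∃ i g c, Dt F a z i g c ∧ v = (c ^ 2 / g.det) • θ i (F.pu a z)

theorem Dt.ne (hd : 0 < d) {a : BF d N} {z : Cm 2} {i : Ix F × Fin 2} {g : M2} {c : ℂ}
    (h : Dt F a z i g c) : g.det ≠ 0 ∧ c ≠ 0 := by
  have h1 := det_ne hd (h.2.1 ▸ (Gl.ra_cd F i.1 (Gl.cu_src F _ _ h.1).1).1.nz)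
  exact ⟨h1, c_ne h1 (Gl.rz_ne F _ _ _) h.2.2⟩

theorem ex_dt' {a : BF d N} {z : Cm 2} (ha : F.M a) (hz : z ≠ 0) {i : Ix F × Fin 2}
    (h : F.pu a z ∈ (cu F i.1 i.2).source) : ∃ g c, Dt F a z i g c := by
  obtain ⟨h1, -, h2⟩ := Gl.cu_src F _ _ h
  obtain ⟨g, c, h3⟩ := (F.pu_eq _ _ _ _ ha (Gl.ra_m F _ h1) hz (Gl.rz_ne F _ _ _)).1 h2.symm
  exact ⟨g, c, h, h3⟩

theorem ex_dt (hd : 0 < d) {a : BF d N} {z : Cm 2} (ha : F.M a) (hz : z ≠ 0) :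
    ∃ i g c, Dt F a z i g c := by
  obtain ⟨s, hs⟩ := Gl.ex_ck F (F.p (F.pu a z))
  obtain ⟨j, hj⟩ := Gl.ex_cu F s hd hs
  exact ⟨(s, j), ex_dt' ha hz (i := (s, j)) hj⟩

theorem th_spec (H : Hyp V P e pt d) (hM : MF F Mc O θ) {a : BF d N} {z : Cm 2} (ha : F.M a)
    (hz : z ≠ 0) (hO : F.e (F.pu a z) ∈ O) {i : Ix F × Fin 2} {g : M2} {c : ℂ}
    (h : Dt F a z i g c) : th θ a z = (c ^ 2 / g.det) • θ i (F.pu a z) := by
  obtain ⟨i', g', c', h', e'⟩ := Classical.epsilon_spec (p := fun v => ∃ i g c, Dt F a z i g c ∧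
    v = (c ^ 2 / g.det) • θ i (F.pu a z)) ⟨_, i, g, c, h, rfl⟩
  have s1 := (Gl.cu_src F _ _ h.1).1
  have s2 := (Gl.cu_src F _ _ h'.1).1
  have h1 := Gl.gm_det F i.1 i'.1 H.pos s1 s2
  obtain ⟨h2, h3⟩ := Gl.gc_spec F H.pos H.low i i' h.1 h'.1
  obtain ⟨h4, h5⟩ := h.ne H.pos
  obtain ⟨ζ, z1, z2⟩ := Gl.uniq H.pos H.low (F.cd a ha).1 (g := g * gm F i.1 i'.1 (F.p (F.pu a z)))
    (g' := g') (by rw [Matrix.det_mul]; exact mul_ne_zero h4 h1)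
    (by rw [← h'.2.1, Gl.gm_act F i.1 i'.1 s1 s2, h.2.1, act_act])
  have z3 : ζ ≠ 0 := fun h => by simp [h, H.pos.ne'] at z1
  have h6 := h'.2.2
  rw [z2, Matrix.smul_mulVec, ← Matrix.mulVec_mulVec, h3, Matrix.mulVec_smul, h.2.2, smul_smul,
    smul_smul] at h6
  rw [th, e', hM.chg i i' _ h.1 h'.1 hO, smul_smul, ← smul_left_injective ℂ hz h6, z2,
    Matrix.det_smul, Matrix.det_mul]
  refine congrArg (· • _) ?_
  show _ * ((gm F i.1 i'.1 (F.p (F.pu a z))).det / gc F i i' (F.pu a z) ^ 2) = _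
  rw [Fintype.card_fin]
  field_simp

theorem th_eq (H : Hyp V P e pt d) (hM : MF F Mc O θ) {a : BF d N} {z z' : Cm 2} (ha : F.M a)
    (hz : z ≠ 0) (hO : F.e (F.pu a z) ∈ O) {g : M2} {c : ℂ} (hz' : z' ≠ 0) (hg : g.det ≠ 0)
    (h : g *ᵥ z' = c • z) : th θ (act a g) z' = (g.det / c ^ 2) • th θ a z := by
  have h1 := F.inv a g ha hg
  have h2 : F.pu a z = F.pu (act a g) z' := (F.pu_eq _ _ _ _ ha h1 hz hz').2 ⟨g, c, rfl, h⟩
  obtain ⟨i, g', c', h3⟩ := ex_dt H.pos h1 hz'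
  obtain ⟨h4, h5⟩ := h3.ne H.pos
  have h6 := c_ne hg hz' h
  rw [th_spec H hM h1 hz' (h2 ▸ hO) h3, th_spec H hM ha hz hO (i := i) (g := g * g') (c := c' * c)
    ⟨h2 ▸ h3.1, by rw [h2, h3.2.1, act_act], by
      rw [h2, ← Matrix.mulVec_mulVec, h3.2.2, Matrix.mulVec_smul, h, mul_smul]⟩, smul_smul, h2,
    Matrix.det_mul]
  refine congrArg (· • _) ?_
  field_simp

theorem th_mem (H : Hyp V P e pt d) (hS : Mc.Sm) (hM : MF F Mc O θ) {a : BF d N} {z : Cm 2}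
    (ha : F.M a) (hz : z ≠ 0) (hO : F.e (F.pu a z) ∈ O) : th θ a z ∈ Mc.C := by
  obtain ⟨i, g, c, h⟩ := ex_dt H.pos ha hz
  rw [th_spec H hM ha hz hO h]
  exact hS.smul _ (hM.mem i _ h.1 hO) _ (div_ne_zero (pow_ne_zero 2 (h.ne H.pos).2) (h.ne H.pos).1)

theorem th_inj (H : Hyp V P e pt d) (hM : MF F Mc O θ) {a a' : BF d N} {z z' : Cm 2}
    (ha : F.M a) (hz : z ≠ 0) (ha' : F.M a') (hz' : z' ≠ 0) (hO : F.e (F.pu a z) ∈ O)
    (he : F.e (F.pu a' z') = F.e (F.pu a z)) (h : th θ a' z' = th θ a z) :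
    F.pu a' z' = F.pu a z := by
  obtain ⟨i, g, c, h1⟩ := ex_dt H.pos ha hz
  obtain ⟨i', g', c', h2⟩ := ex_dt H.pos ha' hz'
  rw [th_spec H hM ha hz hO h1, th_spec H hM ha' hz' (he ▸ hO) h2, ← eq_inv_smul_iff₀
    (div_ne_zero (pow_ne_zero 2 (h2.ne H.pos).2) (h2.ne H.pos).1), smul_smul] at h
  exact hM.inj i i' _ h1.1 _ h2.1 hO he _ h

theorem sym_spec (i : Ix F × Fin 2) {w : Cm (k + 1)} (hw : w ∈ (cu F i.1 i.2).target) :
    F.M (sl F i.1 (p1 k 1 w)) ∧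
      F.pu (sl F i.1 (p1 k 1 w)) (zz i.2 (p2 k 1 w 0)) = (cu F i.1 i.2).symm w ∧
      ra F i.1 (F.p ((cu F i.1 i.2).symm w)) = sl F i.1 (p1 k 1 w) ∧
      rz F i.1 i.2 ((cu F i.1 i.2).symm w) = zz i.2 (p2 k 1 w 0) := by
  obtain ⟨-, -, -, h1, h2⟩ := Gl.spec F i.1
  obtain ⟨-, h3, h4⟩ := h2 i.2
  refine ⟨h1 _ (by rwa [h3] at hw), (h4 w hw).symm, ?_, ?_⟩
  · rw [ra, (Gl.cu_src F _ _ ((cu F i.1 i.2).map_target hw)).2.1, (cu F i.1 i.2).right_inv hw]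
  · rw [rz, (cu F i.1 i.2).right_inv hw]

theorem an_th (hM : MF F Mc O θ) (i : Ix F × Fin 2) {u : F.U.X} (hu : u ∈ (cu F i.1 i.2).source)
    (hO : F.e u ∈ O) : AnalyticAt ℂ (fun w => θ i ((cu F i.1 i.2).symm w)) (cu F i.1 i.2 u) ∧
      ∀ᶠ w in 𝓝 (cu F i.1 i.2 u), w ∈ (cu F i.1 i.2).target ∧ F.e ((cu F i.1 i.2).symm w) ∈ O :=
  ⟨analyticAt_pi_iff.2 fun j => hM.hol i u hu hO j _ (Gl.at_cu F _ _ hu),
    ((cu F i.1 i.2).open_target.eventually_mem ((cu F i.1 i.2).map_source hu)).and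
      (at_ev (Gl.at_cu F _ _ hu) (F.e_hol.cont.continuousAt.eventually (hM.opn.mem_nhds hO)))⟩

theorem an_det {E : Type} [NormedAddCommGroup E] [NormedSpace ℂ E] {g : E → M2} {x : E}
    (h : ContDiffAt ℂ ω g x) : ContDiffAt ℂ ω (fun y => (g y).det) x := by
  have h1 : ∀ i j, ContDiffAt ℂ ω (fun y => g y i j) x := fun i j =>
    (an_ent i j).contDiffAt.comp x h
  simp only [Matrix.det_fin_two]
  exact ((h1 0 0).mul (h1 1 1)).sub ((h1 0 1).mul (h1 1 0))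

theorem th_an (H : Hyp V P e pt d) (hM : MF F Mc O θ) {a : BF d N} {z : Cm 2} (ha : F.M a)
    (hz : z ≠ 0) (hO : F.e (F.pu a z) ∈ O) : ∃ T : BF d N × Cm 2 → Cm ν,
      ContDiffAt ℂ ω T (a, z) ∧ ∀ᶠ q in 𝓝 (a, z), F.M q.1 → th θ q.1 q.2 = T q := by
  obtain ⟨i, g, c, h⟩ := ex_dt H.pos ha hz
  obtain ⟨hg, hc⟩ := h.ne H.pos
  obtain ⟨s1, s2, -⟩ := Gl.cu_src F _ _ h.1
  obtain ⟨τ, γ, t1, t2, t3, t4, t5⟩ := key0 (Gl.spec F i.1).1 ((ck F i.1).map_source s1) hg h.2.1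
  obtain ⟨b1, b2⟩ := an_th hM i h.1 hO
  let Y : BF d N × Cm 2 → Cm 2 := fun y => γ y.1 *ᵥ (g⁻¹ *ᵥ y.2)
  have g1 : ContDiffAt ℂ ω (fun y : BF d N × Cm 2 => γ y.1) (a, z) :=
    t2.contDiffAt.comp (a, z) contDiffAt_fst
  have y1 : ContDiffAt ℂ ω Y (a, z) := an_mv' g1 (an_mv' contDiffAt_const contDiffAt_snd)
  have y2 : Y (a, z) = c⁻¹ • rz F i.1 i.2 (F.pu a z) := by
    simp only [Y, t4, Matrix.one_mulVec]
    rw [eq_inv_smul_iff₀ hc, ← Matrix.mulVec_smul, ← h.2.2, inv_mv hg]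
  have y3 : Y (a, z) i.2 ≠ 0 := by
    rw [y2, Pi.smul_apply, Gl.rz_self, smul_eq_mul, mul_one]
    exact inv_ne_zero hc
  let W : BF d N × Cm 2 → Cm (k + 1) := fun y => ap (τ y.1) fun _ => Y y i.2.rev / Y y i.2
  have w1 : ContDiffAt ℂ ω W (a, z) := ContDiffAt.comp
    (f := fun y : BF d N × Cm 2 => (τ y.1, fun _ : Fin 1 => Y y i.2.rev / Y y i.2)) (a, z)
    Pu.PuF.cd_ap.contDiffAt ((t1.contDiffAt.comp (a, z) contDiffAt_fst).prodMk
      (contDiffAt_pi.2 fun _ => (contDiffAt_pi.1 y1 _).div (contDiffAt_pi.1 y1 _) y3))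
  have w2 : W (a, z) = cu F i.1 i.2 (F.pu a z) := by
    refine Eq.trans ?_ (Gl.cu_eq F _ _ h.1).symm
    simp only [W]
    rw [t3, y2]
    exact congrArg _ (funext fun l => by
      rw [Subsingleton.elim l 0]
      simp only [rz, Pi.smul_apply, Gl.zz_self, zz_rev, smul_eq_mul, mul_one]
      exact mul_div_cancel_left₀ _ (inv_ne_zero hc))
  rw [← w2] at b1 b2
  have d1 : (γ a).det ≠ 0 := by rw [t4, Matrix.det_one]; exact one_ne_zero
  refine ⟨fun y => (((Y y i.2)⁻¹) ^ 2 / (g.det * ((γ y.1).det)⁻¹)) • θ i ((cu F i.1 i.2).symm (W y)),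
    ((((contDiffAt_pi.1 y1 _).inv y3).pow 2).div (contDiffAt_const.mul ((an_det g1).inv d1))
      (mul_ne_zero hg (inv_ne_zero d1))).smul (ContDiffAt.comp (f := W) (a, z) b1.contDiffAt w1), ?_⟩
  filter_upwards [(continuous_fst.tendsto (a, z)).eventually t5,
    (contDiffAt_pi.1 y1 i.2).continuousAt.eventually_ne y3, w1.continuousAt.eventually b2,
    (an_det g1).continuousAt.eventually_ne d1, continuous_snd.continuousAt.eventually_ne hz]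
    with y h1 h2 h3 h4 h5 hy
  obtain ⟨k1, k2, k3, k4⟩ := sym_spec i h3.1
  simp only [W, Gl.p1_ap, Gl.p2_ap] at k1 k2 k3 k4
  have k5 : sl F i.1 (τ y.1) = act y.1 (g * (γ y.1)⁻¹) := by
    rw [← act_act, h1 (F.cd _ hy).1, Gl.act_inv _ h4]
  have k6 : (g * (γ y.1)⁻¹) *ᵥ zz i.2 (Y y i.2.rev / Y y i.2) = (Y y i.2)⁻¹ • y.2 := by
    rw [eq_inv_smul_iff₀ h2, ← Matrix.mulVec_smul, ← zz_div h2, ← Matrix.mulVec_mulVec,
      inv_mv h4, mv_inv hg]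
  have k7 : F.pu y.1 y.2 = (cu F i.1 i.2).symm (W y) :=
    ((F.pu_eq _ _ _ _ hy k1 h5 (Gl.zz_ne _ _)).2 ⟨_, _, k5, k6⟩).trans k2
  rw [th_spec H hM hy h5 (k7 ▸ h3.2) (i := i) ⟨k7 ▸ (cu F i.1 i.2).map_target h3.1,
    by rw [k7]; exact k3.trans k5, by rw [k7]; exact (congrArg _ k4).trans k6⟩, k7, Matrix.det_mul,
    Matrix.det_nonsing_inv, Ring.inverse_eq_inv]

theorem rho0 (hS : Mc.Sm) {v : Cm ν} (hv : v ∈ Mc.C) : Mc.ρ v v = 0 := by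
  have h := (hS.ρκ v hv).self_of_nhds.2
  rwa [(hS.anκ v hv).2] at h

theorem inv_loc (H : Hyp V P e pt d) (hS : Mc.Sm) (hM : MF F Mc O θ) (hp : k + 1 = n + p)
    {χ : Chart n V.X} {x : V.X} (hχ : At χ x) (hx : x ∈ O) {v : Cm ν} (hv : v ∈ Mc.C) :
    ∃ (a : Cm n × Cm ν → BF d N) (z : Cm n × Cm ν → Cm 2) (μ : Cm n × Cm ν → ℂ),
      ContDiffAt ℂ ω a (χ x, v) ∧ ContDiffAt ℂ ω z (χ x, v) ∧ ContDiffAt ℂ ω μ (χ x, v) ∧
      ∀ᶠ q in 𝓝 (χ x, v), Ov F (χ.symm q.1) (a q) (z q) ∧ μ q ≠ 0 ∧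
        (q.2 ∈ Mc.C → q.2 = μ q • th θ (a q) (z q)) := by
  obtain ⟨i, u, hu, rfl, c, rfl⟩ := hM.onto x hx v hv
  have hc : c ≠ 0 := fun h => hS.nz _ hv (by rw [h, zero_smul])
  have hA := Gl.at_cu F i.1 i.2 hu
  obtain ⟨b1, b2⟩ := an_th hM i hu hx
  set C := cu F i.1 i.2
  set v := c • θ i u with ev0
  let h : Cm (k + 1) × ℂ → Cm ν := fun y => y.2 • θ i (C.symm y.1)
  have h1 : ContDiffAt ℂ ω h (C u, c) :=
    contDiffAt_snd.smul (ContDiffAt.comp (f := Prod.fst) (C u, c) b1.contDiffAt contDiffAt_fst)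
  have h2 : h (C u, c) = v := by simp only [h, hA.left_inv, ev0]
  have h3 : ∀ᶠ y in 𝓝 (C u, c), (y.1 ∈ C.target ∧ F.e (C.symm y.1) ∈ O) ∧ y.2 ≠ 0 ∧
      F.e (C.symm y.1) ∈ χ.source ∧ Mc.κ v (Mc.ρ v (h y)) = h y := by
    filter_upwards [(continuous_fst.tendsto (C u, c)).eventually b2,
      continuous_snd.continuousAt.eventually_ne hc, (continuous_fst.tendsto (C u, c)).eventually
        (at_ev hA (F.e_hol.cont.continuousAt.eventually (χ.open_source.mem_nhds hχ.2))),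
      (h2 ▸ h1.continuousAt.tendsto).eventually (hS.κρ v hv)] with y k1 k2 k3 k4
    exact ⟨k1, k2, k3, k4 (hS.smul _ (hM.mem i _ (C.map_target k1.1) k1.2) _ k2)⟩
  have e1 := (F.e_hol.at u).an hA hχ
  have r1 : ContDiffAt ℂ ω (fun y => Mc.ρ v (h y)) (C u, c) :=
    ContDiffAt.comp (f := h) (C u, c) (h2.symm ▸ (hS.anρ v hv).contDiffAt) h1
  have e2 : ContDiffAt ℂ ω (fun y : Cm (k + 1) × ℂ => χ (F.e (C.symm y.1))) (C u, c) :=
    ContDiffAt.comp (f := Prod.fst) (C u, c) e1.contDiffAt contDiffAt_fst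
  obtain ⟨G, g1, g2, -, g4⟩ := Slc.ift (e2.prodMk r1) (y := (χ (F.e u), 0)) (fun y hy => by
      rw [(e2.differentiableAt (by simp)).fderiv_prodMk (r1.differentiableAt (by simp))] at hy
      obtain ⟨y1, y2⟩ := Prod.ext_iff.1 hy
      have k1 := (HasFDerivAt.comp (f := Prod.fst) (C u, c) e1.differentiableAt.hasFDerivAt
        hasFDerivAt_fst).fderiv
      have k2 : df F.e C χ u y.1 = 0 := (congrArg (· y) k1).symm.trans y1
      have k3 := EventuallyEq.fderiv_eq (𝕜 := ℂ) (f₁ := Mc.κ v ∘ fun y => Mc.ρ v (h y)) (f := h)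
        (h3.mono fun _ k => k.2.2.2)
      rw [fderiv_comp _ (by rw [h2, rho0 hS hv]; exact (hS.anκ v hv).1.differentiableAt)
        (r1.differentiableAt (by simp))] at k3
      have k4 := congrArg (· y) k3
      have k5 := congrArg (· y) (hasFDerivAt_snd.smul (HasFDerivAt.comp (f := Prod.fst) (C u, c)
        b1.differentiableAt.hasFDerivAt hasFDerivAt_fst)).fderiv
      have k6 : c • fderiv ℂ (fun w => θ i (C.symm w)) (C u) y.1 + y.2 • θ i (C.symm (C u)) = 0 :=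
        k5.symm.trans (k4.symm.trans ((congrArg (fderiv ℂ (Mc.κ v) _) y2).trans (map_zero _)))
      rw [hA.left_inv] at k6
      have k7 : y.1 = 0 := hM.imm i u hu hx C χ hA hχ y.1 (-(y.2 / c)) k2 fun j => by
        have k8 := congrFun k6 j
        have k9 := congrArg (· y.1) (hasFDerivAt_pi'.1 b1.differentiableAt.hasFDerivAt j).fderiv
        simp only [Pi.add_apply, Pi.smul_apply, smul_eq_mul, Pi.zero_apply] at k8
        refine k9.trans (mul_left_cancel₀ hc ((eq_neg_of_add_eq_zero_left k8).trans ?_))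
        field_simp
      rw [k7, map_zero, smul_zero, zero_add, smul_eq_zero] at k6
      exact Prod.ext k7 (k6.resolve_right (hS.nz _ (hM.mem i u hu hx))))
    (by simp only [Module.finrank_prod, Module.finrank_fin_fun, Module.finrank_self]; omega)
    (Prod.ext (congrArg (fun y => χ (F.e y)) hA.left_inv) ((congrArg _ h2).trans (rho0 hS hv)))
  let G' : Cm n × Cm ν → Cm (k + 1) × ℂ := fun q => G (q.1, Mc.ρ v q.2)
  have r2 : ContDiffAt ℂ ω (fun q : Cm n × Cm ν => (q.1, Mc.ρ v q.2)) (χ (F.e u), v) :=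
    contDiffAt_fst.prodMk (ContDiffAt.comp (f := Prod.snd) _ (hS.anρ v hv).contDiffAt contDiffAt_snd)
  have r3 : ((χ (F.e u), Mc.ρ v v) : Cm n × Cm (p + 1)) = (χ (F.e u), 0) := by rw [rho0 hS hv]
  have g5 : ContDiffAt ℂ ω G' (χ (F.e u), v) := ContDiffAt.comp
    (f := fun q : Cm n × Cm ν => (q.1, Mc.ρ v q.2)) _ (r3.symm ▸ g1) r2
  have g6 : G' (χ (F.e u), v) = (C u, c) := (congrArg G r3).trans g2
  have a1 : ContDiff ℂ ω (p1 k 1) := (EsbH.L1 k).contDiff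
  have a2 : ContDiff ℂ ω fun u : Cm (k + 1) => zz i.2 (p2 k 1 u 0) := by
    rw [EsbH.zz_eq]
    exact contDiff_const.add (EsbH.L2 k i.2).contDiff
  refine ⟨fun q => sl F i.1 (p1 k 1 (G' q).1), fun q => zz i.2 (p2 k 1 (G' q).1 0), fun q => (G' q).2,
    ContDiffAt.comp (f := fun q => p1 k 1 (G' q).1) _ ?_ (a1.contDiffAt.comp _ g5.fst),
    a2.contDiffAt.comp _ g5.fst, g5.snd, ?_⟩
  · rw [g6, ← (Gl.cu_src F _ _ hu).2.1]
    exact ((Gl.spec F i.1).1.an _ ((ck F i.1).map_source (Gl.cu_src F _ _ hu).1)).contDiffAt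
  · filter_upwards [(g6 ▸ g5.continuousAt.tendsto).eventually h3,
      (r3 ▸ r2.continuousAt.tendsto).eventually g4,
      (continuous_snd.tendsto (χ (F.e u), v)).eventually (hS.κρ v hv)] with q k1 k2 k3
    obtain ⟨m1, m2, m3, m4⟩ := sym_spec i k1.1.1
    obtain ⟨k4, k5⟩ := Prod.ext_iff.1 k2
    refine ⟨⟨m1, Gl.zz_ne _ _, ?_⟩, k1.2.1, fun hq => ?_⟩
    · rw [← F.e_pu _ _ m1 (Gl.zz_ne _ _), m2]
      exact (χ.left_inv k1.2.2.1).symm.trans (congrArg χ.symm k4)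
    · rw [th_spec H hM m1 (Gl.zz_ne _ _) (m2.symm ▸ k1.1.2) (i := i) (g := 1) (c := 1)
        ⟨m2.symm ▸ C.map_target k1.1.1, by rw [m2, m3, act_one],
          by rw [m2, m4, Matrix.one_mulVec, one_smul]⟩, m2, Matrix.det_one, one_pow, div_one, one_smul]
      exact (k3 hq).symm.trans ((congrArg (Mc.κ v) k5.symm).trans k1.2.2.2)

end Vale.Agent.P280Z.Tr.Nf
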