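import Vale.Agent.P280Z.Tr.Sk
import Vale.Agent.P280Z.Mp.Bf

/-!
# P280Z, block Tr: normal forms of pointed parametrised curves
-/

open scoped Manifold ContDiff Topology Matrix Matrix.Norms.Elementwise
open Set Filter
open Vale.Agent.P272.K Vale.Agent.P281Z Vale.Agent.P280Z.Mp

noncomputable section

namespace Vale.Agent.P280Z.Tr

namespace N1

variable {n N r e d D k ν p : ℕ}

theorem dif (a : BF d N) (z : Cm 2) : DifferentiableAt ℂ (ev a) z :=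
  (an_ev2 a).differentiable (by simp) z

/-- the normalising functional -/
def ph (ℓ : Cm N →ₗ[ℂ] ℂ) (d : ℕ) : BF d N →ₗ[ℂ] ℂ where
  toFun a := ℓ (fderiv ℂ (ev a) e0 ![0, 1])
  map_add' a b := by
    rw [show ev (a + b) = fun z => ev a z + ev b z from funext (ev_add a b),
      fderiv_fun_add (dif a _) (dif b _), add_apply, map_add]
  map_smul' c a := by
    rw [show ev (c • a) = fun z => c • ev a z from funext (ev_smul c a),
      fderiv_fun_const_smul (dif a _), smul_apply, map_smul, RingHom.id_apply]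

theorem e0_ne : e0 ≠ 0 := fun h => one_ne_zero (congrFun h 0)

theorem fd_act' (a : BF d N) (g : M2) (z w : Cm 2) :
    fderiv ℂ (ev (act a g)) z w = fderiv ℂ (ev a) (g *ᵥ z) (g *ᵥ w) := by
  have h := (dif a (g *ᵥ z)).hasFDerivAt.comp z
    (LinearMap.toContinuousLinearMap (Matrix.mulVecLin g)).hasFDerivAt
  rw [show ev (act a g) = ev a ∘ Matrix.mulVec g from funext (ev_act a g), h.fderiv]
  rfl

theorem ph_act (ℓ : Cm N →ₗ[ℂ] ℂ) (a : BF d N) {u : M2} (hu : u *ᵥ e0 = e0) :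
    ph ℓ d (act a u) = u 0 1 * (d * ℓ (ev a e0)) + u 1 1 * ph ℓ d a := by
  have h : u *ᵥ ![0, 1] = u 0 1 • e0 + u 1 1 • ![0, 1] := by
    funext i
    fin_cases i <;> simp [e0, Matrix.mulVec, dotProduct, Fin.sum_univ_two]
  change ℓ (fderiv ℂ (ev (act a u)) e0 ![0, 1]) = _ + _ * ℓ (fderiv ℂ (ev a) e0 ![0, 1])
  rw [fd_act', hu, h, map_add, map_smul, map_smul, euler, map_add, map_smul, map_smul, map_smul]
  rfl

theorem ph_inf (ℓ : Cm N →ₗ[ℂ] ℂ) (a : BF d N) : ph ℓ d (inf a E01) = d * ℓ (ev a e0) := by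
  have h : ev (inf a E01) = fun z => z 1 • fderiv ℂ (ev a) z e0 := funext fun z => by
    rw [ev_inf, ← map_smul]
    congr 1
    funext i
    fin_cases i <;> simp [e0, E01, Matrix.mulVec, dotProduct, Fin.sum_univ_two]
  have h1 : DifferentiableAt ℂ (fun z => fderiv ℂ (ev a) z e0) e0 :=
    (((an_ev2 a).contDiffAt.fderiv_right (m := 1) le_top).clm_apply
      contDiffAt_const).differentiableAt (by simp)
  change ℓ (fderiv ℂ (ev (inf a E01)) e0 ![0, 1]) = _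
  rw [h, fderiv_fun_smul (differentiableAt_apply 1 e0) h1, (hasFDerivAt_apply 1 e0).fderiv, euler]
  simp [e0]

/-- the unipotent matrices -/
def un (b : ℂ) : M2 := !![1, b; 0, 1]

theorem un_e0 (b : ℂ) : un b *ᵥ e0 = e0 := by
  funext i
  fin_cases i <;> simp [e0, un, Matrix.mulVec, dotProduct, Fin.sum_univ_two]

theorem un_det (b : ℂ) : (un b).det = 1 := by simp [un]

theorem dg_e0 (c : ℂ) : dg c *ᵥ e0 = e0 := by
  funext i
  fin_cases i <;> simp [e0, dg, Matrix.mulVec, dotProduct, Fin.sum_univ_two]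

theorem dg_det (c : ℂ) : (dg c).det = c := by simp [dg]

section an

variable {T : Type} [NormedAddCommGroup T] [NormedSpace ℂ T] {τ : T}

theorem root (hd : 0 < d) {μ : T → ℂ} (hμ : AnalyticAt ℂ μ τ) (h0 : μ τ ≠ 0) :
    ∃ c : T → ℂ, AnalyticAt ℂ c τ ∧ ∀ᶠ s in 𝓝 τ, c s ^ d * μ s = 1 := by
  obtain ⟨c₀, hc⟩ := IsAlgClosed.exists_pow_nat_eq (μ τ)⁻¹ hd
  have hd' : (d : ℂ) ≠ 0 := Nat.cast_ne_zero.2 hd.ne'
  refine ⟨fun s => c₀ * Complex.exp (-Complex.log (μ s / μ τ) / d), analyticAt_const.mul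
    (((hμ.fun_div analyticAt_const h0).clog ?_).neg.fun_div analyticAt_const hd').cexp, ?_⟩
  · rw [div_self h0]
    exact Complex.one_mem_slitPlane
  · filter_upwards [hμ.continuousAt.eventually_ne h0] with s hs
    rw [mul_pow, hc, ← Complex.exp_nat_mul, mul_div_cancel₀ _ hd', Complex.exp_neg,
      Complex.exp_log (div_ne_zero hs h0)]
    field_simp

theorem frame {z : T → Cm 2} (hz : AnalyticAt ℂ z τ) (h0 : z τ ≠ 0) :
    ∃ g : T → M2, ContDiffAt ℂ ω g τ ∧ ∀ᶠ s in 𝓝 τ, g s *ᵥ e0 = z s ∧ (g s).det = 1 := by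
  obtain ⟨w, hw⟩ : ∃ w : Cm 2, z τ 0 * w 1 - w 0 * z τ 1 ≠ 0 := by
    by_cases h1 : z τ 1 = 0
    · have h2 : z τ 0 ≠ 0 := fun e => h0 (funext fun k => by fin_cases k <;> assumption)
      exact ⟨![0, 1], by simp [h2]⟩
    · exact ⟨![1, 0], by simp [h1]⟩
  have h1 : ∀ i, ContDiffAt ℂ ω (fun s => z s i) τ := contDiffAt_pi.1 hz.contDiffAt
  have h2 : ContDiffAt ℂ ω (fun s => z s 0 * w 1 - w 0 * z s 1) τ :=
    ((h1 0).mul contDiffAt_const).sub (contDiffAt_const.mul (h1 1))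
  refine ⟨fun s => !![z s 0, w 0 / (z s 0 * w 1 - w 0 * z s 1);
    z s 1, w 1 / (z s 0 * w 1 - w 0 * z s 1)], an_mat fun i j => ?_, ?_⟩
  · fin_cases i <;> fin_cases j
    · exact h1 0
    · exact contDiffAt_const.div h2 hw
    · exact h1 1
    · exact contDiffAt_const.div h2 hw
  · filter_upwards [h2.continuousAt.eventually_ne hw] with s hs
    refine ⟨funext fun i => ?_, ?_⟩
    · fin_cases i <;> simp [e0, Matrix.mulVec, dotProduct, Fin.sum_univ_two]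
    · rw [Matrix.det_fin_two_of]
      field_simp

theorem an_mul {g h : T → M2} (hg : ContDiffAt ℂ ω g τ) (hh : ContDiffAt ℂ ω h τ) :
    ContDiffAt ℂ ω (fun s => g s * h s) τ :=
  an_mat fun i j => by
    simp only [Matrix.mul_apply]
    exact ContDiffAt.sum fun l _ => ((an_ent i l).contDiffAt.comp τ hg).mul
      ((an_ent l j).contDiffAt.comp τ hh)

theorem an_un {b : T → ℂ} (hb : ContDiffAt ℂ ω b τ) : ContDiffAt ℂ ω (fun s => un (b s)) τ :=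
  an_mat fun i j => by
    fin_cases i <;> fin_cases j
    · exact contDiffAt_const
    · exact hb
    · exact contDiffAt_const
    · exact contDiffAt_const

end an

variable {V : Mf n} {P : Eqs r N} {pt : Cm N → V.X} {F : Fam V P pt d D k} {Mc : Mo ν p}
  {O : Set V.X} {θ : BF d N → Cm 2 → Cm ν} {χ : Chart n V.X} {B : Set (Cm n)}
  {lam : Cm n → Cm N} {ℓ : Cm N →ₗ[ℂ] ℂ}

/-- normal curves -/
def Nm (F : Fam V P pt d D k) (θ : BF d N → Cm 2 → Cm ν) (lam : Cm n → Cm N) (ℓ : Cm N →ₗ[ℂ] ℂ)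
    (ξ : Cm n) (v : Cm ν) (a : BF d N) : Prop :=
  F.M a ∧ ev a e0 = lam ξ ∧ θ a e0 = v ∧ ph ℓ d a = 0

/-- the hypotheses -/
structure Hp (F : Fam V P pt d D k) (Mc : Mo ν p) (O : Set V.X) (θ : BF d N → Cm 2 → Cm ν)
    (χ : Chart n V.X) (B : Set (Cm n)) (lam : Cm n → Cm N) (ℓ : Cm N →ₗ[ℂ] ℂ) : Prop where
  pos : 0 < d
  inj : ∀ x y, In P x → In P y → pt x = pt y → ∃ c : ℂ, y = c • x
  nz : ∀ v ∈ Mc.C, v ≠ 0
  th : TH F Mc O θ
  lm : Lm P pt χ B lam ℓ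
  sub : ∀ ξ ∈ B, χ.symm ξ ∈ O

variable (H : Hp F Mc O θ χ B lam ℓ)

include H

theorem Hp.ov {ξ : Cm n} (hξ : ξ ∈ B) {a : BF d N} (h1 : F.M a) (h2 : ev a e0 = lam ξ) :
    Ov F (χ.symm ξ) a e0 := ⟨h1, e0_ne, by rw [h2, (H.lm.mem ξ hξ).2]⟩

theorem Hp.dl {ξ : Cm n} (hξ : ξ ∈ B) : (d : ℂ) * ℓ (lam ξ) ≠ 0 :=
  mul_ne_zero (Nat.cast_ne_zero.2 H.pos.ne') (H.lm.ne ξ hξ)

theorem Hp.uniq {ξ : Cm n} (hξ : ξ ∈ B) {v : Cm ν} {a a' : BF d N} (h : Nm F θ lam ℓ ξ v a)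
    (h' : Nm F θ lam ℓ ξ v a') : a' = a := by
  have o := H.ov hξ h.1 h.2.1
  obtain ⟨g, c, h1, rfl, h2⟩ := H.th.inj _ (H.sub ξ hξ) a e0 a' e0 o (H.ov hξ h'.1 h'.2.1)
    (h'.2.2.1.trans h.2.2.1.symm)
  have h3 : c ^ d = 1 := by
    have h4 := h'.2.1
    rw [ev_act, h2, ev_arg, h.2.1] at h4
    exact smul_left_injective ℂ (H.lm.mem ξ hξ).1.1 (h4.trans (one_smul _ _).symm)
  have h4 : c ≠ 0 := fun e => by
    rw [e, zero_pow H.pos.ne'] at h3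
    exact zero_ne_one h3
  have h5 : g.det / c ^ 2 = 1 := by
    have h6 := H.th.eq _ (H.sub ξ hξ) a e0 e0 g c o e0_ne h1 h2
    rw [h'.2.2.1, ← h.2.2.1] at h6
    exact smul_left_injective ℂ (H.nz _ (H.th.mem _ (H.sub ξ hξ) a e0 o))
      (h6.symm.trans (one_smul _ _).symm)
  have h6 : (c⁻¹ • g) *ᵥ e0 = e0 := by rw [Matrix.smul_mulVec, h2, inv_smul_smul₀ h4]
  have h7 : act a g = act a (c⁻¹ • g) := by rw [act_smul, inv_pow, h3, inv_one, one_smul]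
  have h8 : (c⁻¹ • g).det = 1 := by
    rw [Matrix.det_smul, Fintype.card_fin, inv_pow, ← h5, div_eq_inv_mul]
  have h9 := h'.2.2.2
  rw [h7] at h9 ⊢
  generalize c⁻¹ • g = u at h6 h8 h9
  rw [ph_act ℓ a h6, h.2.2.2, mul_zero, add_zero, h.2.1] at h9
  have k1 : u 0 1 = 0 := (mul_eq_zero.1 h9).resolve_right (H.dl hξ)
  have k2 : u 0 0 = 1 := by
    simpa [e0, Matrix.mulVec, dotProduct, Fin.sum_univ_two] using congrFun h6 0
  have k3 : u 1 0 = 0 := by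
    simpa [e0, Matrix.mulVec, dotProduct, Fin.sum_univ_two] using congrFun h6 1
  have k4 : u 1 1 = 1 := by simpa [Matrix.det_fin_two, k1, k2] using h8
  have k5 : u = 1 := by
    ext i j
    fin_cases i <;> fin_cases j <;> simp [k1, k2, k3, k4]
  rw [k5, act_one]

theorem Hp.step {ξ : Cm n} (hξ : ξ ∈ B) {a : BF d N} {z : Cm 2} (o : Ov F (χ.symm ξ) a z)
    {c μ : ℂ} (h1 : ev a z = μ • lam ξ) (h2 : c ^ d * μ = 1) {g : M2} (h3 : g *ᵥ e0 = z)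
    (h4 : g.det = 1) {b : ℂ} (hb : b = -ph ℓ d (act a (c • g)) / (d * ℓ (lam ξ))) :
    (c • g * un b).det ≠ 0 ∧ (c • g * un b) *ᵥ e0 = c • z ∧
      Nm F θ lam ℓ ξ (θ a z) (act a (c • g * un b)) := by
  have hc : c ≠ 0 := fun e => by
    rw [e, zero_pow H.pos.ne', zero_mul] at h2
    exact zero_ne_one h2
  have k1 : (c • g * un b).det = c ^ 2 := by
    rw [Matrix.det_mul, un_det, Matrix.det_smul, h4, Fintype.card_fin, mul_one, mul_one]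
  have k2 : (c • g) *ᵥ e0 = c • z := by rw [Matrix.smul_mulVec, h3]
  have k3 : (c • g * un b) *ᵥ e0 = c • z := by rw [← Matrix.mulVec_mulVec, un_e0, k2]
  have k4 : (c • g * un b).det ≠ 0 := k1 ▸ pow_ne_zero 2 hc
  have k5 : ev a (c • z) = lam ξ := by rw [ev_arg, h1, smul_smul, h2, one_smul]
  refine ⟨k4, k3, F.inv _ _ o.1 k4, by rw [ev_act, k3, k5], ?_, ?_⟩
  · rw [H.th.eq _ (H.sub ξ hξ) a z e0 _ c o e0_ne k4 k3, k1, div_self (pow_ne_zero 2 hc), one_smul]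
  · rw [← act_act, ph_act ℓ _ (un_e0 b), ev_act, k2, k5]
    change b * _ + 1 * _ = 0
    rw [hb, div_mul_cancel₀ _ (H.dl hξ), one_mul, neg_add_cancel]

/-- the normaliser of a family -/
theorem Hp.key {T : Type} [NormedAddCommGroup T] [NormedSpace ℂ T] {τ : T} {ξ : T → Cm n}
    {a : T → BF d N} {z : T → Cm 2} (ha : AnalyticAt ℂ a τ) (hz : AnalyticAt ℂ z τ)
    (h : ∀ᶠ s in 𝓝 τ, ξ s ∈ B ∧ Ov F (χ.symm (ξ s)) (a s) (z s)) :
    AnalyticAt ℂ ξ τ ∧ ∃ g : T → M2, AnalyticAt ℂ g τ ∧ ∀ᶠ s in 𝓝 τ, (g s).det ≠ 0 ∧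
      (∃ c : ℂ, g s *ᵥ e0 = c • z s) ∧
        Nm F θ lam ℓ (ξ s) (θ (a s) (z s)) (act (a s) (g s)) := by
  have hy : ContDiffAt ℂ ω (fun s => ev (a s) (z s)) τ := an_ev' ha.contDiffAt hz.contDiffAt
  have hI : ∀ {x b y}, Ov F x b y → In P (ev b y) := fun o => (F.cd _ o.1).1 _ o.2.1
  obtain ⟨h0, o0⟩ := h.self_of_nhds
  obtain ⟨ρ, r1, r2, r3⟩ := H.lm.crd _ h0 _ (hI o0) o0.2.2
  have r4 : AnalyticAt ℂ (fun s => ρ (ev (a s) (z s))) τ :=
    AnalyticAt.comp (f := fun s => ev (a s) (z s)) r1 hy.analyticAt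
  have hξ : AnalyticAt ℂ ξ τ := by
    refine r4.congr ?_
    filter_upwards [h, hy.continuousAt.eventually r3,
      r4.continuousAt.eventually (H.lm.opn.mem_nhds (mem_of_eq_of_mem r2 h0))] with s k1 k2 k3
    exact χ.symm.injOn (H.lm.sub k3) (H.lm.sub k1.1) ((k2 (hI k1.2)).symm.trans k1.2.2.2)
  have hl : AnalyticAt ℂ (fun s => ℓ (lam (ξ s))) τ :=
    ((LinearMap.toContinuousLinearMap ℓ).analyticAt _).comp ((H.lm.an _ h0).comp hξ)
  have hμ : AnalyticAt ℂ (fun s => ℓ (ev (a s) (z s)) / ℓ (lam (ξ s))) τ :=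
    (((LinearMap.toContinuousLinearMap ℓ).analyticAt _).comp hy.analyticAt).fun_div hl
      (H.lm.ne _ h0)
  have e1 : ∀ᶠ s in 𝓝 τ, ev (a s) (z s) = (ℓ (ev (a s) (z s)) / ℓ (lam (ξ s))) • lam (ξ s) := by
    filter_upwards [h] with s k1
    obtain ⟨c, hc⟩ := H.inj _ _ (H.lm.mem _ k1.1).1 (hI k1.2)
      ((H.lm.mem _ k1.1).2.trans k1.2.2.2.symm)
    rw [hc, map_smul, smul_eq_mul, mul_div_cancel_right₀ _ (H.lm.ne _ k1.1)]
  obtain ⟨c, c1, c2⟩ := root H.pos hμ fun e => (hI o0).1 (by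
    rw [e1.self_of_nhds, e, zero_smul])
  obtain ⟨g, g1, g2⟩ := frame hz o0.2.1
  have g3 : ContDiffAt ℂ ω (fun s => c s • g s) τ := c1.contDiffAt.smul g1
  have hb : AnalyticAt ℂ (fun s => -ph ℓ d (act (a s) (c s • g s)) / (d * ℓ (lam (ξ s)))) τ :=
    (((LinearMap.toContinuousLinearMap (ph ℓ d)).analyticAt _).comp
      (an_act' ha.contDiffAt g3).analyticAt).neg.fun_div (analyticAt_const.mul hl) (H.dl h0)
  refine ⟨hξ, _, (an_mul g3 (an_un hb.contDiffAt)).analyticAt, ?_⟩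
  filter_upwards [h, e1, c2, g2] with s k1 k2 k3 k4
  obtain ⟨q1, q2, q3⟩ := H.step k1.1 k1.2 k2 k3 k4.1 k4.2 rfl
  exact ⟨q1, ⟨_, q2⟩, q3⟩

theorem Hp.eq {ξ : Cm n} (hξ : ξ ∈ B) {v : Cm ν} {a : BF d N} (h : Nm F θ lam ℓ ξ v a) :
    Classical.epsilon (Nm F θ lam ℓ ξ v) = a :=
  H.uniq hξ h (Classical.epsilon_spec ⟨a, h⟩)

theorem Hp.nm {ξ : Cm n} (hξ : ξ ∈ B) {v : Cm ν} (hv : v ∈ Mc.C) :
    Nm F θ lam ℓ ξ v (Classical.epsilon (Nm F θ lam ℓ ξ v)) := by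
  obtain ⟨a, z, o, rfl⟩ := H.th.onto _ (H.sub ξ hξ) v hv
  obtain ⟨-, g, -, h⟩ := H.key (T := ℂ) (τ := 0) (ξ := fun _ => ξ) (a := fun _ => a)
    (z := fun _ => z) analyticAt_const analyticAt_const (Eventually.of_forall fun _ => ⟨hξ, o⟩)
  exact Classical.epsilon_spec ⟨_, h.self_of_nhds.2.2⟩

end N1

open N1 in
theorem nrm1 : NRM1 := by
  intro n N r d D k ν p V P pt F Mc hy O θ χ B lam ℓ th lm sub
  obtain ⟨δ, hyp⟩ := hy.hyp
  have H : Hp F Mc O θ χ B lam ℓ := ⟨hyp.pos, hyp.cone.inj, hy.sm.nz, th, lm, sub⟩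
  refine ⟨fun ξ v => Classical.epsilon (Nm F θ lam ℓ ξ v), ph ℓ d, ⟨lm.atl, lm.opn, lm.sub, lm.an,
    lm.mem, lm.tan, lm.ind, fun l ξ v τ hξ hv h0 hC => ?_, fun ξ hξ v hv => ?_,
    fun ξ hξ v hv c hc => ?_, fun ξ hξ => th.mem _ (sub ξ hξ), fun ξ hξ => th.eq _ (sub ξ hξ),
    fun l ξ a z τ ha hz h => ?_⟩, fun ξ hξ v hv => ⟨(H.nm hξ hv).2.2.2, ?_⟩⟩
  · obtain ⟨a, z, ha, hz, h⟩ := th.sec _ (sub _ h0) _ hC.self_of_nhds χ
      ⟨lm.atl, χ.map_target (lm.sub h0)⟩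
    rw [χ.right_inv (lm.sub h0)] at ha hz h
    have hq : AnalyticAt ℂ (fun s => (ξ s, v s)) τ := hξ.prod hv
    have ha' : AnalyticAt ℂ (fun s => a (ξ s, v s)) τ :=
      AnalyticAt.comp (f := fun s => (ξ s, v s)) ha hq
    have hz' : AnalyticAt ℂ (fun s => z (ξ s, v s)) τ :=
      AnalyticAt.comp (f := fun s => (ξ s, v s)) hz hq
    have h1 : ∀ᶠ s in 𝓝 τ, ξ s ∈ B ∧ Ov F (χ.symm (ξ s)) (a (ξ s, v s)) (z (ξ s, v s)) ∧
        θ (a (ξ s, v s)) (z (ξ s, v s)) = v s := by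
      filter_upwards [hq.continuousAt.eventually h, hC,
        hξ.continuousAt.eventually (lm.opn.mem_nhds h0)] with s k1 k2 k3 using ⟨k3, k1 k2⟩
    obtain ⟨-, g, g1, g2⟩ := H.key ha' hz' (h1.mono fun s k => ⟨k.1, k.2.1⟩)
    refine (an_act' ha'.contDiffAt g1.contDiffAt).analyticAt.congr ?_
    filter_upwards [h1, g2] with s k1 k2
    have k3 := k2.2.2
    rw [k1.2.2] at k3
    exact (H.eq k1.1 k3).symm
  · exact ⟨(H.nm hξ hv).1, (H.nm hξ hv).2.1, (H.nm hξ hv).2.2.1⟩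
  · obtain ⟨h1, h2, h3, h4⟩ := H.nm hξ hv
    have h5 : (dg c).det ≠ 0 := by rwa [dg_det]
    refine H.eq hξ ⟨F.inv _ _ h1 h5, by rw [ev_act, dg_e0, h2], ?_, ?_⟩
    · rw [th.eq _ (sub ξ hξ) _ e0 e0 _ 1 (H.ov hξ h1 h2) e0_ne h5 (by rw [dg_e0, one_smul]), h3,
        dg_det, one_pow, div_one]
    · rw [ph_act ℓ _ (dg_e0 c), h4, mul_zero, add_zero]
      exact zero_mul _
  · obtain ⟨h1, g, g1, g2⟩ := H.key ha hz h
    obtain ⟨h0, o0⟩ := h.self_of_nhds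
    obtain ⟨Θ, t1, t2⟩ := th.amb _ (sub _ h0) _ _ o0
    have hq : AnalyticAt ℂ (fun s => (a s, z s)) τ := ha.prod hz
    refine ⟨h1, (AnalyticAt.comp (f := fun s => (a s, z s)) t1 hq).congr ?_, g, g1, ?_⟩
    · filter_upwards [hq.continuousAt.eventually t2, h] with s k1 k2 using (k1 k2.2.1).symm
    · filter_upwards [h, g2] with s k1 k2 using ⟨k2.1, k2.2.1, (H.eq k1.1 k2.2.2).symm⟩
  · rw [ph_inf, (H.nm hξ hv).2.1]
    exact H.dl hξ

end Vale.Agent.P280Z.Tr
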