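import Vale.Agent.P280Z.Tr.Sk
import Vale.Agent.P280Z.Mp.Bf

/-!
# P280Z, block Tr: the row OMT
-/

open scoped Manifold ContDiff Topology Matrix Matrix.Norms.Elementwise
open Set Filter Function Module
open Vale.Agent.P272.K Vale.Agent.P281Z Vale.Agent.P280Z.Mp

noncomputable section

namespace Vale.Agent.P280Z.Tr

namespace Omt

section alg
variable {K H Z : Type} [AddCommGroup K] [Module ℂ K] [FiniteDimensional ℂ K] [AddCommGroup H]
  [Module ℂ H] [AddCommGroup Z] [Module ℂ Z] [FiniteDimensional ℂ Z] {i : K →ₗ[ℂ] H}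
  {R : H →ₗ[ℂ] Z}

theorem tri (A : K →ₗ[ℂ] K) (κ : Z →ₗ[ℂ] K) (B : Z →ₗ[ℂ] Z) :
    LinearMap.det ((A.coprod κ).prod (B ∘ₗ LinearMap.snd ℂ K Z)) =
      LinearMap.det A * LinearMap.det B := by
  let b := finBasis ℂ K
  let b' := finBasis ℂ Z
  rw [← LinearMap.det_toMatrix (b.prod b'), ← LinearMap.det_toMatrix b, ← LinearMap.det_toMatrix b',
    ← Matrix.det_fromBlocks_zero₂₁ _ (LinearMap.toMatrix b' b κ)]
  refine congrArg _ ?_
  ext (i | i) (j | j) <;> simp [LinearMap.toMatrix_apply]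

theorem an_det {T : Type} [NormedAddCommGroup T] [NormedSpace ℂ T] (L : T → K →ₗ[ℂ] K) (τ : T)
    (h : ∀ (φ : K →ₗ[ℂ] ℂ) v, AnalyticAt ℂ (fun t => φ (L t v)) τ) :
    AnalyticAt ℂ (fun t => LinearMap.det (L t)) τ := by
  simp only [← LinearMap.det_toMatrix (finBasis ℂ K), Matrix.det_apply', LinearMap.toMatrix_apply]
  exact Finset.analyticAt_fun_sum _ fun σ _ => analyticAt_const.mul
    (Finset.analyticAt_fun_prod _ fun i _ => h ((finBasis ℂ K).coord _) _)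

/-- a right inverse -/
def sec (R : H →ₗ[ℂ] Z) : Z →ₗ[ℂ] H := Classical.epsilon fun s => R ∘ₗ s = LinearMap.id

/-- the determinant of the family `(i, s)` -/
def wd (e : H →ₗ[ℂ] K × Z) (i : K →ₗ[ℂ] H) (s : Z →ₗ[ℂ] H) : ℂ :=
  LinearMap.det (e ∘ₗ i.coprod s)

/-- short exact sequences -/
structure Ex (i : K →ₗ[ℂ] H) (R : H →ₗ[ℂ] Z) : Prop where
  inj : Injective i
  surj : Surjective R
  ex : ∀ b, R b = 0 ↔ ∃ k, i k = b

omit [FiniteDimensional ℂ K] in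
theorem Ex.sec (h : Ex i R) : R ∘ₗ sec R = LinearMap.id :=
  Classical.epsilon_spec (R.exists_rightInverse_of_surjective (LinearMap.range_eq_top.2 h.surj))

theorem wd_comp (e : H →ₗ[ℂ] K × Z) {i' : K →ₗ[ℂ] H} {s s' : Z →ₗ[ℂ] H} (A : K →ₗ[ℂ] K)
    (κ : Z →ₗ[ℂ] K) (B : Z →ₗ[ℂ] Z) (h1 : ∀ k, i' k = i (A k))
    (h2 : ∀ z, s' z = i (κ z) + s (B z)) :
    wd e i' s' = wd e i s * (LinearMap.det A * LinearMap.det B) := by
  rw [← tri A κ B, wd, wd, ← LinearMap.det_comp]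
  refine congrArg _ (LinearMap.ext fun q => ?_)
  simp [h1, h2, add_assoc]

theorem Ex.key (h : Ex i R) (e : H →ₗ[ℂ] K × Z) (s : Z →ₗ[ℂ] H) :
    wd e i s = wd e i (Omt.sec R) * LinearMap.det (R ∘ₗ s) := by
  rw [wd_comp e (i := i) (s := Omt.sec R) LinearMap.id
    (i.leftInverse ∘ₗ (s - Omt.sec R ∘ₗ R ∘ₗ s)) (R ∘ₗ s) (fun _ => rfl) fun z => ?_,
    LinearMap.det_id, one_mul]
  obtain ⟨k, hk⟩ := (h.ex (s z - Omt.sec R (R (s z)))).1 (by
    rw [map_sub, sub_eq_zero]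
    exact (LinearMap.congr_fun h.sec _).symm)
  change s z = i (i.leftInverse (s z - Omt.sec R (R (s z)))) + Omt.sec R (R (s z))
  rw [← hk, LinearMap.leftInverse_apply_of_inj (LinearMap.ker_eq_bot.2 h.inj), hk, sub_add_cancel]

theorem Ex.ne (h : Ex i R) {e : H →ₗ[ℂ] K × Z} (he : Injective e) : wd e i (Omt.sec R) ≠ 0 := by
  rw [wd, Ne, LinearMap.det_eq_zero_iff_ker_ne_bot, not_not, LinearMap.ker_eq_bot']
  intro q hq
  have h1 : i q.1 + Omt.sec R q.2 = 0 := he (hq.trans (map_zero e).symm)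
  have h2 : q.2 = 0 := by
    have h3 := congrArg R h1
    rw [map_add, (h.ex _).2 ⟨_, rfl⟩, zero_add, map_zero] at h3
    exact (LinearMap.congr_fun h.sec _).symm.trans h3
  rw [h2, map_zero, add_zero] at h1
  exact Prod.ext (h.inj (h1.trans (map_zero i).symm)) h2

theorem Ex.chg (h : Ex i R) (e : H →ₗ[ℂ] K × Z) {R' : H →ₗ[ℂ] Z} (h' : Ex i R') (T : Z →ₗ[ℂ] Z)
    (k : R' = T ∘ₗ R) : wd e i (Omt.sec R) = LinearMap.det T * wd e i (Omt.sec R') := by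
  rw [h'.key e, mul_comm]
  rw [show R' ∘ₗ Omt.sec R = T by rw [k, LinearMap.comp_assoc, h.sec, LinearMap.comp_id]]

theorem wd_smul (e : H →ₗ[ℂ] K × Z) (c : ℂ) (s : Z →ₗ[ℂ] H) :
    wd e (c • i) s = c ^ finrank ℂ K * wd e i s := by
  rw [wd_comp e (i := i) (s := s) (c • LinearMap.id) 0 LinearMap.id (by simp) (by simp),
    LinearMap.det_smul, LinearMap.det_id, LinearMap.det_id, mul_one, mul_one, mul_comm]

omit [FiniteDimensional ℂ K] [FiniteDimensional ℂ Z] in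
theorem Ex.rk [FiniteDimensional ℂ H] (h : Ex i R) : finrank ℂ H = finrank ℂ K + finrank ℂ Z := by
  rw [← R.finrank_range_add_finrank_ker, LinearMap.range_eq_top.2 h.surj, finrank_top,
    show LinearMap.ker R = LinearMap.range i from Submodule.ext h.ex,
    LinearMap.finrank_range_of_inj h.inj, add_comm]

end alg

variable {n N r d D k ν p δ : ℕ} {V : Mf n} {P : Eqs r N} {pt : Cm N → V.X}
  {F : Fam V P pt d D k} {Mc : Mo ν p} {Q : ND V d N ν} {a : BF d N} {y : Cm 2} {ξ : Cm n} {m : ℂ}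

theorem jm_smul (hP : Hom P δ) (c : ℂ) (x : Cm N) : Jm P (c • x) = c ^ (δ - 1) • Jm P x := by
  ext i j
  have h := (Hm.eval ((hP i).pderiv (i := j)) (hm_mono (i := 1) (j := 0) rfl x)).arg c ![1, 0]
  simpa [Jm] using h

/-- the tangent space of the cone -/
def EE (Q : ND V d N ν) (ξ : Cm n) : ℂ × Cm n →ₗ[ℂ] Cm N :=
  (LinearMap.toSpanSingleton ℂ _ (Q.lam ξ)).coprod (fderiv ℂ Q.lam ξ : Cm n →ₗ[ℂ] Cm N)

theorem EE_apply (z : ℂ × Cm n) : EE Q ξ z = z.1 • Q.lam ξ + fderiv ℂ Q.lam ξ z.2 := rfl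

/-- the value of a deformation -/
def RR (P : Eqs r N) (a : BF d N) (Q : ND V d N ν) (ξ : Cm n) (y : Cm 2) :
    Tg P a →ₗ[ℂ] ℂ × Cm n :=
  ((EE Q ξ).leftInverse (ev a y)).1⁻¹ •
    ((EE Q ξ).leftInverse ∘ₗ (evL d N y : BF d N →ₗ[ℂ] Cm N) ∘ₗ (Tg P a).subtype)

theorem RR_apply (b : Tg P a) : RR P a Q ξ y b =
    ((EE Q ξ).leftInverse (ev a y)).1⁻¹ • (EE Q ξ).leftInverse (ev b.1 y) := rfl

/-- the space of the twisted deformations -/
def KK (P : Eqs r N) (a : BF d N) : Type := H1 P a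

instance : AddCommGroup (KK P a) := (H1 P a).addCommGroup

instance : Module ℂ (KK P a) := (H1 P a).module

instance : FiniteDimensional ℂ (KK P a) := FiniteDimensional.finiteDimensional_submodule (H1 P a)

/-- the deformations which vanish at `y` -/
def ii (P : Eqs r N) (a : BF d N) (y : Cm 2) : KK P a →ₗ[ℂ] Tg P a where
  toFun μ := ⟨μ.1 y, (μ.2 y).1⟩
  map_add' _ _ := rfl
  map_smul' _ _ := rfl

/-- what is used at a point -/
structure Gd (P : Eqs r N) (a : BF d N) (Q : ND V d N ν) (ξ : Cm n) (y : Cm 2) (m : ℂ) : Prop where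
  ker : LinearMap.ker (EE Q ξ) = ⊥
  ne : m ≠ 0
  val : EE Q ξ (m, 0) = ev a y
  tan : ∀ v, Jm P (ev a y) *ᵥ v = 0 ↔ ∃ z, EE Q ξ z = v

theorem gd (H : Hyp V P δ pt d) (ha : F.M a) (hQ : NF F Mc Q) (hy : y ≠ 0)
    (hD : Q.Dm (pt (ev a y))) : ∃ m, Gd P a Q (Q.χ (pt (ev a y))) y m := by
  have h1 := (F.cd a ha).1 y hy
  obtain ⟨h2, h3⟩ := hQ.lam_in _ hD.2
  obtain ⟨m, hm⟩ := H.cone.inj _ _ h2 h1 (h3.trans (Q.χ.left_inv hD.1))
  have m0 : m ≠ 0 := fun e => h1.1 (by rw [hm, e, zero_smul])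
  refine ⟨m, LinearMap.ker_eq_bot'.2 fun z hz => ?_, m0, ?_, fun v => ?_⟩
  · obtain ⟨k1, k2⟩ := hQ.lam_ind _ hD.2 z.2 z.1 ((add_comm _ _).trans hz)
    exact Prod.ext k2 k1
  · rw [EE_apply, map_zero, add_zero, ← hm]
  · rw [show Jm P (ev a y) = _ from (congrArg _ hm).trans (jm_smul H.cone.hom _ _),
      Matrix.smul_mulVec, smul_eq_zero, or_iff_right (pow_ne_zero _ m0), hQ.lam_tan _ hD.2]
    exact ⟨fun ⟨u, c, e⟩ => ⟨(c, u), (add_comm _ _).trans e.symm⟩,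
      fun ⟨z, e⟩ => ⟨z.2, z.1, e.symm.trans (add_comm _ _)⟩⟩

theorem Gd.lv (h : Gd P a Q ξ y m) (z : ℂ × Cm n) : (EE Q ξ).leftInverse (EE Q ξ z) = z :=
  LinearMap.leftInverse_apply_of_inj h.ker z

theorem Gd.m_ne (h : Gd P a Q ξ y m) : ((EE Q ξ).leftInverse (ev a y)).1 ≠ 0 := by
  rw [← h.val, h.lv]
  exact h.ne

theorem Gd.rr (h : Gd P a Q ξ y m) {b : Tg P a} {z : ℂ × Cm n} (k : EE Q ξ z = ev b.1 y) :
    RR P a Q ξ y b = m⁻¹ • z := by
  rw [RR_apply, ← h.val, ← k, h.lv, h.lv]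

theorem Gd.ex (h : Gd P a Q ξ y m) (hV : DIV) (hG : Gen P a) (hy : y ≠ 0) :
    Ex (ii P a y) (RR P a Q ξ y) := by
  refine ⟨(injective_iff_map_eq_zero _).2 fun μ e => Subtype.ext
    ((hV P a y hy).1 μ.1 μ.2 (congrArg Subtype.val e)), fun z => ?_, fun b => ?_⟩
  · obtain ⟨b, b1, b2⟩ := hG y hy _ ((h.tan _).2 ⟨m • z, rfl⟩)
    exact ⟨⟨b, b1⟩, by rw [h.rr b2.symm, inv_smul_smul₀ h.ne]⟩
  · obtain ⟨z, hz⟩ := (h.tan _).1 (b.2 y)
    rw [h.rr hz, smul_eq_zero, or_iff_right (inv_ne_zero h.ne)]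
    refine ⟨fun e => ?_, fun ⟨μ, e⟩ => ?_⟩
    · obtain ⟨μ, m1, m2⟩ := (hV P a y hy).2.1 b.1 ⟨b.2, by rw [← hz, e, map_zero]⟩
      exact ⟨⟨μ, m1⟩, Subtype.ext m2⟩
    · rw [← e] at hz
      exact LinearMap.ker_eq_bot'.1 h.ker z (hz.trans (μ.2 y).2)

theorem RR_smul {c : ℂ} (hc : c ≠ 0) : RR P a Q ξ (c • y) = RR P a Q ξ y := by
  refine LinearMap.ext fun b => ?_
  rw [RR_apply, RR_apply, ev_arg, ev_arg, map_smul, map_smul, Prod.smul_fst, smul_smul, smul_eq_mul,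
    mul_inv, mul_right_comm, inv_mul_cancel₀ (pow_ne_zero _ hc), one_mul]

theorem an_lv (hL : LSOL) {ξ : Cm 2 → Cm n} (hξ : AnalyticAt ℂ ξ y) (hl : AnalyticAt ℂ Q.lam (ξ y))
    (h : ∀ᶠ t in 𝓝 y, ∃ m, Gd P a Q (ξ t) t m) {B : BF d N}
    (hB : ∀ t m, Gd P a Q (ξ t) t m → ∃ z, EE Q (ξ t) z = ev B t) :
    AnalyticAt ℂ (fun t => (EE Q (ξ t)).leftInverse (ev B t)) y := by
  refine (hL _ _ _ (fun t => EE Q (ξ t)) _ y (fun z => ?_) (LinearMap.ker_eq_bot.1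
    h.self_of_nhds.choose_spec.ker)).2 ((an_ev2 B).contDiffAt.analyticAt.congr
      (h.mono fun t ⟨m, k⟩ => ?_))
  · exact (analyticAt_const.smul (hl.comp hξ)).add
      ((ContinuousLinearMap.apply ℂ (Cm N) z.2).analyticAt _ |>.comp (hl.fderiv.comp hξ))
  · obtain ⟨z, hz⟩ := hB t m k
    simp only [← hz, k.lv]

end Omt

open Omt in
theorem omt_of (hL : LSOL) (hV : DIV) (hC : LCH) : OMT := by
  intro n N r d D k ν p V P pt F Mc hy a ha hN
  obtain ⟨δ, H⟩ := hy.hyp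
  have hG := H.gen a (F.cd a ha).1
  obtain ⟨e, he⟩ : ∃ e : Tg P a →ₗ[ℂ] KK P a × ℂ × Cm n, finrank ℂ (Tg P a) =
      finrank ℂ (KK P a) + finrank ℂ (ℂ × Cm n) → Injective e := by
    by_cases h : finrank ℂ (Tg P a) = finrank ℂ (KK P a) + finrank ℂ (ℂ × Cm n)
    · exact ⟨_, fun _ => (LinearEquiv.ofFinrankEq _ _ (h.trans finrank_prod.symm)).injective⟩
    · exact ⟨0, fun k => absurd k h⟩
  refine ⟨fun Q y => wd e (ii P a y) (sec (RR P a Q (Q.χ (pt (ev a y))) y)),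
    fun Q y hQ y0 hD => ?_⟩
  obtain ⟨m, g⟩ := gd H ha hQ y0 hD
  have x := g.ex hV hG y0
  refine ⟨?_, x.ne (he x.rk), fun c hc => ?_, fun Q' hQ' hD' => ?_⟩
  · obtain ⟨f1, -, _, _, -, -, f2⟩ := (hN Q hQ).fam (Cm 2) (fun _ => a) id y analyticAt_const
      analyticAt_id (.of_forall fun _ => ha) y0 hD
    have f3 : ∀ᶠ t in 𝓝 y, t ≠ 0 ∧ ∃ m, Gd P a Q (Q.χ (pt (ev a t))) t m := by
      filter_upwards [f2, isOpen_ne.mem_nhds y0] with t t1 t2 using ⟨t2, gd H ha hQ t2 t1.1⟩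
    have f4 := fun B => an_lv (B := B) hL f1 (hQ.lam_an _ hD.2) (f3.mono fun _ k => k.2)
    have f5 : AnalyticAt ℂ (fun t => LinearMap.det (RR P a Q (Q.χ (pt (ev a t))) t ∘ₗ
        sec (RR P a Q (Q.χ (pt (ev a y))) y))) y := an_det _ _ fun φ v =>
      ((LinearMap.toContinuousLinearMap φ).analyticAt _).comp
        (((analyticAt_fst.comp (f4 a fun t m k => ⟨_, k.val⟩)).inv g.m_ne).smul
          (f4 _ fun t m k => (k.tan _).1 ((sec (RR P a Q (Q.χ (pt (ev a y))) y) v).2 t)))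
    have f6 : AnalyticAt ℂ (fun t => wd e (ii P a t) (sec (RR P a Q (Q.χ (pt (ev a y))) y))) y :=
      an_det _ _ fun φ v => by
        simp only [LinearMap.comp_apply, LinearMap.coprod_apply, map_add]
        exact ((LinearMap.toContinuousLinearMap (φ ∘ₗ e ∘ₗ LinearMap.codRestrict _ v.1.1
          fun t => (v.1.2 t).1)).analyticAt _).add analyticAt_const
    have f7 : LinearMap.det (RR P a Q (Q.χ (pt (ev a y))) y ∘ₗ
        sec (RR P a Q (Q.χ (pt (ev a y))) y)) ≠ 0 := by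
      rw [x.sec, LinearMap.det_id]
      exact one_ne_zero
    refine (f6.div f5 f7).congr ?_
    filter_upwards [f3, f5.continuousAt.eventually_ne f7] with t ⟨t0, _, t1⟩ t2
    exact (div_eq_iff t2).2 ((t1.ex hV hG t0).key e _)
  · have r1 := x.rk
    rw [(F.cd a ha).2, finrank_prod, finrank_self, finrank_fin_fun] at r1
    have r2 := hy.dim
    have r3 := hy.dimD
    simp only [RR_smul hc]
    rw [ev_arg, H.cone.smul _ _ ((F.cd a ha).1 y y0) (pow_ne_zero _ hc),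
      show ii P a (c • y) = c • ii P a y from LinearMap.ext fun μ => Subtype.ext (map_smul μ.1 c y),
      wd_smul, show finrank ℂ (KK P a) = p + 2 by omega]
  · obtain ⟨m', g'⟩ := gd H ha hQ' y0 hD'
    obtain ⟨m0, l, -, l1, l2⟩ := hC F Mc hy Q Q' _ hQ hQ' hD hD'
    have key : ∀ z : ℂ × Cm n, EE Q' (Q'.χ (pt (ev a y)))
        (z.1 - l z.2, jacM Q.χ Q'.χ (pt (ev a y)) *ᵥ z.2) = m0 • EE Q (Q.χ (pt (ev a y))) z :=
      fun z => by
        rw [EE_apply, EE_apply, l2, l1]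
        module
    have mm : m = m0 * m' := by
      have h := (key (m, 0)).trans ((congrArg _ (g.val.trans g'.val.symm)).trans
        (map_smul _ m0 _).symm)
      simpa using congrArg Prod.fst (LinearMap.ker_eq_bot.1 g'.ker h)
    have m1 : m0 ≠ 0 := left_ne_zero_of_mul (mm ▸ g.ne)
    beta_reduce
    rw [x.chg e (g'.ex hV hG y0) ((LinearMap.id.coprod (-l)).prod
      (Matrix.toLin' (jacM Q.χ Q'.χ (pt (ev a y))) ∘ₗ LinearMap.snd ℂ ℂ (Cm n)))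
      (LinearMap.ext fun b => ?_), tri, LinearMap.det_id, LinearMap.det_toLin', one_mul]
    obtain ⟨z, hz⟩ := (g.tan _).1 (b.2 y)
    rw [LinearMap.comp_apply, g.rr hz, map_smul, g'.rr (z := m0⁻¹ • (z.1 - l z.2,
      jacM Q.χ Q'.χ (pt (ev a y)) *ᵥ z.2)) (by rw [map_smul, key, inv_smul_smul₀ m1, hz]), smul_smul,
      mm, mul_inv, mul_comm]
    simp [sub_eq_add_neg]

end Vale.Agent.P280Z.Tr
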