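import Vale.Agent.P280Z.Tr.Sk
import Vale.Agent.P280Z.Ma.Gloc

/-!
# P280Z, block Tr: the function `θ` on pointed parametrised curves (row THE)
-/

open scoped Manifold ContDiff Topology Matrix Matrix.Norms.Elementwise
open Set Filter
open Vale.Agent.P272.K Vale.Agent.P281Z Vale.Agent.P280Z.Mp Vale.Agent.P280Z.Ma
open Vale.Agent.P280Z.Pu (ap p1 p2)
open Vale.Agent.P277Z (Hol)
open Vale.Agent.P277Z.Slc (dd)

noncomputable section

namespace Vale.Agent.P280Z.Tr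

namespace The

theorem inv_an {E E' : Type} [NormedAddCommGroup E] [NormedSpace ℂ E] [FiniteDimensional ℂ E]
    [NormedAddCommGroup E'] [NormedSpace ℂ E'] [FiniteDimensional ℂ E'] {G : E → E'} {x : E}
    (hG : AnalyticAt ℂ G x) (hi : Function.Injective (fderiv ℂ G x))
    (hd : Module.finrank ℂ E = Module.finrank ℂ E') :
    ∃ H : E' → E, AnalyticAt ℂ H (G x) ∧ H (G x) = x ∧ ∀ᶠ y in 𝓝 (G x), G (H y) = y := by
  have := FiniteDimensional.complete ℂ E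
  have hf : ContDiffAt ℂ ω G x := hG.contDiffAt
  have h1 : HasFDerivAt G ((LinearMap.linearEquivOfInjective (fderiv ℂ G x : E →ₗ[ℂ] E') hi
      hd).toContinuousLinearEquiv : E →L[ℂ] E') x := hG.differentiableAt.hasFDerivAt
  have h2 := hf.hasStrictFDerivAt' h1 (by simp)
  exact ⟨hf.localInverse h1 (by simp), (hf.to_localInverse h1 (by simp)).analyticAt,
    hf.localInverse_apply_image h1 (by simp), h2.eventually_right_inverse⟩

/-- a matrix with the first column `zz j t` and the determinant `c` -/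
def gz (j : Fin 2) (t c : ℂ) : M2 := if j = 0 then !![1, 0; t, c] else !![t, -c; 1, 0]

theorem gz_det (j : Fin 2) (t c : ℂ) : (gz j t c).det = c := by
  unfold gz
  split_ifs <;> simp [Matrix.det_fin_two]

theorem gz_e0 (j : Fin 2) (t c : ℂ) : gz j t c *ᵥ e0 = (1 : ℂ) • zz j t := by
  funext i
  fin_cases j <;> fin_cases i <;> simp [gz, e0, zz, Matrix.mulVec, dotProduct, Fin.sum_univ_two]

theorem gz_an {E : Type} [NormedAddCommGroup E] [NormedSpace ℂ E] (j : Fin 2) {t c : E → ℂ} {x : E}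
    (ht : AnalyticAt ℂ t x) (hc : AnalyticAt ℂ c x) :
    ContDiffAt ℂ ω (fun y => gz j (t y) (c y)) x := by
  have h1 : ContDiffAt ℂ ω t x := ht.contDiffAt
  have h2 : ContDiffAt ℂ ω c x := hc.contDiffAt
  refine an_mat fun a b => ?_
  fin_cases j <;> fin_cases a <;> fin_cases b <;> simp [gz] <;> fun_prop

theorem e0_ne : e0 ≠ 0 := fun h => one_ne_zero (congrFun h 0)

theorem eq_zz (j : Fin 2) {w : Cm 2} (h : w j ≠ 0) : w = w j • zz j (w j.rev / w j) := by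
  funext i
  fin_cases j <;> fin_cases i <;> simp [zz] <;> exact (mul_div_cancel₀ _ h).symm

theorem an_p1 {k : ℕ} (w : Cm (k + 1)) : AnalyticAt ℂ (p1 k 1) w :=
  AnalyticAt.pi fun i => (ContinuousLinearMap.proj (R := ℂ) (φ := fun _ => ℂ)
    (Fin.castAdd 1 i)).analyticAt w

theorem an_p2 {k : ℕ} (w : Cm (k + 1)) : AnalyticAt ℂ (fun w => p2 k 1 w 0) w :=
  (ContinuousLinearMap.proj (R := ℂ) (φ := fun _ => ℂ) (Fin.natAdd k (0 : Fin 1))).analyticAt w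

theorem an_ap {E : Type} [NormedAddCommGroup E] [NormedSpace ℂ E] {k : ℕ} {v : E → Cm k}
    {t : E → ℂ} {x : E} (hv : AnalyticAt ℂ v x) (ht : AnalyticAt ℂ t x) :
    AnalyticAt ℂ (fun y => ap (v y) fun _ : Fin 1 => t y) x := AnalyticAt.pi fun i => by
  refine Fin.addCases (fun l => ?_) (fun l => ?_) i
  · simpa only [ap, Fin.append_left] using analyticAt_pi_iff.1 hv l
  · simpa only [ap, Fin.append_right] using ht

variable {n N r δ d D k ν p : ℕ} {V : Mf n} {P : Eqs r N} {pt : Cm N → V.X}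
  (F : Fam V P pt d D k)

/-- the data which compare `(a, z)` with the chart `i` -/
def Rp (a : BF d N) (z : Cm 2) (q : (Ix F × Fin 2) × M2 × ℂ) : Prop :=
  F.pu a z ∈ (cu F q.1.1 q.1.2).source ∧ a = act (ra F q.1.1 (F.p (F.pu a z))) q.2.1 ∧
    q.2.1 *ᵥ z = q.2.2 • rz F q.1.1 q.1.2 (F.pu a z)

open Classical in
/-- the function on pointed parametrised curves -/
def th (θ : (Tb F).ι → F.U.X → Cm ν) (a : BF d N) (z : Cm 2) : Cm ν :=
  if h : ∃ q, Rp F a z q then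
    (h.choose.2.1.det / h.choose.2.2 ^ 2) • θ h.choose.1 (F.pu a z) else 0

variable {F} {Mc : Mo ν p} {O : Set V.X} {θ : (Tb F).ι → F.U.X → Cm ν} {a : BF d N} {z : Cm 2}

theorem rp_ex (H : Hyp V P δ pt d) (ha : F.M a) (hz : z ≠ 0) : ∃ q, Rp F a z q := by
  obtain ⟨b, hb⟩ := Gl.ex_ck F (F.p (F.pu a z))
  obtain ⟨j, hj⟩ := Gl.ex_cu F b H.pos hb
  obtain ⟨g, c, h1, h2⟩ := (F.pu_eq _ a _ z (Gl.ra_m F b hb) ha (Gl.rz_ne F b j _) hz).1
    (Gl.cu_src F b j hj).2.2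
  exact ⟨((b, j), g, c), hj, h1, h2⟩

theorem rp_ne (H : Hyp V P δ pt d) (ha : F.M a) (hz : z ≠ 0) {q} (h : Rp F a z q) :
    q.2.1.det ≠ 0 ∧ q.2.2 ≠ 0 := by
  have h1 := h.2.1 ▸ (F.cd a ha).1.nz
  exact ⟨Gl.det_ne H.pos h1, fun e => Gl.mv_ne H.pos h1 hz (by rw [h.2.2, e, zero_smul])⟩

theorem key (H : Hyp V P δ pt d) (hM : MF F Mc O θ) (ha : F.M a) (hz : z ≠ 0)
    (hO : F.e (F.pu a z) ∈ O) {q q'} (h : Rp F a z q) (h' : Rp F a z q') :
    (q'.2.1.det / q'.2.2 ^ 2) • θ q'.1 (F.pu a z) = (q.2.1.det / q.2.2 ^ 2) • θ q.1 (F.pu a z) := by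
  obtain ⟨i, g, c⟩ := q
  obtain ⟨i', g', c'⟩ := q'
  have s := (Gl.cu_src F _ _ h.1).1
  have s' := (Gl.cu_src F _ _ h'.1).1
  have e1 := h'.2.1
  rw [Gl.gm_act F i.1 i'.1 s s', act_act] at e1
  obtain ⟨ζ, h1, h2⟩ := Gl.uniq H.pos H.low (Gl.ra_cd F _ s).1 (rp_ne H ha hz h).1
    (e1.symm.trans h.2.1)
  have h0 : ζ ≠ 0 := fun e => by simp [e, H.pos.ne'] at h1
  have e2 := congrArg (fun m : M2 => (m *ᵥ z) i.2) h2
  have e3 := congrArg Matrix.det h2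
  have e4 := (Gl.gc_spec F H.pos H.low i i' h.1 h'.1).2
  have e5 : g *ᵥ z = c • rz F i.1 i.2 (F.pu a z) := h.2.2
  have e6 : g' *ᵥ z = c' • rz F i'.1 i'.2 (F.pu a z) := h'.2.2
  simp only [← Matrix.mulVec_mulVec, Matrix.smul_mulVec, e5, e6, Matrix.mulVec_smul, e4,
    Pi.smul_apply, Gl.rz_self, smul_eq_mul, mul_one] at e2
  rw [Matrix.det_mul, Matrix.det_smul, Fintype.card_fin] at e3
  rw [hM.chg i i' _ h.1 h'.1 hO, smul_smul]
  refine congrArg (· • θ i (F.pu a z)) ?_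
  show g'.det / c' ^ 2 * ((gm F i.1 i'.1 _).det / gc F i i' _ ^ 2) = g.det / c ^ 2
  rw [div_mul_div_comm, mul_comm g'.det, e3, ← mul_pow, e2, mul_pow,
    mul_div_mul_left _ _ (pow_ne_zero 2 h0)]

theorem val (H : Hyp V P δ pt d) (hM : MF F Mc O θ) (ha : F.M a) (hz : z ≠ 0)
    (hO : F.e (F.pu a z) ∈ O) {q} (h : Rp F a z q) :
    th F θ a z = (q.2.1.det / q.2.2 ^ 2) • θ q.1 (F.pu a z) := by
  have h1 : ∃ q, Rp F a z q := ⟨q, h⟩
  rw [th, dif_pos h1]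
  exact key H hM ha hz hO h h1.choose_spec

theorem val2 (H : Hyp V P δ pt d) (hM : MF F Mc O θ) (b : Ix F) (j : Fin 2) {W : Cm (k + 1)}
    (hW : W ∈ (cu F b j).target) (hO : F.e ((cu F b j).symm W) ∈ O) {g : M2} {c : ℂ}
    (hg : g.det ≠ 0) (hz : z ≠ 0) (e : g *ᵥ z = c • zz j (p2 k 1 W 0)) :
    Ov F (F.e ((cu F b j).symm W)) (act (sl F b (p1 k 1 W)) g) z ∧
      th F θ (act (sl F b (p1 k 1 W)) g) z = (g.det / c ^ 2) • θ (b, j) ((cu F b j).symm W) := by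
  obtain ⟨-, -, -, s, h2⟩ := Gl.spec F b
  obtain ⟨-, h3, h4⟩ := h2 j
  have m1 := s _ (show W ∈ p1 k 1 ⁻¹' (ck F b).target from h3 ▸ hW)
  have m2 := F.inv _ g m1 hg
  have e1 : F.pu (act (sl F b (p1 k 1 W)) g) z = (cu F b j).symm W :=
    ((h4 W hW).trans ((F.pu_eq _ _ _ _ m1 m2 (Gl.zz_ne _ _) hz).2 ⟨g, c, rfl, e⟩)).symm
  have hs := (cu F b j).map_target hW
  refine ⟨⟨m2, hz, by rw [← F.e_pu _ _ m2 hz, e1]⟩, ?_⟩
  rw [val H hM m2 hz (e1 ▸ hO) (q := ((b, j), g, c)) ⟨e1 ▸ hs, by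
    rw [e1, ra, (Gl.cu_src F b j hs).2.1, (cu F b j).right_inv hW], by
    rw [e1, rz, (cu F b j).right_inv hW]
    exact e⟩, e1]

theorem ov_O {x : V.X} (hx : x ∈ O) (h : Ov F x a z) : F.e (F.pu a z) ∈ O := by
  rw [F.e_pu _ _ h.1 h.2.1, h.2.2]
  exact hx

theorem an_th (hM : MF F Mc O θ) (b : Ix F) (j : Fin 2) {u : F.U.X} (hu : u ∈ (cu F b j).source)
    (hO : F.e u ∈ O) : AnalyticAt ℂ (fun w => θ (b, j) ((cu F b j).symm w)) (cu F b j u) :=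
  AnalyticAt.pi fun l => hM.hol (b, j) u hu hO l _ (Gl.at_cu F b j hu)

theorem ev_O (hM : MF F Mc O θ) (b : Ix F) (j : Fin 2) {u : F.U.X} (hu : u ∈ (cu F b j).source)
    (hO : F.e u ∈ O) : ∀ᶠ w in 𝓝 (cu F b j u), w ∈ (cu F b j).target ∧
      F.e ((cu F b j).symm w) ∈ O :=
  ((cu F b j).open_target.eventually_mem ((cu F b j).map_source hu)).and
    (at_ev (P := fun y => F.e y ∈ O) (Gl.at_cu F b j hu)
      (F.e_hol.cont.continuousAt.eventually (hM.opn.eventually_mem hO)))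

theorem amb (H : Hyp V P δ pt d) (hM : MF F Mc O θ) {x : V.X} (hx : x ∈ O) (h : Ov F x a z) :
    ∃ Θ : BF d N × Cm 2 → Cm ν, AnalyticAt ℂ Θ (a, z) ∧
      ∀ᶠ q in 𝓝 (a, z), F.M q.1 → th F θ q.1 q.2 = Θ q := by
  obtain ⟨j, hj⟩ : ∃ j, z j ≠ 0 := Function.ne_iff.1 h.2.1
  let b : Ix F := ⟨a, h.1⟩
  obtain ⟨s, -, -, -, h2⟩ := Gl.spec F b
  obtain ⟨-, h3, h4⟩ := h2 j
  obtain ⟨vv, gg, v1, g1, v2, g2, q1⟩ := s.loc 0 s.mem
  have e0 : sl F b 0 = a := s.zero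
  rw [e0] at v1 g1 v2 g2 q1
  have ag : AnalyticAt ℂ (fun q : BF d N × Cm 2 => gg q.1) (a, z) :=
    g1.comp_of_eq analyticAt_fst rfl
  have aw : AnalyticAt ℂ (fun q : BF d N × Cm 2 => gg q.1 *ᵥ q.2) (a, z) :=
    (an_mv' ag.contDiffAt contDiffAt_snd).analyticAt
  have w0 : (gg a *ᵥ z) j ≠ 0 := by rwa [g2, Matrix.one_mulVec]
  have awj := analyticAt_pi_iff.1 aw j
  let W : BF d N × Cm 2 → Cm (k + 1) := fun q =>
    ap (vv q.1) fun _ => (gg q.1 *ᵥ q.2) j.rev / (gg q.1 *ᵥ q.2) j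
  have aW : AnalyticAt ℂ W (a, z) := an_ap (v1.comp_of_eq analyticAt_fst rfl)
    ((analyticAt_pi_iff.1 aw j.rev).fun_div awj w0)
  have t0 : W (a, z) ∈ (cu F b j).target := by
    rw [h3, mem_preimage, Gl.p1_ap, v2]
    exact s.mem
  have u0 : (cu F b j).symm (W (a, z)) = F.pu a z := by
    rw [h4 _ t0, Gl.p1_ap, Gl.p2_ap, v2, e0]
    exact (F.pu_eq _ _ _ _ h.1 h.1 (Gl.zz_ne _ _) h.2.1).2
      ⟨gg a, _, by rw [g2, act_one], eq_zz j w0⟩
  have hu := (cu F b j).map_target t0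
  have hO : F.e ((cu F b j).symm (W (a, z))) ∈ O := u0 ▸ ov_O hx h
  have a1 := an_th hM b j hu hO
  have a2 := ev_O hM b j hu hO
  rw [(cu F b j).right_inv t0] at a1 a2
  have ad : AnalyticAt ℂ (fun q : BF d N × Cm 2 => (gg q.1).det) (a, z) := by
    have k := fun i l => (an_ent i l).contDiffAt.analyticAt.comp ag
    simp only [Matrix.det_fin_two]
    exact ((k 0 0).mul (k 1 1)).sub ((k 0 1).mul (k 1 0))
  refine ⟨fun q => ((gg q.1).det / (gg q.1 *ᵥ q.2) j ^ 2) • θ (b, j) ((cu F b j).symm (W q)),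
    (ad.fun_div (awj.fun_pow 2) (pow_ne_zero 2 w0)).fun_smul (a1.comp aW), ?_⟩
  filter_upwards [aW.continuousAt.eventually a2, awj.continuousAt.eventually_ne w0,
    continuousAt_fst.eventually q1] with q k1 k2 k3 hq
  have c1 := (F.cd _ hq).1
  have e1 := k3 c1
  have k4 := (val2 H hM b j k1.1 k1.2 (g := gg q.1) (z := q.2) (Gl.det_ne H.pos (e1 ▸ c1.nz))
    (fun e => k2 (by simp [e])) (by rw [Gl.p2_ap]; exact eq_zz j k2)).2
  rwa [Gl.p1_ap, ← e1] at k4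

theorem sec (H : Hyp V P δ pt d) (hd : k + 1 = n + p) (hS : Mc.Sm) (hC : CAP Mc)
    (hM : MF F Mc O θ) {x : V.X} (hx : x ∈ O) {v : Cm ν} (hv : v ∈ Mc.C) {χ : Chart n V.X}
    (hχ : At χ x) : ∃ (a : Cm n × Cm ν → BF d N) (z : Cm n × Cm ν → Cm 2),
      AnalyticAt ℂ a (χ x, v) ∧ AnalyticAt ℂ z (χ x, v) ∧ ∀ᶠ q in 𝓝 (χ x, v), q.2 ∈ Mc.C →
        Ov F (χ.symm q.1) (a q) (z q) ∧ th F θ (a q) (z q) = q.2 := by
  obtain ⟨⟨b, j⟩, u, hu, rfl, c, e1⟩ := hM.onto x hx v hv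
  have hu' : u ∈ (cu F b j).source := hu
  have hA := Gl.at_cu F b j hu'
  have hc : c ≠ 0 := fun e => hS.nz v hv (by rw [e1, e, zero_smul])
  have a1 := an_th hM b j hu' hx
  have a2 := ev_O hM b j hu' hx
  have a3 := (F.e_hol.at u).an hA hχ
  have l0 := (cu F b j).left_inv hu'
  set ϑ : Cm (k + 1) → Cm ν := fun w => θ (b, j) ((cu F b j).symm w) with hϑ
  set ε : Cm (k + 1) → Cm n := fun w => χ (F.e ((cu F b j).symm w)) with hε
  set W0 := cu F b j u with hW0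
  have e4 : ϑ W0 = θ (b, j) u := congrArg (θ (b, j)) l0
  have e2 : c • ϑ W0 = v := by rw [e1, e4]
  have e3 : ε W0 = χ (F.e u) := congrArg (fun y => χ (F.e y)) l0
  have hm : ∀ w (c' : ℂ), w ∈ (cu F b j).target ∧ F.e ((cu F b j).symm w) ∈ O → c' ≠ 0 →
      c' • ϑ w ∈ Mc.C := fun w c' k1 k2 =>
    hS.smul (ϑ w) (hM.mem (b, j) _ ((cu F b j).map_target k1.1) k1.2) c' k2
  have b1 : AnalyticAt ℂ (fun q : Cm (k + 1) × ℂ => q.2 • ϑ q.1) (W0, c) :=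
    analyticAt_snd.fun_smul (a1.comp_of_eq analyticAt_fst rfl)
  have b2 : AnalyticAt ℂ (fun q : Cm (k + 1) × ℂ => ε q.1) (W0, c) :=
    a3.comp_of_eq analyticAt_fst rfl
  have b3 := (hS.anρ v hv).comp_of_eq b1 e2
  have hi : Function.Injective
      (fderiv ℂ (fun q : Cm (k + 1) × ℂ => (ε q.1, Mc.ρ v (q.2 • ϑ q.1))) (W0, c)) := by
    refine (injective_iff_map_eq_zero _).2 fun q hq => ?_
    have l1 : HasDerivAt (fun s : ℂ => W0 + s • q.1) q.1 0 := by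
      simpa using ((hasDerivAt_id (0 : ℂ)).smul_const q.1).const_add W0
    have l2 : HasDerivAt (fun s : ℂ => c + s * q.2) q.2 0 := by
      simpa using ((hasDerivAt_id (0 : ℂ)).mul_const q.2).const_add c
    have l3 : HasDerivAt (fun s : ℂ => (c + s * q.2) • ϑ (W0 + s • q.1))
        (c • fderiv ℂ ϑ W0 q.1 + q.2 • ϑ W0) 0 := by
      simpa using l2.fun_smul (a1.differentiableAt.hasFDerivAt.comp_hasDerivAt_of_eq 0 l1 (by simp))
    have l4 := a3.differentiableAt.hasFDerivAt.comp_hasDerivAt_of_eq 0 l1 (by simp)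
    have l5 := (hS.anρ v hv).differentiableAt.hasFDerivAt.comp_hasDerivAt_of_eq 0 l3
      (by simp [e2])
    have l6 := (b2.prod b3).differentiableAt.hasFDerivAt.comp_hasDerivAt_of_eq 0 (l1.prodMk l2)
      (by simp)
    have l7 := (l4.prodMk l5).unique l6
    have l8 := l7.trans hq
    have m0 : AnalyticAt ℂ (fun s : ℂ => (W0 + s • q.1, c + s * q.2)) 0 := by fun_prop
    have m1 : AnalyticAt ℂ (fun s : ℂ => (c + s * q.2) • ϑ (W0 + s • q.1)) 0 :=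
      b1.comp_of_eq m0 (by simp)
    have m2 := hC.vel _ m1 (by
      have t1 : Tendsto (fun s : ℂ => W0 + s • q.1) (𝓝 0) (𝓝 W0) := by
        simpa using l1.continuousAt.tendsto
      have t2 : Tendsto (fun s : ℂ => c + s * q.2) (𝓝 0) (𝓝 c) := by
        simpa using l2.continuousAt.tendsto
      filter_upwards [t1.eventually a2, t2.eventually_ne hc] with s k1 k2 using hm _ _ k1 k2)
    rw [l3.deriv] at m2
    simp only [zero_mul, zero_smul, add_zero, e2] at m2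
    have m3 := ((hC.ret v hv).self_of_nhds hv).2.1 _ m2
    rw [show fderiv ℂ (Mc.ρ v) v _ = 0 from congrArg Prod.snd l8, map_zero] at m3
    have m4 : q.1 = 0 := hM.imm (b, j) u hu hx _ χ hA hχ q.1 (-q.2 / c)
      (congrArg Prod.fst l8) fun l => by
        have m5 := congrFun m3 l
        have m6 : dd (fun u => θ (b, j) u l) (cu F b j) u q.1 = fderiv ℂ ϑ W0 q.1 l := by
          rw [hϑ, fderiv_pi fun l => (analyticAt_pi_iff.1 a1 l).differentiableAt]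
          rfl
        simp only [Pi.zero_apply, Pi.add_apply, Pi.smul_apply, smul_eq_mul, e4] at m5
        rw [m6]
        field_simp
        linear_combination -m5
    rw [m4, map_zero, smul_zero, zero_add] at m3
    refine Prod.ext m4 ((smul_eq_zero.1 m3.symm).resolve_right fun e => hS.nz v hv ?_)
    rw [← e2, e, smul_zero]
  obtain ⟨Hi, i1, i2, i3⟩ := inv_an (b2.prod b3) hi (by simp; omega)
  simp only [Function.comp_apply, e2, e3] at i1 i2 i3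
  have n1 : AnalyticAt ℂ (fun q : Cm n × Cm ν => (q.1, Mc.ρ v q.2)) (χ (F.e u), v) :=
    analyticAt_fst.prod ((hS.anρ v hv).comp_of_eq analyticAt_snd rfl)
  have n2 : AnalyticAt ℂ (fun q : Cm n × Cm ν => Hi (q.1, Mc.ρ v q.2)) (χ (F.e u), v) :=
    i1.comp_of_eq n1 rfl
  have n3 : AnalyticAt ℂ (fun q : Cm n × Cm ν => (Hi (q.1, Mc.ρ v q.2)).1) (χ (F.e u), v) :=
    analyticAt_fst.comp n2
  have n4 : AnalyticAt ℂ (fun q : Cm n × Cm ν => (Hi (q.1, Mc.ρ v q.2)).2) (χ (F.e u), v) :=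
    analyticAt_snd.comp n2
  have n5 : AnalyticAt ℂ (fun w => sl F b (p1 k 1 w)) W0 :=
    ((Gl.spec F b).1.an _ ((Gl.cu_src F b j hu').2.1 ▸
      (ck F b).map_source (Gl.cu_src F b j hu').1)).comp (an_p1 W0)
  have t2 := n2.continuousAt.tendsto
  rw [i2] at t2
  have t3 : Tendsto (fun q : Cm n × Cm ν => (Hi (q.1, Mc.ρ v q.2)).1) _ (𝓝 W0) := t2.fst_nhds
  have t4 := b1.continuousAt.tendsto.comp t2
  rw [e2] at t4
  refine ⟨fun q => act (sl F b (p1 k 1 (Hi (q.1, Mc.ρ v q.2)).1))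
    (gz j (p2 k 1 (Hi (q.1, Mc.ρ v q.2)).1 0) (Hi (q.1, Mc.ρ v q.2)).2), fun _ => e0,
    (an_act' (n5.comp_of_eq n3 (congrArg Prod.fst i2)).contDiffAt
      (gz_an j ((an_p2 _).comp n3) n4)).analyticAt, analyticAt_const, ?_⟩
  filter_upwards [t3.eventually a2, t2.snd_nhds.eventually_ne hc, n1.continuousAt.eventually i3,
    t3.eventually (at_map F.e_hol.cont.continuousAt hA hχ), t4.eventually (hS.κρ v hv),
    continuousAt_snd.eventually (hS.κρ v hv)] with q k1 k2 k3 k4 k5 k6 hq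
  obtain ⟨r1, r2⟩ := val2 H hM b j k1.1 k1.2 (by rw [gz_det]; exact k2) e0_ne (gz_e0 j _ _)
  have r3 : ε (Hi (q.1, Mc.ρ v q.2)).1 = q.1 := congrArg Prod.fst k3
  have r4 : Mc.ρ v ((Hi (q.1, Mc.ρ v q.2)).2 • ϑ (Hi (q.1, Mc.ρ v q.2)).1) = Mc.ρ v q.2 :=
    congrArg Prod.snd k3
  refine ⟨((congrArg χ.symm r3).symm.trans k4.left_inv).symm ▸ r1, ?_⟩
  rw [r2, gz_det, one_pow, div_one]
  exact (k5 (hm _ _ k1 k2)).symm.trans ((congrArg _ r4).trans (k6 hq))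

end The

open The in
/-- row THE -/
theorem the : THE := fun {n _ _ _ _ _ _ _ _ _ _} F Mc hy O θ hM => by
  obtain ⟨δ, H⟩ := hy.hyp
  refine ⟨th F θ, fun x hx a z h => ?_, fun x hx a z z' g c h hz hg e => ?_,
    fun x hx a z h => amb H hM hx h, fun x hx v hv => ?_, fun x hx a z a' z' h h' e => ?_,
    fun x hx v hv χ hχ => sec H hy.dim hy.sm hy.cap hM hx hv hχ⟩
  · obtain ⟨q, hq⟩ := rp_ex H h.1 h.2.1
    obtain ⟨k1, k2⟩ := rp_ne H h.1 h.2.1 hq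
    rw [val H hM h.1 h.2.1 (ov_O hx h) hq]
    exact hy.sm.smul _ (hM.mem _ _ hq.1 (ov_O hx h)) _ (div_ne_zero k1 (pow_ne_zero 2 k2))
  · obtain ⟨q, hq⟩ := rp_ex H h.1 h.2.1
    have m := F.inv a g h.1 hg
    have e1 : F.pu (act a g) z' = F.pu a z :=
      ((F.pu_eq _ _ _ _ h.1 m h.2.1 hz).2 ⟨g, c, rfl, e⟩).symm
    rw [val H hM h.1 h.2.1 (ov_O hx h) hq, val H hM m hz (e1 ▸ ov_O hx h)
      (q := (q.1, q.2.1 * g, c * q.2.2)) ⟨e1 ▸ hq.1, by rw [e1, ← act_act, ← hq.2.1], by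
        rw [e1, ← Matrix.mulVec_mulVec, e, Matrix.mulVec_smul, hq.2.2, smul_smul]⟩, e1, smul_smul,
      Matrix.det_mul, mul_pow, div_mul_div_comm, mul_comm g.det]
  · obtain ⟨a, z, -, -, h⟩ := sec H hy.dim hy.sm hy.cap hM hx hv (χ := chartAt (Cm n) x)
      ⟨chart_mem_atlas _ x, mem_chart_source _ x⟩
    have h1 := h.self_of_nhds hv
    rw [(chartAt (Cm n) x).left_inv (mem_chart_source _ x)] at h1
    exact ⟨_, _, h1⟩
  · obtain ⟨q, hq⟩ := rp_ex H h.1 h.2.1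
    obtain ⟨q', hq'⟩ := rp_ex H h'.1 h'.2.1
    obtain ⟨k1, k2⟩ := rp_ne H h'.1 h'.2.1 hq'
    rw [val H hM h.1 h.2.1 (ov_O hx h) hq, val H hM h'.1 h'.2.1 (ov_O hx h') hq',
      ← eq_inv_smul_iff₀ (div_ne_zero k1 (pow_ne_zero 2 k2)), smul_smul] at e
    have e1 := hM.inj _ _ _ hq.1 _ hq'.1 (ov_O hx h) (by
      rw [F.e_pu _ _ h.1 h.2.1, F.e_pu _ _ h'.1 h'.2.1, h.2.2, h'.2.2]) _ e
    obtain ⟨g, c, e2, e3⟩ := (F.pu_eq _ _ _ _ h.1 h'.1 h.2.1 h'.2.1).1 e1.symm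
    exact ⟨g, c, Gl.det_ne H.pos (e2 ▸ (F.cd _ h'.1).1.nz), e2, e3⟩

end Vale.Agent.P280Z.Tr
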