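import Vale.Agent.P280Z.Tr.Api
import Vale.Agent.P280Z.Tr.Hom

/-!
# P280Z, block Tr: the cone over the Veronese surface
-/

open scoped Manifold ContDiff Topology Matrix Matrix.Norms.Elementwise
open Set Filter Asymptotics
open Vale.Agent.P272.K Vale.Agent.P281Z Vale.Agent.P280Z.Mp

noncomputable section

namespace Vale.Agent.P280Z.Tr

/-- the quadratic monomials -/
def vr (x : Cm 3) : Cm 6 :=
  ![x 0 * x 0, x 1 * x 1, x 2 * x 2, x 0 * x 1, x 0 * x 2, x 1 * x 2]

/-- their polarisation -/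
def vb (x : Cm 3) : Cm 3 →ₗ[ℂ] Cm 6 where
  toFun y := ![2 * x 0 * y 0, 2 * x 1 * y 1, 2 * x 2 * y 2, x 0 * y 1 + x 1 * y 0,
    x 0 * y 2 + x 2 * y 0, x 1 * y 2 + x 2 * y 1]
  map_add' y z := by funext i; fin_cases i <;> simp <;> ring
  map_smul' c y := by funext i; fin_cases i <;> simp <;> ring

/-- the symmetric matrix of a vector -/
def sy (w : Cm 6) : Fin 3 → Fin 3 → ℂ := ![![w 0, w 3, w 4], ![w 3, w 1, w 5], ![w 4, w 5, w 2]]

open Classical in
/-- a root -/
def rt (v : Cm 6) : Cm 3 := if h : ∃ x, x ≠ 0 ∧ vr x = v then h.choose else 0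

open Classical in
/-- a coordinate which does not vanish -/
def ix (x : Cm 3) : Fin 3 := if h : ∃ i, x i ≠ 0 then h.choose else 0

/-- the branch of the square root -/
def sq (c t : ℂ) : ℂ := c * Complex.exp (Complex.log (t / c ^ 2) / 2)

/-- the cone over the Veronese surface -/
def Ver : Mo 6 2 where
  C := {v | ∃ x, x ≠ 0 ∧ vr x = v}
  TC v := LinearMap.range (vb (rt v))
  κ v s := vr (rt v + s)
  ρ v w := (sq (rt v (ix (rt v))) (sy w (ix (rt v)) (ix (rt v))))⁻¹ • sy w (ix (rt v)) - rt v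

namespace Vr

variable {T : Type} [NormedAddCommGroup T] [NormedSpace ℂ T] {τ : T} {x y u : Cm 3} {v : Cm 6}

theorem sy_vr (x : Cm 3) (i : Fin 3) : sy (vr x) i = x i • x := by
  funext j; fin_cases i <;> fin_cases j <;> simp [sy, vr] <;> ring

theorem sy_vb (x y : Cm 3) (i : Fin 3) : sy (vb x y) i = x i • y + y i • x := by
  funext j; fin_cases i <;> fin_cases j <;> simp [sy, vb] <;> ring

theorem vr_smul (c : ℂ) (x : Cm 3) : vr (c • x) = c ^ 2 • vr x := by
  funext i; fin_cases i <;> simp [vr] <;> ring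

theorem vr_add (x y : Cm 3) : vr (x + y) = vr x + vb x y + vr y := by
  funext i; fin_cases i <;> simp [vr, vb] <;> ring

theorem vb_self (x : Cm 3) : vb x x = (2 : ℂ) • vr x := by
  funext i; fin_cases i <;> simp [vr, vb] <;> ring

theorem vb_comm (x y : Cm 3) : vb x y = vb y x := by
  funext i; fin_cases i <;> simp [vb] <;> ring

theorem vb_smul (c : ℂ) (x y : Cm 3) : vb (c • x) y = c • vb x y := by
  rw [vb_comm, map_smul, vb_comm]

theorem vb_add (x y z : Cm 3) : vb (x + y) z = vb x z + vb y z := by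
  rw [vb_comm, map_add, vb_comm z, vb_comm z]

theorem ix_ne (h : x ≠ 0) : x (ix x) ≠ 0 := by
  have k : ∃ i, x i ≠ 0 := Function.ne_iff.1 h
  rw [ix, dif_pos k]; exact k.choose_spec

theorem vb_inj (h : x ≠ 0) : Function.Injective (vb x) := by
  refine (injective_iff_map_eq_zero _).2 fun y k => ?_
  have k1 := sy_vb x y (ix x)
  have k0 : sy 0 (ix x) = 0 := by
    funext j; generalize ix x = i; fin_cases i <;> fin_cases j <;> simp [sy]
  rw [k, k0] at k1
  have k2 := congrFun k1 (ix x)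
  simp only [Pi.zero_apply, Pi.add_apply, Pi.smul_apply, smul_eq_mul] at k2
  have k3 : y (ix x) = 0 := mul_left_cancel₀ (mul_ne_zero two_ne_zero (ix_ne h))
    (by linear_combination -k2)
  rw [k3, zero_smul, add_zero] at k1
  exact (smul_eq_zero.1 k1.symm).resolve_left (ix_ne h)

theorem vr_ne (h : x ≠ 0) : vr x ≠ 0 := fun k =>
  h (vb_inj h (by rw [vb_self, k, smul_zero, map_zero]))

theorem mem (h : x ≠ 0) : vr x ∈ Ver.C := ⟨x, h, rfl⟩

theorem rt_spec (h : v ∈ Ver.C) : rt v ≠ 0 ∧ vr (rt v) = v := by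
  have k : ∃ x, x ≠ 0 ∧ vr x = v := h
  rw [rt, dif_pos k]; exact k.choose_spec

theorem vr_eq (hx : x ≠ 0) (h : vr y = vr x) : ∃ c : ℂ, c ^ 2 = 1 ∧ y = c • x := by
  have k := (sy_vr y (ix x)).symm.trans ((congrArg (sy · (ix x)) h).trans (sy_vr x _))
  have k2 := congrFun k (ix x)
  simp only [Pi.smul_apply, smul_eq_mul] at k2
  have n := ix_ne hx
  have n' : y (ix x) ≠ 0 := fun q => n (by rw [q, zero_mul] at k2; simpa using k2.symm)
  refine ⟨x (ix x) / y (ix x), by field_simp; linear_combination -k2, ?_⟩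
  rw [div_eq_inv_mul, mul_smul, ← k, inv_smul_smul₀ n']

theorem tc (hx : x ≠ 0) {w : Cm 6} : w ∈ Ver.TC (vr x) ↔ ∃ u, vb x u = w := by
  obtain ⟨c, h1, h2⟩ := vr_eq hx (rt_spec (mem hx)).2
  show (∃ u, vb (rt (vr x)) u = w) ↔ _
  rw [h2]
  refine ⟨fun ⟨u, k⟩ => ⟨c • u, by rw [map_smul, ← vb_smul, k]⟩, fun ⟨u, k⟩ => ⟨c • u, ?_⟩⟩
  rw [map_smul, vb_smul, smul_smul, ← _root_.sq, h1, one_smul, k]

theorem an_vb {x y : T → Cm 3} (hx : AnalyticAt ℂ x τ) (hy : AnalyticAt ℂ y τ) :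
    AnalyticAt ℂ (fun t => vb (x t) (y t)) τ := by
  have a := an_app hx
  have b := an_app hy
  refine an_pi fun i => ?_
  fin_cases i
  exacts [(analyticAt_const.mul (a 0)).mul (b 0), (analyticAt_const.mul (a 1)).mul (b 1),
    (analyticAt_const.mul (a 2)).mul (b 2), ((a 0).mul (b 1)).add ((a 1).mul (b 0)),
    ((a 0).mul (b 2)).add ((a 2).mul (b 0)), ((a 1).mul (b 2)).add ((a 2).mul (b 1))]

theorem an_vr {x : T → Cm 3} (hx : AnalyticAt ℂ x τ) : AnalyticAt ℂ (fun t => vr (x t)) τ := by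
  have a := an_app hx
  refine an_pi fun i => ?_
  fin_cases i
  exacts [(a 0).mul (a 0), (a 1).mul (a 1), (a 2).mul (a 2), (a 0).mul (a 1), (a 0).mul (a 2),
    (a 1).mul (a 2)]

theorem an_sy (i : Fin 3) (w : Cm 6) : AnalyticAt ℂ (fun w => sy w i) w := by
  have a := an_app (analyticAt_id (𝕜 := ℂ) (z := w))
  refine an_pi fun j => ?_
  fin_cases i <;> fin_cases j <;> exact a _

theorem hd_vr {y : ℂ → Cm 3} {y' : Cm 3} {t : ℂ} (h : HasDerivAt y y' t) :
    HasDerivAt (fun s => vr (y s)) (vb (y t) y') t := by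
  have a := hasDerivAt_pi.1 h
  refine hasDerivAt_pi.2 fun i => ?_
  fin_cases i
  · exact ((a 0).mul (a 0)).congr_deriv (by simp [vb]; ring)
  · exact ((a 1).mul (a 1)).congr_deriv (by simp [vb]; ring)
  · exact ((a 2).mul (a 2)).congr_deriv (by simp [vb]; ring)
  · exact ((a 0).mul (a 1)).congr_deriv (by simp [vb]; ring)
  · exact ((a 0).mul (a 2)).congr_deriv (by simp [vb]; ring)
  · exact ((a 1).mul (a 2)).congr_deriv (by simp [vb]; ring)

theorem an_sq {c : ℂ} (hc : c ≠ 0) : AnalyticAt ℂ (sq c) (c * c) := by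
  refine analyticAt_const.mul (AnalyticAt.cexp' (AnalyticAt.div (AnalyticAt.clog
    (analyticAt_id.div analyticAt_const (pow_ne_zero _ hc)) ?_) analyticAt_const two_ne_zero))
  rw [show c * c / c ^ 2 = 1 by field_simp]
  exact Complex.one_mem_slitPlane

theorem sq_self {c : ℂ} (hc : c ≠ 0) : sq c (c * c) = c := by
  rw [sq, show c * c / c ^ 2 = 1 by field_simp]; simp

theorem sq_sq {c t : ℂ} (hc : c ≠ 0) (ht : t ≠ 0) : sq c t * sq c t = t := by
  rw [sq, mul_mul_mul_comm, ← Complex.exp_add, add_halves,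
    Complex.exp_log (div_ne_zero ht (pow_ne_zero _ hc))]
  field_simp

theorem sq_near {c : ℂ} (hc : c ≠ 0) : ∀ᶠ t in 𝓝 c, sq c (t * t) = t := by
  have c1 : ContinuousAt (fun t => sq c (t * t) + t) c :=
    (ContinuousAt.comp (f := fun t => t * t) (an_sq hc).continuousAt (by fun_prop)).add
      continuousAt_id
  have c2 : sq c (c * c) + c ≠ 0 := by rw [sq_self hc, ← two_mul]; exact mul_ne_zero two_ne_zero hc
  filter_upwards [c1.eventually_ne c2, eventually_ne_nhds hc] with t k1 k2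
  exact (mul_self_eq_mul_self_iff.1 (sq_sq hc (mul_ne_zero k2 k2))).resolve_right fun q =>
    k1 (by rw [q, neg_add_cancel])

theorem sy_ii (x : Cm 3) (i : Fin 3) : sy (vr x) i i = x i * x i := by rw [sy_vr]; rfl

theorem anρ (h : v ∈ Ver.C) : AnalyticAt ℂ (Ver.ρ v) v := by
  obtain ⟨h1, h2⟩ := rt_spec h
  have e : sy v (ix (rt v)) (ix (rt v)) = rt v (ix (rt v)) * rt v (ix (rt v)) := by
    rw [← sy_ii, h2]
  refine (((AnalyticAt.comp_of_eq (an_sq (ix_ne h1)) (an_app (an_sy _ v) _) e).inv ?_).smul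
    (an_sy _ v)).sub analyticAt_const
  show sq _ (sy v _ _) ≠ 0
  rw [e, sq_self (ix_ne h1)]; exact ix_ne h1

theorem ρκ (h : v ∈ Ver.C) :
    ∀ᶠ s in 𝓝 (0 : Cm 3), Ver.κ v s ∈ Ver.C ∧ Ver.ρ v (Ver.κ v s) = s := by
  obtain ⟨h1, -⟩ := rt_spec h
  have c : Tendsto (fun s : Cm 3 => (rt v + s) (ix (rt v))) (𝓝 0) (𝓝 (rt v (ix (rt v)))) :=
    Continuous.tendsto' (by fun_prop) _ _ (by simp)
  filter_upwards [c.eventually (sq_near (ix_ne h1)), c.eventually_ne (ix_ne h1)] with s k1 k2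
  refine ⟨mem fun q => k2 (by rw [q]; rfl), ?_⟩
  show (sq _ (sy (vr (rt v + s)) _ _))⁻¹ • sy (vr (rt v + s)) _ - rt v = s
  rw [sy_ii, k1, sy_vr, inv_smul_smul₀ k2, add_sub_cancel_left]

theorem κρ (h : v ∈ Ver.C) : ∀ᶠ w in 𝓝 v, w ∈ Ver.C → Ver.κ v (Ver.ρ v w) = w := by
  obtain ⟨h1, h2⟩ := rt_spec h
  have e : sy v (ix (rt v)) (ix (rt v)) ≠ 0 := by
    rw [← h2, sy_ii, h2]; exact mul_ne_zero (ix_ne h1) (ix_ne h1)
  filter_upwards [(an_app (an_sy (ix (rt v)) v) (ix (rt v))).continuousAt.eventually_ne e]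
  rintro _ k ⟨y, -, rfl⟩
  show vr (rt v + ((sq _ (sy (vr y) _ _))⁻¹ • sy (vr y) _ - rt v)) = vr y
  have k2 := sq_sq (ix_ne h1) k
  have k3 : sq (rt v (ix (rt v))) (sy (vr y) (ix (rt v)) (ix (rt v))) ≠ 0 := fun q =>
    k (by rw [← k2, q, zero_mul])
  rw [add_sub_cancel, sy_vr y (ix (rt v)), smul_smul, vr_smul]
  rw [← sy_vr]
  rw [mul_pow, _root_.sq (y _), ← sy_ii, inv_pow, _root_.sq, k2, inv_mul_cancel₀ k, one_smul]

theorem fd_κ (v : Cm 6) (s : Cm 3) : fderiv ℂ (Ver.κ v) 0 s = vb (rt v) s := by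
  have a : AnalyticAt ℂ (Ver.κ v) 0 := an_vr (analyticAt_const.add analyticAt_id)
  have l : HasDerivAt (fun t : ℂ => t • s) s 0 := by simpa using (hasDerivAt_id (0 : ℂ)).smul_const s
  have h1 := (show HasFDerivAt (Ver.κ v) _ ((0 : ℂ) • s) by
    rw [zero_smul]; exact a.differentiableAt.hasFDerivAt).comp_hasDerivAt 0 l
  have h2 := hd_vr (l.const_add (rt v))
  rw [zero_smul, add_zero] at h2
  exact h1.unique h2

theorem span (α : Cm 6) (h : ∀ x, x ≠ 0 → α ⬝ᵥ vr x = 0) : α = 0 := by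
  have k : ∀ a b c : ℂ, a ≠ 0 ∨ b ≠ 0 ∨ c ≠ 0 → α 0 * (a * a) + α 1 * (b * b) + α 2 * (c * c) +
      α 3 * (a * b) + α 4 * (a * c) + α 5 * (b * c) = 0 := fun a b c q => by
    have := h ![a, b, c] fun e => by
      rcases q with q | q | q
      exacts [q (congrFun e 0), q (congrFun e 1), q (congrFun e 2)]
    simpa [dotProduct, Fin.sum_univ_six, vr] using this
  have k0 := k 1 0 0 (by simp)
  have k1 := k 0 1 0 (by simp)
  have k2 := k 0 0 1 (by simp)
  have k3 := k 1 1 0 (by simp)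
  have k4 := k 1 0 1 (by simp)
  have k5 := k 0 1 1 (by simp)
  funext i
  fin_cases i
  · show α 0 = 0; linear_combination k0
  · show α 1 = 0; linear_combination k1
  · show α 2 = 0; linear_combination k2
  · show α 3 = 0; linear_combination k3 - k0 - k1
  · show α 4 = 0; linear_combination k4 - k0 - k2
  · show α 5 = 0; linear_combination k5 - k1 - k2

theorem ext {m : ℕ} {η η' : Matrix (Fin m) (Fin 6) ℂ} (h : ∀ x, x ≠ 0 → η *ᵥ vr x = η' *ᵥ vr x) :
    η = η' := by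
  ext i j
  exact sub_eq_zero.1 (congrFun (span (η i - η' i) fun x hx => by
    rw [sub_dotProduct]; exact sub_eq_zero.2 (congrFun (h x hx) i)) j)

theorem an_f {W : Type} [NormedAddCommGroup W] [NormedSpace ℂ W] {f : Cm 6 → W} (h : AnC Ver.C f)
    (hx : x ≠ 0) : AnalyticAt ℂ (fun x => f (vr x)) x :=
  h.an (an_vr analyticAt_id) ((eventually_ne_nhds hx).mono fun _ k => mem k)

/-- the representation of the matrices of order three -/
def rp (L : Matrix (Fin 3) (Fin 3) ℂ) : Matrix (Fin 6) (Fin 6) ℂ :=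
  !![2 * L 0 0, 0, 0, 2 * L 0 1, 2 * L 0 2, 0; 0, 2 * L 1 1, 0, 2 * L 1 0, 0, 2 * L 1 2;
    0, 0, 2 * L 2 2, 0, 2 * L 2 0, 2 * L 2 1; L 1 0, L 0 1, 0, L 0 0 + L 1 1, L 1 2, L 0 2;
    L 2 0, 0, L 0 2, L 2 1, L 0 0 + L 2 2, L 0 1; 0, L 2 1, L 1 2, L 2 0, L 1 0, L 1 1 + L 2 2]

theorem rp_vr (L : Matrix (Fin 3) (Fin 3) ℂ) (x : Cm 3) : rp L *ᵥ vr x = vb x (L *ᵥ x) := by
  funext i
  fin_cases i <;>
    simp [rp, vr, vb, Matrix.mulVec, dotProduct, Fin.sum_univ_six, Fin.sum_univ_three] <;> ring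

theorem rp_mem (L : Matrix (Fin 3) (Fin 3) ℂ) : rp L ∈ Ver.g0 := by
  rintro _ ⟨x, hx, rfl⟩
  exact (tc hx).2 ⟨_, (rp_vr L x).symm⟩

theorem g0_eq {η : Matrix (Fin 6) (Fin 6) ℂ} (h : η ∈ Ver.g0) : ∃ L, η = rp L := by
  have k : ∀ x : Cm 3, ∃ u, x ≠ 0 → vb x u = η *ᵥ vr x := fun x => by
    by_cases hx : x = 0
    exacts [⟨0, fun q => (q hx).elim⟩, ((tc hx).1 (h _ (mem hx))).imp fun _ q _ => q]
  choose u hu using k
  obtain ⟨L, hL⟩ := (hom 3 (Cm 3) 1 u (by norm_num) fun y hy => ⟨(lsol _ _ _ vb u y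
    (fun h => an_vb analyticAt_id analyticAt_const) (vb_inj hy)).2
    ((an_mulVec analyticAt_const (an_vr analyticAt_id)).congr
      ((eventually_ne_nhds hy).mono fun z q => (hu z q).symm)), fun c hc =>
    vb_inj (smul_ne_zero hc hy) (by
      rw [hu _ (smul_ne_zero hc hy), vr_smul, Matrix.mulVec_smul, ← hu y hy, zpow_one, map_smul,
        vb_smul, smul_smul, _root_.sq])⟩).2.2.1 rfl
  exact ⟨LinearMap.toMatrix' L, ext fun x hx => by
    rw [rp_vr, LinearMap.toMatrix'_mulVec, ← hL x hx, hu x hx]⟩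

theorem rp_vb (L : Matrix (Fin 3) (Fin 3) ℂ) (x u : Cm 3) :
    rp L *ᵥ vb x u = vb x (L *ᵥ u) + vb u (L *ᵥ x) := by
  have h := rp_vr L (x + u)
  rw [vr_add, Matrix.mulVec_add, Matrix.mulVec_add, rp_vr, rp_vr, Matrix.mulVec_add, vb_add,
    map_add, map_add] at h
  linear_combination (exp := 1) h

theorem tr_rp (L L' : Matrix (Fin 3) (Fin 3) ℂ) :
    (rp L * rp L').trace = 5 * (L * L').trace + L.trace * L'.trace := by
  simp [rp, Matrix.trace, Matrix.mul_apply, Fin.sum_univ_six, Fin.sum_univ_three]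
  ring

end Vr

open Vr

theorem ver_sm : Ver.Sm where
  ne := ⟨_, mem (x := fun _ => 1) fun h => one_ne_zero (congrFun h 0)⟩
  nz := by rintro _ ⟨x, hx, rfl⟩; exact vr_ne hx
  smul := by
    rintro _ ⟨x, hx, rfl⟩ c hc
    obtain ⟨s, rfl⟩ := IsAlgClosed.exists_pow_nat_eq c two_pos
    exact ⟨s • x, smul_ne_zero (fun q => hc (by rw [q]; simp)) hx, vr_smul s x⟩
  anκ v h := ⟨an_vr (analyticAt_const.add analyticAt_id), by
    show vr (rt v + 0) = v
    rw [add_zero, (rt_spec h).2]⟩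
  anρ _ := anρ
  ρκ _ := ρκ
  κρ _ := κρ
  tan v _ w := by simp only [fd_κ]; rfl
  deg0 f h k := by
    obtain ⟨a, ha⟩ := (hom 3 ℂ 0 (fun x => f (vr x)) (by norm_num) fun y hy =>
      ⟨an_f h hy, fun c hc => by
        rw [vr_smul, k _ (mem hy) _ (pow_ne_zero _ hc), zpow_zero, one_smul]⟩).2.1 rfl
    exact ⟨a, by rintro _ ⟨x, hx, rfl⟩; exact ha x hx⟩
  deg1 f h k := by
    obtain ⟨B, h1, h2⟩ := (hom 3 ℂ 2 (fun x => f (vr x)) (by norm_num) fun y hy =>
      ⟨an_f h hy, fun c hc => by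
        rw [vr_smul, k _ (mem hy) _ (pow_ne_zero _ hc), zpow_ofNat, smul_eq_mul]⟩).2.2.2 rfl
    let b : Fin 3 → Cm 3 := fun i => Pi.single i 1
    refine ⟨![B (b 0) (b 0), B (b 1) (b 1), B (b 2) (b 2), 2 * B (b 0) (b 1), 2 * B (b 0) (b 2),
      2 * B (b 1) (b 2)], ?_⟩
    rintro _ ⟨x, hx, rfl⟩
    have e : x = x 0 • b 0 + x 1 • b 1 + x 2 • b 2 := by
      funext i; fin_cases i <;> simp [b]
    rw [h2 x hx]
    conv_lhs => rw [e]
    simp only [map_add, map_smul, LinearMap.add_apply, LinearMap.smul_apply, smul_eq_mul,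
      h1 (b 1) (b 0), h1 (b 2) (b 0), h1 (b 2) (b 1)]
    simp [dotProduct, Fin.sum_univ_six, vr]
    ring
  span α h := span α fun x hx => h _ (mem hx)
  rig := by
    rintro _ ⟨x, hx, rfl⟩ η hη h
    obtain ⟨L, rfl⟩ := g0_eq hη
    have k : ∀ u, vb x (L *ᵥ u) + vb u (L *ᵥ x) = 0 := fun u => by
      rw [← rp_vb]; exact h _ ((tc hx).2 ⟨u, rfl⟩)
    have k1 : L *ᵥ x = 0 := vb_inj hx (by
      have := k x
      rw [← two_smul ℂ] at this
      rw [map_zero]; exact (smul_eq_zero.1 this).resolve_left two_ne_zero)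
    refine ext fun y _ => ?_
    have k2 : L *ᵥ y = 0 := vb_inj hx (by simpa [k1] using k y)
    rw [rp_vr, k2, map_zero, Matrix.zero_mulVec]
  red η hη h := by
    obtain ⟨L, rfl⟩ := g0_eq hη
    have k : ∀ i j, 5 * L j i + L.trace * (if i = j then 1 else 0) = 0 := fun i j => by
      have := h _ (rp_mem (Matrix.single i j 1))
      rw [tr_rp, Matrix.trace_mul_single] at this
      by_cases q : i = j
      · subst q; simpa using this
      · rw [Matrix.trace_single_eq_of_ne _ _ _ q] at this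
        simpa [q] using this
    have t : L.trace = 0 := by
      have k0 := k 0 0
      have k1 := k 1 1
      have k2 := k 2 2
      simp only [if_true, mul_one] at k0 k1 k2
      have e : L.trace = L 0 0 + L 1 1 + L 2 2 := Matrix.trace_fin_three L
      linear_combination (k0 + k1 + k2 + 5 * e) / 8
    have e : L = 0 := by
      ext i j
      have := k j i
      rw [t, zero_mul, add_zero] at this
      simpa using this
    exact ext fun x _ => by rw [rp_vr, e, Matrix.zero_mulVec, map_zero, Matrix.zero_mulVec]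

theorem ver_osc : Ver.Osc := by
  rintro _ ⟨x, hx, rfl⟩ α h
  refine span α fun u _ => ?_
  have c : Tendsto (fun t : ℂ => x + t • u) (𝓝 0) (𝓝 x) :=
    Continuous.tendsto' (by fun_prop) _ _ (by simp)
  have k := h (fun t => vr (x + t • u))
    (an_vr (analyticAt_const.add (analyticAt_id.smul analyticAt_const))) (by simp)
    ((c.eventually_ne hx).mono fun _ q => mem q)
  have k' := h (fun t => vr (x + t • -u))
    (an_vr (analyticAt_const.add (analyticAt_id.smul analyticAt_const))) (by simp)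
    (((c.comp (by simpa using (continuous_neg.tendsto (0 : ℂ)))).eventually_ne hx).mono
      fun t q => mem (by simpa using q))
  have k0 := h (fun _ => vr x) analyticAt_const rfl (Eventually.of_forall fun _ => mem hx)
  have k1 := ((k.add k').sub (k0.const_mul_left 2)).congr_left
    (f₂ := fun t => (2 * (α ⬝ᵥ vr u)) * t ^ 2) fun t => by
      simp only [vr_add, vr_smul, map_smul, dotProduct_add, dotProduct_smul,
        smul_eq_mul, ← neg_one_smul ℂ u]
      ring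
  by_contra q
  have k2 := (isLittleO_const_mul_left_iff (mul_ne_zero two_ne_zero q)).1 k1
  refine isLittleO_irrefl' ?_ k2
  exact (frequently_nhdsWithin_iff.1 (eventually_mem_nhdsWithin
    (s := ({0}ᶜ : Set ℂ)) (a := 0)).frequently).mono fun t q => by simpa using q.1

end Vale.Agent.P280Z.Tr
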